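import Vale.Agent.Lib.P322.Star
import Vale.Agent.Lib.P311.Cube

/-! Fourier side of the certificate: the noise operator and the inequality for every
`± 1`-valued function on the cube, at noise `ρ ≤ 2/5`. -/

set_option linter.unusedVariables false
set_option linter.unusedSectionVars false

namespace Vale.Agent.Lib.P322

open Finset Vale.Agent.Lib.P311

variable {ι : Type*} [Fintype ι] [DecidableEq ι]

/-- The noise operator on the cube, given on the Fourier side. -/
noncomputable def noise (ρ : ℝ) (F : (ι → Bool) → ℝ) (y : ι → Bool) : ℝ :=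
  ∑ S : Finset ι, ρ ^ S.card * hat F S * chi S y

lemma hat_of_coeff (a : Finset ι → ℝ) (S' : Finset ι) :
    hat (fun y => ∑ S, a S * chi S y) S' = a S' := by
  unfold hat
  have h2 : (2 : ℝ) ^ Fintype.card ι ≠ 0 := two_pow_ne
  have : ∑ y : ι → Bool, (∑ S, a S * chi S y) * chi S' y
      = ∑ S, a S * ∑ y : ι → Bool, chi S y * chi S' y := by
    simp_rw [Finset.sum_mul, Finset.mul_sum]
    rw [Finset.sum_comm]
    apply Finset.sum_congr rfl; intro S _
    apply Finset.sum_congr rfl; intro y _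
    ring
  rw [this]
  simp_rw [sum_chi_mul_chi]
  simp only [mul_ite, mul_zero]
  rw [Finset.sum_ite_eq' Finset.univ S']
  simp only [Finset.mem_univ, if_true]
  field_simp

lemma hat_noise (ρ : ℝ) (F : (ι → Bool) → ℝ) (S : Finset ι) :
    hat (noise ρ F) S = ρ ^ S.card * hat F S := by
  have := hat_of_coeff (fun S : Finset ι => ρ ^ S.card * hat F S) S
  exact this

lemma sum_eq_hat_empty (u : (ι → Bool) → ℝ) :
    ∑ y, u y = 2 ^ Fintype.card ι * hat u ∅ := by
  unfold hat
  have h2 : (2 : ℝ) ^ Fintype.card ι ≠ 0 := two_pow_ne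
  simp only [chi_empty, mul_one]
  field_simp

/-- The product kernel of the noise operator. -/
noncomputable def kern (ρ : ℝ) (x y : ι → Bool) : ℝ :=
  ∏ i, ((1 + ρ * (sg (x i) * sg (y i))) / 2)

lemma kern_eq (ρ : ℝ) (x y : ι → Bool) :
    kern ρ x y = (∑ S : Finset ι, ρ ^ S.card * (chi S x * chi S y)) / 2 ^ Fintype.card ι := by
  unfold kern
  rw [Finset.prod_div_distrib, Finset.prod_const, Finset.card_univ, Finset.prod_one_add,
    Finset.powerset_univ]
  congr 1
  apply Finset.sum_congr rfl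
  intro S _
  rw [Finset.prod_mul_distrib, Finset.prod_const, Finset.prod_mul_distrib]
  rfl

lemma noise_eq_sum_kern (ρ : ℝ) (u : (ι → Bool) → ℝ) (y : ι → Bool) :
    noise ρ u y = ∑ x, kern ρ x y * u x := by
  unfold noise hat
  have h2 : (2 : ℝ) ^ Fintype.card ι ≠ 0 := two_pow_ne
  have e : ∀ x : ι → Bool, kern ρ x y * u x
      = ∑ S : Finset ι, ρ ^ S.card * ((u x * chi S x) / 2 ^ Fintype.card ι) * chi S y := by
    intro x
    rw [kern_eq, Finset.sum_div, Finset.sum_mul]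
    apply Finset.sum_congr rfl; intro S _
    field_simp
  simp_rw [e]
  rw [Finset.sum_comm]
  apply Finset.sum_congr rfl; intro S _
  rw [Finset.sum_div, Finset.mul_sum, Finset.sum_mul]

lemma hat_const_one (S : Finset ι) :
    hat (fun _ : ι → Bool => (1 : ℝ)) S = if S = ∅ then 1 else 0 := by
  unfold hat
  have h2 : (2 : ℝ) ^ Fintype.card ι ≠ 0 := two_pow_ne
  split_ifs with h
  · subst h
    simp only [chi_empty, mul_one, Finset.sum_const, Finset.card_univ, Fintype.card_fun,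
      Fintype.card_bool, nsmul_eq_mul]
    push_cast
    field_simp
  · have : S.Nonempty := Finset.nonempty_iff_ne_empty.mpr h
    simp only [one_mul]
    rw [sum_chi_of_nonempty this]
    simp

lemma noise_one (ρ : ℝ) (y : ι → Bool) : noise ρ (fun _ => (1 : ℝ)) y = 1 := by
  unfold noise
  simp_rw [hat_const_one]
  simp only [mul_ite, mul_one, mul_zero, ite_mul, zero_mul]
  rw [Finset.sum_ite_eq' Finset.univ ∅]
  simp

lemma sum_kern (ρ : ℝ) (y : ι → Bool) : ∑ x, kern ρ x y = 1 := by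
  have := noise_eq_sum_kern ρ (fun _ => (1 : ℝ)) y
  rw [noise_one] at this
  simpa using this.symm

lemma kern_nonneg {ρ : ℝ} (h0 : |ρ| ≤ 1) (x y : ι → Bool) : 0 ≤ kern ρ x y := by
  unfold kern
  apply Finset.prod_nonneg
  intro i _
  have h1 := (abs_le.mp h0).1
  have h2 := (abs_le.mp h0).2
  cases x i <;> cases y i <;> simp [sg] <;> linarith

lemma abs_noise_le {ρ : ℝ} (h0 : |ρ| ≤ 1) {F : (ι → Bool) → ℝ} (hF : ∀ x, |F x| ≤ 1)
    (y : ι → Bool) : |noise ρ F y| ≤ 1 := by
  rw [noise_eq_sum_kern]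
  calc |∑ x, kern ρ x y * F x| ≤ ∑ x, |kern ρ x y * F x| := Finset.abs_sum_le_sum_abs _ _
    _ ≤ ∑ x, kern ρ x y := by
        apply Finset.sum_le_sum
        intro x _
        rw [abs_mul, abs_of_nonneg (kern_nonneg h0 x y)]
        exact mul_le_of_le_one_right (kern_nonneg h0 x y) (hF x)
    _ = 1 := sum_kern ρ y

/-- The antipodal map of the cube. -/
def negv (x : ι → Bool) : ι → Bool := fun i => !x i

lemma negv_negv (x : ι → Bool) : negv (negv x) = x := by
  funext i; simp [negv]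

/-- The antipodal map as a permutation. -/
def negEquiv : (ι → Bool) ≃ (ι → Bool) where
  toFun := negv
  invFun := negv
  left_inv := negv_negv
  right_inv := negv_negv

lemma sum_negv (φ : (ι → Bool) → ℝ) : ∑ x, φ (negv x) = ∑ x, φ x :=
  (negEquiv (ι := ι)).sum_comp φ

lemma chi_negv (S : Finset ι) (x : ι → Bool) : chi S (negv x) = (-1) ^ S.card * chi S x := by
  unfold chi negv
  simp_rw [sg_not]
  rw [Finset.prod_neg]

/-- Total odd Fourier weight of a `± 1`-valued function is at most `1 - mean`. -/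
theorem odd_weight_le {F : (ι → Bool) → ℝ} (hF : ∀ x, F x = 1 ∨ F x = -1) :
    ∑ S : Finset ι, (if Odd S.card then hat F S ^ 2 else 0) ≤ 1 - hat F ∅ := by
  set G : (ι → Bool) → ℝ := fun x => (F x - F (negv x)) / 2 with hG
  have h2 : (2 : ℝ) ^ Fintype.card ι ≠ 0 := two_pow_ne
  have h2pos : (0 : ℝ) < 2 ^ Fintype.card ι := by positivity
  have hatG : ∀ S : Finset ι, hat G S = (1 - (-1) ^ S.card) / 2 * hat F S := by
    intro S
    unfold hat
    have e1 : ∑ x, F (negv x) * chi S x = (-1) ^ S.card * ∑ x, F x * chi S x := by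
      have := sum_negv (fun x => F x * chi S (negv x))
      simp only [negv_negv] at this
      rw [this, Finset.mul_sum]
      apply Finset.sum_congr rfl; intro x _
      rw [chi_negv]; ring
    have e2 : ∑ x, G x * chi S x = (∑ x, F x * chi S x - ∑ x, F (negv x) * chi S x) / 2 := by
      rw [← Finset.sum_sub_distrib, Finset.sum_div]
      apply Finset.sum_congr rfl; intro x _
      rw [hG]; ring
    rw [e2, e1]
    field_simp
  have hpars := parseval G G
  have hbound : ∑ x, G x * G x ≤ 2 ^ Fintype.card ι * (1 - hat F ∅) := by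
    have hpt : ∀ x, G x * G x ≤ (1 - F x) / 2 + (1 - F (negv x)) / 2 := by
      intro x
      rw [hG]
      rcases hF x with h | h <;> rcases hF (negv x) with h' | h' <;> simp only [h, h'] <;> norm_num
    have hs : ∑ x, ((1 - F x) / 2 + (1 - F (negv x)) / 2)
        = 2 ^ Fintype.card ι * (1 - hat F ∅) := by
      have e1 : ∑ x, F (negv x) = ∑ x, F x := sum_negv F
      have e2 := sum_eq_hat_empty F
      have e3 : ∑ x : ι → Bool, (1 : ℝ) = 2 ^ Fintype.card ι := by
        simp [Finset.card_univ]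
      have : ∑ x, ((1 - F x) / 2 + (1 - F (negv x)) / 2)
          = ((∑ x : ι → Bool, (1 : ℝ)) - ∑ x, F x) / 2 + ((∑ x : ι → Bool, (1 : ℝ)) - ∑ x, F (negv x)) / 2 := by
        rw [← Finset.sum_sub_distrib, ← Finset.sum_sub_distrib, Finset.sum_div, Finset.sum_div,
          ← Finset.sum_add_distrib]
      rw [this, e1, e2, e3]
      ring
    rw [← hs]
    exact Finset.sum_le_sum fun x _ => hpt x
  have hle : ∑ S : Finset ι, hat G S * hat G S ≤ 1 - hat F ∅ := by
    rw [hpars] at hbound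
    exact le_of_mul_le_mul_left hbound h2pos
  refine le_trans (Finset.sum_le_sum fun S _ => ?_) hle
  rw [hatG S]
  split_ifs with hodd
  · rw [hodd.neg_one_pow]
    apply le_of_eq
    ring
  · exact mul_self_nonneg _

section main
variable {F : (ι → Bool) → ℝ}

lemma sum_F_mul_noise (ρ : ℝ) (F : (ι → Bool) → ℝ) :
    ∑ y, F y * noise ρ F y = 2 ^ Fintype.card ι * ∑ S, ρ ^ S.card * hat F S ^ 2 := by
  rw [parseval]
  congr 1
  apply Finset.sum_congr rfl; intro S _
  rw [hat_noise]; ring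

lemma sum_noise_mul_noise (ρ : ℝ) (F : (ι → Bool) → ℝ) :
    ∑ y, noise ρ F y * noise ρ F y = 2 ^ Fintype.card ι * ∑ S, (ρ ^ S.card) ^ 2 * hat F S ^ 2 := by
  rw [parseval]
  congr 1
  apply Finset.sum_congr rfl; intro S _
  rw [hat_noise]; ring

lemma sum_noise (ρ : ℝ) (F : (ι → Bool) → ℝ) :
    ∑ y, noise ρ F y = 2 ^ Fintype.card ι * hat F ∅ := by
  rw [sum_eq_hat_empty, hat_noise]
  simp

/-- Pointwise quadratic bound. -/
lemma pointwise {μ ρ : ℝ} (h0 : 0 ≤ μ) (h1 : μ < 1) (hr0 : 0 ≤ ρ) (hr : ρ ≤ 2 / 5)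
    {s t : ℝ} (hs : s = 1 ∨ s = -1) (ht : |t| ≤ 1) :
    let a := ctrA μ ρ
    let c := ctrC μ ρ
    let α := alp μ
    let Ca := Psi a - psi a * a + α * a ^ 2
    let Cc := Psi c - psi c * c + α * c ^ 2
    let La := psi a - 2 * α * a
    let Lc := psi c - 2 * α * c
    Psi t ≤ (Ca + Cc) / 2 + (Ca - Cc) / 2 * s + (La + Lc) / 2 * t + (La - Lc) / 2 * (s * t)
      + α * (t * t) := by
  intro a c α Ca Cc La Lc
  rcases hs with rfl | rfl
  · have := parabola h0 h1 (abs_ctrA_le h0 h1 hr0 hr) ht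
    have e : (Ca + Cc) / 2 + (Ca - Cc) / 2 * 1 + (La + Lc) / 2 * t + (La - Lc) / 2 * (1 * t)
        + α * (t * t) = Psi a + psi a * (t - a) + α * (t - a) ^ 2 := by
      simp only [Ca, Cc, La, Lc]; ring
    rw [e]; exact this
  · have := parabola h0 h1 (abs_ctrC_le h0 h1 hr0 hr) ht
    have e : (Ca + Cc) / 2 + (Ca - Cc) / 2 * (-1) + (La + Lc) / 2 * t + (La - Lc) / 2 * (-1 * t)
        + α * (t * t) = Psi c + psi c * (t - c) + α * (t - c) ^ 2 := by
      simp only [Ca, Cc, La, Lc]; ring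
    rw [e]; exact this

/-- Per-set bound for the quadratic form on the Fourier weights. -/
lemma level_bound {α v ρ : ℝ} (hα : 0 ≤ α) (hr0 : 0 ≤ ρ) (hr : ρ ≤ 1)
    (hc1 : 0 ≤ α * ρ ^ 2 + v * ρ) (hc2 : α * ρ ^ 2 + v ≤ 0) {k : ℕ} (hk : k ≠ 0) {w : ℝ}
    (hw : 0 ≤ w) :
    (v * ρ ^ k + α * (ρ ^ k) ^ 2) * w ≤ (if Odd k then (α * ρ ^ 2 + v * ρ) * w else 0) := by
  have hcase : k = 1 ∨ 2 ≤ k := by omega
  rcases hcase with rfl | hk2
  · simp only [pow_one, odd_one, if_true]
    apply le_of_eq; ring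
  · have hneg : v * ρ ^ k + α * (ρ ^ k) ^ 2 ≤ 0 := by
      have hp : ρ ^ k ≤ ρ ^ 2 := pow_le_pow_of_le_one hr0 hr hk2
      have hp0 : 0 ≤ ρ ^ k := pow_nonneg hr0 k
      have : v * ρ ^ k + α * (ρ ^ k) ^ 2 = ρ ^ k * (α * ρ ^ k + v) := by ring
      rw [this]
      apply mul_nonpos_of_nonneg_of_nonpos hp0
      have := mul_le_mul_of_nonneg_left hp hα
      linarith
    have h1 : (v * ρ ^ k + α * (ρ ^ k) ^ 2) * w ≤ 0 := mul_nonpos_of_nonpos_of_nonneg hneg hw
    split_ifs
    · exact h1.trans (mul_nonneg hc1 hw)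
    · exact h1

/-- The main inequality when the mean lies in `[0, 1)`. -/
theorem core_of_mean {F : (ι → Bool) → ℝ} (hF : ∀ x, F x = 1 ∨ F x = -1)
    (h0 : 0 ≤ hat F ∅) (h1 : hat F ∅ < 1) {ρ : ℝ} (hr0 : 0 ≤ ρ) (hr : ρ ≤ 2 / 5) :
    (∑ y, Psi (noise ρ F y)) / 2 ^ Fintype.card ι ≤ Psi ρ + Psi (hat F ∅) := by
  set μ := hat F ∅ with hμ
  have hN : (0 : ℝ) < 2 ^ Fintype.card ι := by positivity
  have hρabs : |ρ| ≤ 1 := by rw [abs_of_nonneg hr0]; linarith
  have hFabs : ∀ x, |F x| ≤ 1 := fun x => by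
    rcases hF x with h | h <;> simp [h]
  set a := ctrA μ ρ with ha
  set c := ctrC μ ρ with hc
  set α := alp μ with hα
  set Ca := Psi a - psi a * a + α * a ^ 2 with hCa
  set Cc := Psi c - psi c * c + α * c ^ 2 with hCc
  set La := psi a - 2 * α * a with hLa
  set Lc := psi c - 2 * α * c with hLc
  set v := (La - Lc) / 2 with hv
  have hvv : v = (psi a - psi c) / 2 - α * (a - c) := by
    rw [hv, hLa, hLc]; ring
  have hαpos : 0 < α := alp_pos h0 h1
  have hc1 : 0 ≤ α * ρ ^ 2 + v * ρ := by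
    rw [hvv]; exact cond_one h0 h1 hr0 hr
  have hc2 : α * ρ ^ 2 + v ≤ 0 := by
    rw [hvv]; exact cond_two h0 h1 hr0 hr
  -- pointwise bound, summed
  have hsum : ∑ y, Psi (noise ρ F y) ≤ ∑ y, ((Ca + Cc) / 2 + (Ca - Cc) / 2 * F y
      + (La + Lc) / 2 * noise ρ F y + v * (F y * noise ρ F y)
      + α * (noise ρ F y * noise ρ F y)) := by
    apply Finset.sum_le_sum
    intro y _
    exact pointwise h0 h1 hr0 hr (hF y) (abs_noise_le hρabs hFabs y)
  have hexp : ∑ y, ((Ca + Cc) / 2 + (Ca - Cc) / 2 * F y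
      + (La + Lc) / 2 * noise ρ F y + v * (F y * noise ρ F y)
      + α * (noise ρ F y * noise ρ F y))
      = 2 ^ Fintype.card ι * ((Ca + Cc) / 2 + (Ca - Cc) / 2 * μ + (La + Lc) / 2 * μ
        + ∑ S, (v * ρ ^ S.card + α * (ρ ^ S.card) ^ 2) * hat F S ^ 2) := by
    simp only [Finset.sum_add_distrib, ← Finset.mul_sum]
    rw [sum_F_mul_noise, sum_noise_mul_noise, sum_noise, sum_eq_hat_empty F]
    simp only [Finset.sum_const, Finset.card_univ, Fintype.card_fun, Fintype.card_bool,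
      nsmul_eq_mul]
    push_cast
    have : ∑ S : Finset ι, (v * ρ ^ S.card + α * (ρ ^ S.card) ^ 2) * hat F S ^ 2
        = v * ∑ S : Finset ι, ρ ^ S.card * hat F S ^ 2
          + α * ∑ S : Finset ι, (ρ ^ S.card) ^ 2 * hat F S ^ 2 := by
      rw [Finset.mul_sum, Finset.mul_sum, ← Finset.sum_add_distrib]
      apply Finset.sum_congr rfl; intro S _; ring
    rw [this]
    ring
  -- the Fourier sum
  have hfour : ∑ S : Finset ι, (v * ρ ^ S.card + α * (ρ ^ S.card) ^ 2) * hat F S ^ 2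
      ≤ (v + α) * μ ^ 2 + (α * ρ ^ 2 + v * ρ) * (1 - μ) := by
    have hterm : ∀ S : Finset ι, (v * ρ ^ S.card + α * (ρ ^ S.card) ^ 2) * hat F S ^ 2
        ≤ (if S = ∅ then (v + α) * μ ^ 2 else 0)
          + (α * ρ ^ 2 + v * ρ) * (if Odd S.card then hat F S ^ 2 else 0) := by
      intro S
      by_cases hS : S = ∅
      · subst hS
        simp [hμ]
      · have hk : S.card ≠ 0 := by
          rw [Finset.card_ne_zero]; exact Finset.nonempty_iff_ne_empty.mpr hS
        have := level_bound hαpos.le hr0 (by linarith) hc1 hc2 hk (sq_nonneg (hat F S))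
        rw [if_neg hS, zero_add]
        split_ifs at this ⊢ with hodd
        · exact this
        · simpa using this
    calc _ ≤ ∑ S : Finset ι, ((if S = ∅ then (v + α) * μ ^ 2 else 0)
          + (α * ρ ^ 2 + v * ρ) * (if Odd S.card then hat F S ^ 2 else 0)) :=
          Finset.sum_le_sum fun S _ => hterm S
      _ = (v + α) * μ ^ 2
          + (α * ρ ^ 2 + v * ρ) * ∑ S : Finset ι, (if Odd S.card then hat F S ^ 2 else 0) := by
          rw [Finset.sum_add_distrib, ← Finset.mul_sum, Finset.sum_ite_eq' Finset.univ ∅]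
          simp
      _ ≤ _ := by
          have := odd_weight_le hF
          rw [← hμ] at this
          have h3 := mul_le_mul_of_nonneg_left this hc1
          linarith
  have hid : (Ca + Cc) / 2 + (Ca - Cc) / 2 * μ + (La + Lc) / 2 * μ + ((v + α) * μ ^ 2
        + (α * ρ ^ 2 + v * ρ) * (1 - μ))
      = (1 + μ) / 2 * Psi a + (1 - μ) / 2 * Psi c + 3 * μ * ρ ^ 2 / (3 + 5 * μ) := by
    have hb : 1 + μ ≠ 0 := by linarith
    have hm : 1 - μ ≠ 0 := by linarith
    have hf : 3 + 5 * μ ≠ 0 := by linarith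
    rw [hv, hCa, hCc, hLa, hLc]
    generalize Psi a = Pa
    generalize Psi c = Pc
    generalize psi a = ga
    generalize psi c = gc
    rw [ha, hc, hα]
    unfold ctrA ctrC alp kap
    field_simp
    ring
  have hfinal := star h0 h1 hr0 hr
  rw [div_le_iff₀ hN]
  calc ∑ y, Psi (noise ρ F y) ≤ _ := hsum
    _ = _ := hexp
    _ ≤ 2 ^ Fintype.card ι * ((Ca + Cc) / 2 + (Ca - Cc) / 2 * μ + (La + Lc) / 2 * μ
        + ((v + α) * μ ^ 2 + (α * ρ ^ 2 + v * ρ) * (1 - μ))) := by
        apply mul_le_mul_of_nonneg_left _ hN.le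
        linarith
    _ = 2 ^ Fintype.card ι * ((1 + μ) / 2 * Psi a + (1 - μ) / 2 * Psi c
        + 3 * μ * ρ ^ 2 / (3 + 5 * μ)) := by rw [hid]
    _ ≤ _ := by
        rw [mul_comm]
        exact mul_le_mul_of_nonneg_right hfinal hN.le

end main

lemma Psi_nonneg {t : ℝ} (ht : |t| ≤ 1) : 0 ≤ Psi t := by
  have := hasSum_Psi ht
  apply this.nonneg
  intro k
  apply mul_nonneg (ee_nonneg k)
  have : t ^ (2 * k + 2) = (t ^ (k + 1)) ^ 2 := by ring
  rw [this]; positivity

lemma Psi_abs_le {t : ℝ} (ht : |t| ≤ 1) : Psi t ≤ Real.log 2 := by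
  have h : Psi t = Psi |t| := by
    rcases abs_cases t with ⟨h, _⟩ | ⟨h, _⟩
    · rw [h]
    · rw [h, Psi_neg]
  rw [h]
  exact Psi_le_log_two (abs_nonneg t) ht

lemma hat_neg (F : (ι → Bool) → ℝ) (S : Finset ι) :
    hat (fun x => - F x) S = - hat F S := by
  unfold hat
  simp only [neg_mul, Finset.sum_neg_distrib, neg_div]

lemma noise_neg (ρ : ℝ) (F : (ι → Bool) → ℝ) (y : ι → Bool) :
    noise ρ (fun x => - F x) y = - noise ρ F y := by
  unfold noise
  simp_rw [hat_neg]
  rw [← Finset.sum_neg_distrib]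
  apply Finset.sum_congr rfl; intro S _; ring

lemma abs_hat_empty_le {F : (ι → Bool) → ℝ} (hF : ∀ x, F x = 1 ∨ F x = -1) : |hat F ∅| ≤ 1 := by
  unfold hat
  have hN : (0 : ℝ) < 2 ^ Fintype.card ι := by positivity
  rw [abs_div, abs_of_pos hN, div_le_one hN]
  calc |∑ x, F x * chi ∅ x| ≤ ∑ x : ι → Bool, |F x * chi ∅ x| := Finset.abs_sum_le_sum_abs _ _
    _ ≤ ∑ x : ι → Bool, (1 : ℝ) := by
        apply Finset.sum_le_sum
        intro x _
        rcases hF x with h | h <;> simp [h]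
    _ = _ := by simp [Finset.card_univ]

/-- The inequality for the mean being nonnegative, including the constant function. -/
theorem core_of_nonneg {F : (ι → Bool) → ℝ} (hF : ∀ x, F x = 1 ∨ F x = -1)
    (h0 : 0 ≤ hat F ∅) {ρ : ℝ} (hr0 : 0 ≤ ρ) (hr : ρ ≤ 2 / 5) :
    (∑ y, Psi (noise ρ F y)) / 2 ^ Fintype.card ι ≤ Psi ρ + Psi (hat F ∅) := by
  rcases lt_or_eq_of_le (abs_hat_empty_le hF) with hlt | heq
  · exact core_of_mean hF h0 (abs_lt.mp hlt).2 hr0 hr
  · have hμ : hat F ∅ = 1 := by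
      rcases abs_cases (hat F ∅) with ⟨h, _⟩ | ⟨h, h'⟩
      · linarith
      · linarith
    rw [hμ, Psi_one]
    have hN : (0 : ℝ) < 2 ^ Fintype.card ι := by positivity
    have hρabs : |ρ| ≤ 1 := by rw [abs_of_nonneg hr0]; linarith
    have hFabs : ∀ x, |F x| ≤ 1 := fun x => by
      rcases hF x with h | h <;> simp [h]
    have hPρ : 0 ≤ Psi ρ := Psi_nonneg hρabs
    rw [div_le_iff₀ hN]
    have hle : ∑ y, Psi (noise ρ F y) ≤ ∑ y : ι → Bool, Real.log 2 :=
      Finset.sum_le_sum fun y _ => Psi_abs_le (abs_noise_le hρabs hFabs y)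
    have hc : ∑ y : ι → Bool, Real.log 2 = 2 ^ Fintype.card ι * Real.log 2 := by
      simp [Finset.card_univ]
    rw [hc] at hle
    nlinarith

/-- The main inequality for every `± 1`-valued function on the cube. -/
theorem core {F : (ι → Bool) → ℝ} (hF : ∀ x, F x = 1 ∨ F x = -1) {ρ : ℝ} (hr0 : 0 ≤ ρ)
    (hr : ρ ≤ 2 / 5) :
    (∑ y, Psi (noise ρ F y)) / 2 ^ Fintype.card ι ≤ Psi ρ + Psi (hat F ∅) := by
  rcases le_total 0 (hat F ∅) with h | h
  · exact core_of_nonneg hF h hr0 hr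
  · have hF' : ∀ x, (fun x => - F x) x = 1 ∨ (fun x => - F x) x = -1 := by
      intro x
      rcases hF x with h | h <;> simp [h]
    have hm : 0 ≤ hat (fun x => - F x) ∅ := by
      rw [hat_neg]; linarith
    have := core_of_nonneg hF' hm hr0 hr
    simp only [noise_neg, Psi_neg, hat_neg] at this
    exact this

end Vale.Agent.Lib.P322
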