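import Vale.Agent.Lib.P322.Defs
import Vale.Agent.Lib.P322.Core

/-! From mutual information to the function `Psi` and the noise operator. -/

set_option linter.unusedVariables false
set_option linter.unusedSectionVars false

namespace Vale.Agent.Lib.P322

open Finset Vale.Agent.Lib.P311

variable {n : ℕ}

lemma chan_eq_kern (ε : ℝ) (x y : Fin n → Bool) : chan ε x y = kern (1 - 2 * ε) x y := by
  unfold chan kern
  apply Finset.prod_congr rfl
  intro i _
  cases x i <;> cases y i <;> simp [sg] <;> ring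

/-- The sign form of `f`. -/
noncomputable def sgf (f : (Fin n → Bool) → Bool) (x : Fin n → Bool) : ℝ := sg (f x)

lemma sgf_cases (f : (Fin n → Bool) → Bool) (x : Fin n → Bool) : sgf f x = 1 ∨ sgf f x = -1 := by
  unfold sgf
  cases f x <;> simp [sg]

lemma joint_eq (f : (Fin n → Bool) → Bool) (ε : ℝ) (b : Bool) (y : Fin n → Bool) :
    joint f ε b y = (1 / 2 ^ n) * ((1 + sg b * noise (1 - 2 * ε) (sgf f) y) / 2) := by
  unfold joint
  rw [noise_eq_sum_kern]
  have e : ∀ x, (if f x = b then (1 / 2 ^ n) * chan ε x y else 0)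
      = (1 / 2 ^ n : ℝ) * ((kern (1 - 2 * ε) x y + sg b * (kern (1 - 2 * ε) x y * sgf f x)) / 2) := by
    intro x
    rw [chan_eq_kern]
    unfold sgf
    cases hfx : f x <;> cases b <;> simp [sg] <;> ring
  simp_rw [e]
  rw [← Finset.mul_sum, ← Finset.sum_div, Finset.sum_add_distrib, ← Finset.mul_sum, sum_kern]

lemma margY_eq (f : (Fin n → Bool) → Bool) (ε : ℝ) (y : Fin n → Bool) :
    margY f ε y = 1 / 2 ^ n := by
  unfold margY
  rw [Fintype.sum_bool, joint_eq, joint_eq]
  simp only [sg_true, sg_false]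
  ring

lemma margF_eq (f : (Fin n → Bool) → Bool) (ε : ℝ) (b : Bool) :
    margF f ε b = (1 + sg b * hat (sgf f) ∅) / 2 := by
  unfold margF
  simp_rw [joint_eq]
  rw [← Finset.mul_sum, ← Finset.sum_div, Finset.sum_add_distrib, ← Finset.mul_sum, sum_noise]
  have hN : (2 : ℝ) ^ n ≠ 0 := by positivity
  simp only [Finset.sum_const, Finset.card_univ, Fintype.card_fun, Fintype.card_bool,
    Fintype.card_fin, nsmul_eq_mul]
  push_cast
  field_simp

/-- One term of the mutual information. -/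
lemma term_eq {v w N : ℝ} (hN : 0 < N) (hv : 0 ≤ v) (hw : w = 0 → v = 0) :
    (1 / N) * (v / 2) * Real.logb 2 ((1 / N) * (v / 2) / ((w / 2) * (1 / N)))
      = (1 / N) * ((v / 2) * Real.log v - (v / 2) * Real.log w) / Real.log 2 := by
  rcases eq_or_lt_of_le hv with h | h
  · subst h; simp
  · have hw0 : w ≠ 0 := fun h0 => h.ne' (hw h0)
    have hr : (1 / N) * (v / 2) / ((w / 2) * (1 / N)) = v / w := by
      field_simp
    rw [hr, Real.logb, Real.log_div h.ne' hw0]
    ring

lemma mutualInfo_eq (f : (Fin n → Bool) → Bool) {ε : ℝ} (h0 : 0 ≤ ε) (h1 : ε ≤ 1) :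
    mutualInfo f ε = ((∑ y, Psi (noise (1 - 2 * ε) (sgf f) y)) / 2 ^ n - Psi (hat (sgf f) ∅))
      / Real.log 2 := by
  set ρ := 1 - 2 * ε with hρ
  set T := noise ρ (sgf f) with hT
  set μ := hat (sgf f) ∅ with hμ
  have hN : (0 : ℝ) < 2 ^ n := by positivity
  have hρabs : |ρ| ≤ 1 := by
    rw [abs_le]; constructor <;> linarith
  have hFabs : ∀ x, |sgf f x| ≤ 1 := fun x => by
    rcases sgf_cases f x with h | h <;> simp [h]
  have hTabs : ∀ y, |T y| ≤ 1 := abs_noise_le hρabs hFabs
  have hsumT : ∑ y, T y = 2 ^ n * μ := by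
    have := sum_noise ρ (sgf f)
    simpa using this
  have hcard : ∑ y : Fin n → Bool, (1 : ℝ) = 2 ^ n := by
    simp [Finset.card_univ]
  -- the general term for a sign `s`
  have hterm : ∀ (s : ℝ) (b : Bool), s = sg b → (s = 1 ∨ s = -1) →
      ∑ y, joint f ε b y * Real.logb 2 (joint f ε b y / (margF f ε b * margY f ε y))
        = (1 / 2 ^ n * ∑ y, (((1 + s * T y) / 2) * Real.log (1 + s * T y))
            - ((1 + s * μ) / 2) * Real.log (1 + s * μ)) / Real.log 2 := by
    intro s b hs hs2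
    have hv : ∀ y, 0 ≤ 1 + s * T y := by
      intro y
      have := abs_le.mp (hTabs y)
      rcases hs2 with rfl | rfl <;> linarith
    have hsumv : ∑ y, (1 + s * T y) = 2 ^ n * (1 + s * μ) := by
      rw [Finset.sum_add_distrib, ← Finset.mul_sum, hsumT, hcard]; ring
    have hw : 1 + s * μ = 0 → ∀ y, 1 + s * T y = 0 := by
      intro h y
      rw [h, mul_zero] at hsumv
      exact (Finset.sum_eq_zero_iff_of_nonneg (fun y _ => hv y)).mp hsumv y (Finset.mem_univ y)
    have hone : ∀ y, joint f ε b y * Real.logb 2 (joint f ε b y / (margF f ε b * margY f ε y))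
        = (1 / 2 ^ n) * (((1 + s * T y) / 2) * Real.log (1 + s * T y)
            - ((1 + s * T y) / 2) * Real.log (1 + s * μ)) / Real.log 2 := by
      intro y
      rw [joint_eq, margF_eq, margY_eq, ← hs]
      exact term_eq hN (hv y) (fun h => hw h y)
    simp_rw [hone]
    rw [← Finset.sum_div, ← Finset.mul_sum, Finset.sum_sub_distrib, ← Finset.sum_mul,
      ← Finset.sum_div, hsumv]
    field_simp
  unfold mutualInfo
  rw [Fintype.sum_bool, hterm 1 true (by simp) (Or.inl rfl), hterm (-1) false (by simp) (Or.inr rfl)]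
  have hps : ∀ t : ℝ, Psi t = ((1 + 1 * t) / 2) * Real.log (1 + 1 * t)
      + ((1 + -1 * t) / 2) * Real.log (1 + -1 * t) := by
    intro t
    unfold Psi
    have e1 : (1 : ℝ) + 1 * t = 1 + t := by ring
    have e2 : (1 : ℝ) + -1 * t = 1 - t := by ring
    rw [e1, e2]; ring
  have hsumPsi : ∑ y, Psi (T y) = ∑ y, (((1 + 1 * T y) / 2) * Real.log (1 + 1 * T y))
      + ∑ y, (((1 + -1 * T y) / 2) * Real.log (1 + -1 * T y)) := by
    rw [← Finset.sum_add_distrib]
    exact Finset.sum_congr rfl fun y _ => hps (T y)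
  rw [hsumPsi, hps μ]
  field_simp
  ring

lemma one_sub_h2 {ε : ℝ} (h0 : 0 < ε) (h1 : ε < 1) :
    1 - h2 ε = Psi (1 - 2 * ε) / Real.log 2 := by
  unfold h2 Psi Real.logb
  have hl : Real.log 2 ≠ 0 := (Real.log_pos (by norm_num)).ne'
  have e1 : (1 : ℝ) + (1 - 2 * ε) = 2 * (1 - ε) := by ring
  have e2 : (1 : ℝ) - (1 - 2 * ε) = 2 * ε := by ring
  rw [e1, e2, Real.log_mul (by norm_num) (by linarith), Real.log_mul (by norm_num) h0.ne']
  field_simp
  ring

/-- The Courtade-Kumar inequality for every Boolean function at crossover `ε ≥ 3/10`. -/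
theorem ck_of_ge (f : (Fin n → Bool) → Bool) {ε : ℝ} (h0 : 3 / 10 ≤ ε) (h1 : ε ≤ 1 / 2) :
    mutualInfo f ε ≤ 1 - h2 ε := by
  rw [mutualInfo_eq f (by linarith) (by linarith), one_sub_h2 (by linarith) (by linarith)]
  have hl : 0 < Real.log 2 := Real.log_pos (by norm_num)
  have := core (sgf_cases f) (ρ := 1 - 2 * ε) (by linarith) (by linarith)
  simp only [Fintype.card_fin] at this
  apply div_le_div_of_nonneg_right _ hl.le
  linarith

end Vale.Agent.Lib.P322
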