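import Vale.Agent.Lib.P322.NearFn

/-! Rational upper and lower bounds for logarithms, as computable functions with proofs. -/

set_option linter.unusedVariables false
set_option linter.unusedSectionVars false

namespace Vale.Agent.Lib.P322

open Finset

/-- Partial sum of the series of the inverse hyperbolic tangent. -/
def atL (z : ℚ) : ℚ := z + z ^ 3 / 3 + z ^ 5 / 5 + z ^ 7 / 7 + z ^ 9 / 9

/-- The same, with a bound for the tail valid for `0 ≤ z ≤ 1/5`. -/
def atU (z : ℚ) : ℚ := atL z + z ^ 11 / 11 * (25 / 24)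

/-- Upper bound for `log q` for `q` near `1`. -/
def baseU (q : ℚ) : ℚ := if 1 ≤ q then 2 * atU ((q - 1) / (q + 1)) else -2 * atL ((1 - q) / (1 + q))

/-- Lower bound for `log q` for `q` near `1`. -/
def baseL (q : ℚ) : ℚ := if 1 ≤ q then 2 * atL ((q - 1) / (q + 1)) else -2 * atU ((1 - q) / (1 + q))

/-- Lower bound for `log 2`. -/
def log2L : ℚ := 6931471803 / 10000000000

/-- Upper bound for `log 2`. -/
def log2U : ℚ := 6931471808 / 10000000000

/-- Upper bound for `log q`, `q > 0`, by halving and doubling. -/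
def logUB : ℕ → ℚ → ℚ
  | 0, q => q - 1
  | f + 1, q => if 3 / 2 < q then logUB f (q / 2) + log2U
      else if q < 3 / 4 then logUB f (2 * q) - log2L else baseU q

/-- Lower bound for `log q`, `q > 0`, by halving and doubling. -/
def logLB : ℕ → ℚ → ℚ
  | 0, q => 1 - 1 / q
  | f + 1, q => if 3 / 2 < q then logLB f (q / 2) + log2L
      else if q < 3 / 4 then logLB f (2 * q) - log2U else baseL q

lemma psi_neg (t : ℝ) : psi (-t) = - psi t := by
  unfold psi
  have h1 : (1 : ℝ) + -t = 1 - t := by ring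
  have h2 : (1 : ℝ) - -t = 1 + t := by ring
  rw [h1, h2]; ring

lemma psi_ge_partial {z : ℝ} (h0 : 0 ≤ z) (h1 : z < 1) :
    z + z ^ 3 / 3 + z ^ 5 / 5 + z ^ 7 / 7 + z ^ 9 / 9 ≤ psi z := by
  have habs : |z| < 1 := by rw [abs_of_nonneg h0]; exact h1
  have hs := hasSum_psi habs
  have := sum_le_hasSum (Finset.range 5) (fun k _ => by positivity) hs
  simp only [Finset.sum_range_succ, Finset.sum_range_zero] at this
  norm_num at this
  linarith

lemma psi_le_partial {z : ℝ} (h0 : 0 ≤ z) (h1 : z ≤ 1 / 5) :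
    psi z ≤ z + z ^ 3 / 3 + z ^ 5 / 5 + z ^ 7 / 7 + z ^ 9 / 9 + z ^ 11 / 11 * (25 / 24) := by
  have habs : |z| < 1 := by rw [abs_of_nonneg h0]; linarith
  have hs := hasSum_psi habs
  have hshift := (hasSum_nat_add_iff' 5).mpr hs
  have hz2 : z ^ 2 ≤ 1 / 25 := by nlinarith
  have hz20 : 0 ≤ z ^ 2 := sq_nonneg z
  have hgeo : HasSum (fun k : ℕ => z ^ 11 / 11 * (z ^ 2) ^ k) (z ^ 11 / 11 * (1 - z ^ 2)⁻¹) :=
    (hasSum_geometric_of_lt_one hz20 (by linarith)).mul_left _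
  have hle := hasSum_le (fun k => ?_) hshift hgeo
  · simp only [Finset.sum_range_succ, Finset.sum_range_zero] at hle
    norm_num at hle
    have h3 : z ^ 11 / 11 * (1 - z ^ 2)⁻¹ ≤ z ^ 11 / 11 * (25 / 24) := by
      apply mul_le_mul_of_nonneg_left _ (by positivity)
      rw [inv_le_comm₀ (by linarith) (by norm_num)]
      norm_num
      linarith
    linarith
  · have hk : (2 * ((k + 5 : ℕ) : ℝ) + 1) = 2 * (k : ℝ) + 11 := by push_cast; ring
    rw [hk]
    have e : z ^ (2 * (k + 5) + 1) = z ^ 11 * (z ^ 2) ^ k := by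
      rw [← pow_mul, ← pow_add]; congr 1; ring
    rw [e]
    have h11 : (1 : ℝ) / (2 * (k : ℝ) + 11) ≤ 1 / 11 := by
      apply one_div_le_one_div_of_le (by norm_num)
      have : (0 : ℝ) ≤ k := by positivity
      linarith
    have hp : 0 ≤ z ^ 11 * (z ^ 2) ^ k := by positivity
    calc 1 / (2 * (k : ℝ) + 11) * (z ^ 11 * (z ^ 2) ^ k) ≤ 1 / 11 * (z ^ 11 * (z ^ 2) ^ k) :=
          mul_le_mul_of_nonneg_right h11 hp
      _ = z ^ 11 / 11 * (z ^ 2) ^ k := by ring

lemma log_eq_two_psi {q : ℝ} (hq : 0 < q) : Real.log q = 2 * psi ((q - 1) / (q + 1)) := by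
  have hq1 : q + 1 ≠ 0 := by linarith
  have h1 : 1 + (q - 1) / (q + 1) = 2 * q / (q + 1) := by field_simp; ring
  have h2 : 1 - (q - 1) / (q + 1) = 2 / (q + 1) := by field_simp; ring
  unfold psi
  rw [h1, h2, Real.log_div (by positivity) hq1, Real.log_div (by norm_num) hq1,
    Real.log_mul (by norm_num) hq.ne']
  ring

lemma cast_atL (z : ℚ) : ((atL z : ℚ) : ℝ)
    = (z : ℝ) + (z : ℝ) ^ 3 / 3 + (z : ℝ) ^ 5 / 5 + (z : ℝ) ^ 7 / 7 + (z : ℝ) ^ 9 / 9 := by
  unfold atL; push_cast; ring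

lemma cast_atU (z : ℚ) : ((atU z : ℚ) : ℝ)
    = (z : ℝ) + (z : ℝ) ^ 3 / 3 + (z : ℝ) ^ 5 / 5 + (z : ℝ) ^ 7 / 7 + (z : ℝ) ^ 9 / 9
      + (z : ℝ) ^ 11 / 11 * (25 / 24) := by
  unfold atU; push_cast; rw [cast_atL]

lemma baseU_sound {q : ℚ} (h1 : 3 / 4 ≤ q) (h2 : q ≤ 3 / 2) :
    Real.log (q : ℝ) ≤ ((baseU q : ℚ) : ℝ) := by
  have hq0 : (0 : ℝ) < (q : ℝ) := by
    have : (0 : ℚ) < q := by linarith
    exact_mod_cast this
  have hq1 : (0 : ℝ) < (q : ℝ) + 1 := by linarith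
  rw [log_eq_two_psi hq0]
  unfold baseU
  split_ifs with h
  · have hq1' : (1 : ℝ) ≤ q := by exact_mod_cast h
    have hq2' : (q : ℝ) ≤ 3 / 2 := by
      have := (Rat.cast_le (K := ℝ)).mpr h2
      push_cast at this
      exact this
    push_cast
    rw [cast_atU]
    push_cast
    apply mul_le_mul_of_nonneg_left _ (by norm_num)
    apply psi_le_partial
    · apply div_nonneg <;> linarith
    · rw [div_le_iff₀ hq1]; linarith
  · have hq1' : (q : ℝ) < 1 := by
      have : q < 1 := lt_of_not_ge h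
      exact_mod_cast this
    have hq2' : (3 : ℝ) / 4 ≤ q := by
      have := (Rat.cast_le (K := ℝ)).mpr h1
      push_cast at this
      exact this
    push_cast
    rw [cast_atL]
    push_cast
    have e : ((q : ℝ) - 1) / ((q : ℝ) + 1) = - ((1 - (q : ℝ)) / (1 + (q : ℝ))) := by
      rw [add_comm (q : ℝ) 1, ← neg_div]; ring
    rw [e, psi_neg]
    have hz0 : 0 ≤ (1 - (q : ℝ)) / (1 + (q : ℝ)) := by
      apply div_nonneg <;> linarith
    have hz1 : (1 - (q : ℝ)) / (1 + (q : ℝ)) < 1 := by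
      rw [div_lt_one (by linarith)]; linarith
    have := psi_ge_partial hz0 hz1
    linarith

lemma baseL_sound {q : ℚ} (h1 : 3 / 4 ≤ q) (h2 : q ≤ 3 / 2) :
    ((baseL q : ℚ) : ℝ) ≤ Real.log (q : ℝ) := by
  have hq0 : (0 : ℝ) < (q : ℝ) := by
    have : (0 : ℚ) < q := by linarith
    exact_mod_cast this
  have hq1 : (0 : ℝ) < (q : ℝ) + 1 := by linarith
  rw [log_eq_two_psi hq0]
  unfold baseL
  split_ifs with h
  · have hq1' : (1 : ℝ) ≤ q := by exact_mod_cast h
    have hq2' : (q : ℝ) ≤ 3 / 2 := by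
      have := (Rat.cast_le (K := ℝ)).mpr h2
      push_cast at this
      exact this
    push_cast
    rw [cast_atL]
    push_cast
    apply mul_le_mul_of_nonneg_left _ (by norm_num)
    apply psi_ge_partial
    · apply div_nonneg <;> linarith
    · rw [div_lt_one hq1]; linarith
  · have hq1' : (q : ℝ) < 1 := by
      have : q < 1 := lt_of_not_ge h
      exact_mod_cast this
    have hq2' : (3 : ℝ) / 4 ≤ q := by
      have := (Rat.cast_le (K := ℝ)).mpr h1
      push_cast at this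
      exact this
    push_cast
    rw [cast_atU]
    push_cast
    have e : ((q : ℝ) - 1) / ((q : ℝ) + 1) = - ((1 - (q : ℝ)) / (1 + (q : ℝ))) := by
      rw [add_comm (q : ℝ) 1, ← neg_div]; ring
    rw [e, psi_neg]
    have hz0 : 0 ≤ (1 - (q : ℝ)) / (1 + (q : ℝ)) := by
      apply div_nonneg <;> linarith
    have hz1 : (1 - (q : ℝ)) / (1 + (q : ℝ)) ≤ 1 / 5 := by
      rw [div_le_iff₀ (by linarith)]; linarith
    have := psi_le_partial hz0 hz1
    linarith

lemma log2U_sound : Real.log 2 ≤ ((log2U : ℚ) : ℝ) := by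
  have := Real.log_two_lt_d9
  unfold log2U
  push_cast
  linarith

lemma log2L_sound : ((log2L : ℚ) : ℝ) ≤ Real.log 2 := by
  have := Real.log_two_gt_d9
  unfold log2L
  push_cast
  linarith

theorem logUB_sound (f : ℕ) (q : ℚ) (hq : 0 < q) : Real.log (q : ℝ) ≤ ((logUB f q : ℚ) : ℝ) := by
  induction f generalizing q with
  | zero =>
    have hq' : (0 : ℝ) < (q : ℝ) := by exact_mod_cast hq
    unfold logUB
    push_cast
    exact Real.log_le_sub_one_of_pos hq'
  | succ f ih =>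
    have hq' : (0 : ℝ) < (q : ℝ) := by exact_mod_cast hq
    unfold logUB
    split_ifs with h1 h2
    · push_cast
      have h3 := ih (q / 2) (by positivity)
      have h4 := log2U_sound
      push_cast at h3
      have e : Real.log (q : ℝ) = Real.log ((q : ℝ) / 2) + Real.log 2 := by
        rw [Real.log_div hq'.ne' (by norm_num)]; ring
      rw [e]; linarith
    · push_cast
      have h3 := ih (2 * q) (by positivity)
      have h4 := log2L_sound
      push_cast at h3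
      have e : Real.log (q : ℝ) = Real.log (2 * (q : ℝ)) - Real.log 2 := by
        rw [Real.log_mul (by norm_num) hq'.ne']; ring
      rw [e]; linarith
    · exact baseU_sound (le_of_not_gt h2) (le_of_not_gt h1)

theorem logLB_sound (f : ℕ) (q : ℚ) (hq : 0 < q) : ((logLB f q : ℚ) : ℝ) ≤ Real.log (q : ℝ) := by
  induction f generalizing q with
  | zero =>
    have hq' : (0 : ℝ) < (q : ℝ) := by exact_mod_cast hq
    unfold logLB
    push_cast
    have := Real.one_sub_inv_le_log_of_pos hq'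
    rwa [one_div]
  | succ f ih =>
    have hq' : (0 : ℝ) < (q : ℝ) := by exact_mod_cast hq
    unfold logLB
    split_ifs with h1 h2
    · push_cast
      have h3 := ih (q / 2) (by positivity)
      have h4 := log2L_sound
      push_cast at h3
      have e : Real.log (q : ℝ) = Real.log ((q : ℝ) / 2) + Real.log 2 := by
        rw [Real.log_div hq'.ne' (by norm_num)]; ring
      rw [e]; linarith
    · push_cast
      have h3 := ih (2 * q) (by positivity)
      have h4 := log2U_sound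
      push_cast at h3
      have e : Real.log (q : ℝ) = Real.log (2 * (q : ℝ)) - Real.log 2 := by
        rw [Real.log_mul (by norm_num) hq'.ne']; ring
      rw [e]; linarith
    · exact baseL_sound (le_of_not_gt h2) (le_of_not_gt h1)

/-- Fuel used for logarithms. -/
def fuel : ℕ := 20

/-- Upper bound for `x log x`. -/
def xlogU (x : ℚ) : ℚ := x * logUB fuel x

/-- Lower bound for `x log x`. -/
def xlogL (x : ℚ) : ℚ := x * logLB fuel x

lemma xlogU_sound {x : ℚ} (hx : 0 ≤ x) : (x : ℝ) * Real.log (x : ℝ) ≤ ((xlogU x : ℚ) : ℝ) := by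
  unfold xlogU
  push_cast
  rcases eq_or_lt_of_le hx with rfl | h
  · simp
  · exact mul_le_mul_of_nonneg_left (logUB_sound _ _ h) (by exact_mod_cast hx)

lemma xlogL_sound {x : ℚ} (hx : 0 ≤ x) : ((xlogL x : ℚ) : ℝ) ≤ (x : ℝ) * Real.log (x : ℝ) := by
  unfold xlogL
  push_cast
  rcases eq_or_lt_of_le hx with rfl | h
  · simp
  · exact mul_le_mul_of_nonneg_left (logLB_sound _ _ h) (by exact_mod_cast hx)

/-- Upper bound for `Psi t`, `|t| ≤ 1`. -/
def PsiU (t : ℚ) : ℚ := (xlogU (1 + t) + xlogU (1 - t)) / 2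

/-- Lower bound for `Psi t`, `|t| ≤ 1`. -/
def PsiL (t : ℚ) : ℚ := (xlogL (1 + t) + xlogL (1 - t)) / 2

lemma PsiU_sound {t : ℚ} (h1 : -1 ≤ t) (h2 : t ≤ 1) : Psi (t : ℝ) ≤ ((PsiU t : ℚ) : ℝ) := by
  have h3 := xlogU_sound (x := 1 + t) (by linarith)
  have h4 := xlogU_sound (x := 1 - t) (by linarith)
  unfold Psi PsiU
  push_cast at h3 h4 ⊢
  linarith

lemma PsiL_sound {t : ℚ} (h1 : -1 ≤ t) (h2 : t ≤ 1) : ((PsiL t : ℚ) : ℝ) ≤ Psi (t : ℝ) := by
  have h3 := xlogL_sound (x := 1 + t) (by linarith)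
  have h4 := xlogL_sound (x := 1 - t) (by linarith)
  unfold Psi PsiL
  push_cast at h3 h4 ⊢
  linarith

/-- Upper bound for `psi t`, `|t| < 1`. -/
def psiU (t : ℚ) : ℚ := (logUB fuel (1 + t) - logLB fuel (1 - t)) / 2

/-- Lower bound for `psi t`, `|t| < 1`. -/
def psiL (t : ℚ) : ℚ := (logLB fuel (1 + t) - logUB fuel (1 - t)) / 2

lemma psiU_sound {t : ℚ} (h1 : -1 < t) (h2 : t < 1) : psi (t : ℝ) ≤ ((psiU t : ℚ) : ℝ) := by
  have h3 := logUB_sound fuel (1 + t) (by linarith)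
  have h4 := logLB_sound fuel (1 - t) (by linarith)
  unfold psi psiU
  push_cast at h3 h4 ⊢
  linarith

lemma psiL_sound {t : ℚ} (h1 : -1 < t) (h2 : t < 1) : ((psiL t : ℚ) : ℝ) ≤ psi (t : ℝ) := by
  have h3 := logLB_sound fuel (1 + t) (by linarith)
  have h4 := logUB_sound fuel (1 - t) (by linarith)
  unfold psi psiL
  push_cast at h3 h4 ⊢
  linarith

/-- Upper bound for the excess function. -/
def HU (r a : ℚ) : ℚ := (PsiU (r - (1 + r) * a) + PsiU (r + (1 - r) * a)) / 2 - PsiL r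

lemma HU_sound {r a : ℚ} (hr0 : 0 ≤ r) (hr1 : r ≤ 1) (ha0 : 0 ≤ a) (ha1 : a ≤ 1) :
    Hfun (r : ℝ) (a : ℝ) ≤ ((HU r a : ℚ) : ℝ) := by
  have hB : 0 ≤ 1 + r := by linarith
  have hA : 0 ≤ 1 - r := by linarith
  have h1 : -1 ≤ r - (1 + r) * a := by nlinarith [mul_nonneg hB (sub_nonneg.mpr ha1)]
  have h2 : r - (1 + r) * a ≤ 1 := by nlinarith [mul_nonneg hB ha0]
  have h3 : -1 ≤ r + (1 - r) * a := by nlinarith [mul_nonneg hA ha0]
  have h4 : r + (1 - r) * a ≤ 1 := by nlinarith [mul_nonneg hA (sub_nonneg.mpr ha1)]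
  have h5 := PsiU_sound h1 h2
  have h6 := PsiU_sound h3 h4
  have h7 := PsiL_sound (t := r) (by linarith) hr1
  unfold Hfun HU
  push_cast at h5 h6 h7 ⊢
  linarith

/-- Check of the chord conditions along a list of nodes ending at `1`. -/
def nodesOK (r c₁ c₂ : ℚ) : ℚ → List ℚ → Bool
  | u, [] => decide (u = 1)
  | u, v :: l => decide (u < v) && decide (v ≤ 1)
      && decide (HU r u ≤ - c₁ * u + c₂ * u ^ 2 - c₂ * (v - u) ^ 2 / 4)
      && decide (HU r v ≤ - c₁ * v + c₂ * v ^ 2 - c₂ * (v - u) ^ 2 / 4)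
      && nodesOK r c₁ c₂ v l

lemma nodesOK_sound {r c₁ c₂ : ℚ} (hr0 : 0 ≤ r) (hr1 : r ≤ 1) (hc₂ : 0 ≤ c₂) (l : List ℚ) (u : ℚ)
    (hu : 0 ≤ u) (h : nodesOK r c₁ c₂ u l = true) (a : ℝ) (hua : (u : ℝ) < a) (ha1 : a ≤ 1) :
    Hfun (r : ℝ) a ≤ - (c₁ : ℝ) * a + (c₂ : ℝ) * a ^ 2 := by
  induction l generalizing u with
  | nil =>
    simp only [nodesOK, decide_eq_true_eq] at h
    rw [h] at hua
    push_cast at hua
    linarith
  | cons v l ih =>
    simp only [nodesOK, Bool.and_eq_true, decide_eq_true_eq] at h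
    obtain ⟨⟨⟨⟨huv, hv1⟩, hU⟩, hV⟩, hl⟩ := h
    have hv0 : 0 ≤ v := by linarith
    by_cases hav : a ≤ (v : ℝ)
    · have hr0' : (0 : ℝ) ≤ (r : ℝ) := by exact_mod_cast hr0
      have hr1' : (r : ℝ) ≤ 1 := by exact_mod_cast hr1
      have hu0' : (0 : ℝ) ≤ (u : ℝ) := by exact_mod_cast hu
      have huv' : (u : ℝ) < (v : ℝ) := by exact_mod_cast huv
      have hv1' : (v : ℝ) ≤ 1 := by exact_mod_cast hv1
      have hc₂' : (0 : ℝ) ≤ (c₂ : ℝ) := by exact_mod_cast hc₂
      have h1 := HU_sound hr0 hr1 hu (by linarith : u ≤ 1)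
      have h2 := HU_sound hr0 hr1 hv0 hv1
      have h3 := (Rat.cast_le (K := ℝ)).mpr hU
      have h4 := (Rat.cast_le (K := ℝ)).mpr hV
      push_cast at h3 h4
      exact H_le_chord hr0' hr1' hu0' huv' hv1' hc₂' (h1.trans h3) (h2.trans h4) hua.le hav
    · exact ih v hv0 hl (lt_of_not_ge hav)

/-- Check that a parabola majorises the excess function on `[0, 1]`. -/
def HcheckOK (r c₁ c₂ b : ℚ) (l : List ℚ) : Bool :=
  decide (0 < b) && decide (b ≤ 1) && decide (HU r b ≤ - c₁ * b) && nodesOK r c₁ c₂ b l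

lemma HcheckOK_sound {r c₁ c₂ b : ℚ} {l : List ℚ} (hr0 : 0 ≤ r) (hr1 : r ≤ 1) (hc₂ : 0 ≤ c₂)
    (h : HcheckOK r c₁ c₂ b l = true) (a : ℝ) (ha0 : 0 ≤ a) (ha1 : a ≤ 1) :
    Hfun (r : ℝ) a ≤ - (c₁ : ℝ) * a + (c₂ : ℝ) * a ^ 2 := by
  simp only [HcheckOK, Bool.and_eq_true, decide_eq_true_eq] at h
  obtain ⟨⟨⟨hb0, hb1⟩, hbH⟩, hl⟩ := h
  by_cases hab : a ≤ (b : ℝ)
  · have hr0' : (0 : ℝ) ≤ (r : ℝ) := by exact_mod_cast hr0
    have hr1' : (r : ℝ) ≤ 1 := by exact_mod_cast hr1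
    have hb0' : (0 : ℝ) < (b : ℝ) := by exact_mod_cast hb0
    have hb1' : (b : ℝ) ≤ 1 := by exact_mod_cast hb1
    have hc₂' : (0 : ℝ) ≤ (c₂ : ℝ) := by exact_mod_cast hc₂
    have h1 := HU_sound hr0 hr1 hb0.le hb1
    have h3 := (Rat.cast_le (K := ℝ)).mpr hbH
    push_cast at h3
    exact H_le_first hr0' hr1' hb0' hb1' hc₂' (h1.trans h3) ha0 hab
  · exact nodesOK_sound hr0 hr1 hc₂ l b hb0.le hl a (lt_of_not_ge hab) ha1

end Vale.Agent.Lib.P322
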