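import Mathlib

/-! Definitions for the Courtade-Kumar problem on the Boolean cube `Fin n → Bool`, with `true`
and `false` standing for the signs `1` and `-1`. Everything is written out from first
principles. -/

namespace Vale.Agent.Lib.P322

open Finset

/-- Transition probability `P(Y = y | X = x)` of `n` independent binary symmetric channels with
crossover probability `ε`: a coordinate is kept with probability `1 - ε` and flipped with
probability `ε`. -/
noncomputable def chan {n : ℕ} (ε : ℝ) (x y : Fin n → Bool) : ℝ :=
  ∏ i, if x i = y i then 1 - ε else ε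

/-- The joint law `P(f(X) = b, Y = y)` for `X` uniform on the cube. -/
noncomputable def joint {n : ℕ} (f : (Fin n → Bool) → Bool) (ε : ℝ) (b : Bool)
    (y : Fin n → Bool) : ℝ :=
  ∑ x, if f x = b then (1 / 2 ^ n) * chan ε x y else 0

/-- The marginal law of `f(X)`. -/
noncomputable def margF {n : ℕ} (f : (Fin n → Bool) → Bool) (ε : ℝ) (b : Bool) : ℝ :=
  ∑ y, joint f ε b y

/-- The marginal law of `Y`. -/
noncomputable def margY {n : ℕ} (f : (Fin n → Bool) → Bool) (ε : ℝ) (y : Fin n → Bool) : ℝ :=
  ∑ b, joint f ε b y

/-- The mutual information `I(f(X); Y)` in bits (a zero joint probability contributes zero,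
because `0 * _ = 0`). -/
noncomputable def mutualInfo {n : ℕ} (f : (Fin n → Bool) → Bool) (ε : ℝ) : ℝ :=
  ∑ b, ∑ y, joint f ε b y * Real.logb 2 (joint f ε b y / (margF f ε b * margY f ε y))

/-- Binary entropy in bits. -/
noncomputable def h2 (p : ℝ) : ℝ := -(p * Real.logb 2 p) - (1 - p) * Real.logb 2 (1 - p)

end Vale.Agent.Lib.P322
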