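import Vale.Agent.Lib.P322.EvenLink

/-! A Khintchine inequality and the two-block bound for small coefficients. -/

set_option linter.unusedVariables false
set_option linter.unusedSectionVars false

namespace Vale.Agent.Lib.P322

open Finset Vale.Agent.Lib.P311

variable {ι : Type*} [Fintype ι] [DecidableEq ι]

/-- The Fourier coefficients of a difference in one direction. -/
lemma hat_diff_flp (f : (ι → Bool) → ℝ) (i : ι) (R : Finset ι) :
    hat (fun y => f y - f (flp y i)) R = if i ∈ R then 2 * hat f R else 0 := by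
  unfold hat
  have h1 : ∑ y, f (flp y i) * chi R y = if i ∈ R then - ∑ y, f y * chi R y else ∑ y, f y * chi R y := by
    have h2 := sum_flp i (fun y => f y * chi R (flp y i))
    simp only [flp_flp] at h2
    -- `h2` : sum of `f (flp y i) * chi R y` against the flipped character
    have h3 : ∑ y, f (flp y i) * chi R y = ∑ y, f y * chi R (flp y i) := by
      have := sum_flp i (fun y => f (flp y i) * chi R y)
      simp only [flp_flp] at this
      rw [← this]
    rw [h3]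
    by_cases hi : i ∈ R
    · rw [if_pos hi, ← Finset.sum_neg_distrib]
      apply Finset.sum_congr rfl; intro y _
      rw [chi_flp_of_mem hi]; ring
    · rw [if_neg hi]
      apply Finset.sum_congr rfl; intro y _
      rw [chi_flp_of_notMem hi]
  have h4 : ∑ y, (f y - f (flp y i)) * chi R y = ∑ y, f y * chi R y - ∑ y, f (flp y i) * chi R y := by
    rw [← Finset.sum_sub_distrib]
    apply Finset.sum_congr rfl; intro y _; ring
  rw [h4, h1]
  by_cases hi : i ∈ R
  · rw [if_pos hi, if_pos hi]; ring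
  · rw [if_neg hi, if_neg hi]; simp

/-- The Dirichlet form in one direction, on the Fourier side. -/
lemma sum_diff_sq (f : (ι → Bool) → ℝ) (i : ι) :
    ∑ y, (f y - f (flp y i)) ^ 2
      = 2 ^ Fintype.card ι * ∑ R : Finset ι, if i ∈ R then 4 * hat f R ^ 2 else 0 := by
  have hp := parseval (fun y => f y - f (flp y i)) (fun y => f y - f (flp y i))
  have e : ∑ y, (f y - f (flp y i)) ^ 2 = ∑ y, (f y - f (flp y i)) * (f y - f (flp y i)) :=
    Finset.sum_congr rfl fun y _ => sq _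
  rw [e, hp]
  congr 1
  apply Finset.sum_congr rfl
  intro R _
  rw [hat_diff_flp]
  split_ifs <;> ring

/-- The first moment of a linear form is at least `1/√2` times the second. -/
theorem mean_abs_ge (a : ι → ℝ) (S : Finset ι) :
    (∑ j ∈ S, (a j) ^ 2) / 2 ≤ ((∑ y, |lin a S y|) / 2 ^ Fintype.card ι) ^ 2 := by
  have hN : (0 : ℝ) < 2 ^ Fintype.card ι := by positivity
  set f : (ι → Bool) → ℝ := fun y => |lin a S y| with hf
  set w := ∑ j ∈ S, (a j) ^ 2 with hw
  have hm : (∑ y, |lin a S y|) / 2 ^ Fintype.card ι = hat f ∅ := by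
    have := sum_eq_hat_empty f
    rw [hf] at this ⊢
    rw [this]
    field_simp
  rw [hm]
  -- the square sum
  have hsq : ∑ R : Finset ι, hat f R ^ 2 = w := by
    have h1 := parseval f f
    have h2 : ∑ y, f y * f y = 2 ^ Fintype.card ι * w := by
      rw [hw, ← sum_lin_sq]
      apply Finset.sum_congr rfl; intro y _
      rw [hf]
      show |lin a S y| * |lin a S y| = _
      rw [← sq, sq_abs]
    rw [h2] at h1
    have h3 : w = ∑ R : Finset ι, hat f R * hat f R := mul_left_cancel₀ hN.ne' h1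
    rw [h3]
    exact Finset.sum_congr rfl fun R _ => sq _
  -- odd coefficients vanish
  have hodd : ∀ R : Finset ι, Odd R.card → hat f R = 0 := by
    intro R hR
    have h1 := hat_negv f R
    have h2 : (fun x => f (negv x)) = f := by
      funext x
      rw [hf]
      show |lin a S (negv x)| = |lin a S x|
      rw [lin_negv, abs_neg]
    rw [h2, hR.neg_one_pow] at h1
    linarith
  -- the Dirichlet form is at most the second moment
  have hD1 : ∀ i : ι, ∑ y, (f y - f (flp y i)) ^ 2 ≤ 2 ^ Fintype.card ι * (if i ∈ S then 4 * (a i) ^ 2 else 0) := by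
    intro i
    by_cases hi : i ∈ S
    · rw [if_pos hi]
      have hpt : ∀ y, (f y - f (flp y i)) ^ 2 ≤ 4 * (a i) ^ 2 := by
        intro y
        have h1 : lin a S y - lin a S (flp y i) = 2 * (a i * sg (y i)) := by
          unfold lin
          rw [← Finset.add_sum_erase S _ hi, ← Finset.add_sum_erase S (fun j => a j * sg (flp y i j)) hi]
          have : ∑ j ∈ S.erase i, a j * sg (flp y i j) = ∑ j ∈ S.erase i, a j * sg (y j) := by
            apply Finset.sum_congr rfl; intro j hj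
            rw [flp_apply_of_ne _ (Finset.ne_of_mem_erase hj)]
          rw [this, flp_apply_self, sg_not]
          ring
        have h2 : |f y - f (flp y i)| ≤ |lin a S y - lin a S (flp y i)| := abs_abs_sub_abs_le_abs_sub _ _
        have h3 : (f y - f (flp y i)) ^ 2 ≤ (lin a S y - lin a S (flp y i)) ^ 2 :=
          sq_le_sq.mpr h2
        rw [h1] at h3
        have h4 : (sg (y i)) ^ 2 = 1 := by rw [sq, sg_mul_self]
        calc _ ≤ _ := h3
          _ = 4 * (a i) ^ 2 * (sg (y i)) ^ 2 := by ring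
          _ = _ := by rw [h4, mul_one]
      calc _ ≤ ∑ y : ι → Bool, 4 * (a i) ^ 2 := Finset.sum_le_sum fun y _ => hpt y
        _ = _ := by simp [Finset.card_univ]
    · rw [if_neg hi, mul_zero]
      apply le_of_eq
      apply Finset.sum_eq_zero
      intro y _
      have h1 : f (flp y i) = f y := by
        rw [hf]
        show |lin a S (flp y i)| = |lin a S y|
        congr 1
        unfold lin
        apply Finset.sum_congr rfl; intro j hj
        have : j ≠ i := fun h => hi (h ▸ hj)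
        rw [flp_apply_of_ne _ this]
      rw [h1]; ring
  have hD2 : ∑ i : ι, ∑ R : Finset ι, (if i ∈ R then 4 * hat f R ^ 2 else 0) ≤ 4 * w := by
    have h1 : ∀ i : ι, ∑ R : Finset ι, (if i ∈ R then 4 * hat f R ^ 2 else 0)
        ≤ if i ∈ S then 4 * (a i) ^ 2 else 0 := by
      intro i
      have := hD1 i
      rw [sum_diff_sq] at this
      exact le_of_mul_le_mul_left this hN
    calc _ ≤ ∑ i : ι, (if i ∈ S then 4 * (a i) ^ 2 else 0) := Finset.sum_le_sum fun i _ => h1 i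
      _ = _ := by
        rw [Finset.sum_ite_mem, Finset.univ_inter, hw, Finset.mul_sum]
  have hD3 : ∑ i : ι, ∑ R : Finset ι, (if i ∈ R then 4 * hat f R ^ 2 else 0)
      = ∑ R : Finset ι, (R.card : ℝ) * (4 * hat f R ^ 2) := by
    rw [Finset.sum_comm]
    apply Finset.sum_congr rfl
    intro R _
    rw [Finset.sum_ite_mem, Finset.univ_inter, Finset.sum_const, nsmul_eq_mul]
  -- the spectral bound
  have hspec : ∀ R : Finset ι, (if R = ∅ then 0 else 2 * hat f R ^ 2) ≤ (R.card : ℝ) * hat f R ^ 2 := by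
    intro R
    by_cases h0 : R = ∅
    · rw [if_pos h0, h0]; simp
    · rw [if_neg h0]
      by_cases ho : Odd R.card
      · rw [hodd R ho]; simp
      · have hc : R.card ≠ 0 := by
          rw [Finset.card_ne_zero]; exact Finset.nonempty_iff_ne_empty.mpr h0
        have hc1 : R.card ≠ 1 := fun h => ho (by rw [h]; decide)
        have h2 : 2 ≤ R.card := by omega
        have h3 : (2 : ℝ) ≤ (R.card : ℝ) := by exact_mod_cast h2
        exact mul_le_mul_of_nonneg_right h3 (sq_nonneg _)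
  have hsumS : ∑ R : Finset ι, (if R = ∅ then 0 else 2 * hat f R ^ 2) = 2 * (w - hat f ∅ ^ 2) := by
    rw [← hsq, ← Finset.add_sum_erase Finset.univ _ (Finset.mem_univ (∅ : Finset ι)),
      ← Finset.add_sum_erase Finset.univ (fun R => hat f R ^ 2) (Finset.mem_univ (∅ : Finset ι))]
    have : ∑ R ∈ Finset.univ.erase (∅ : Finset ι), (if R = ∅ then 0 else 2 * hat f R ^ 2)
        = ∑ R ∈ Finset.univ.erase (∅ : Finset ι), 2 * hat f R ^ 2 := by
      apply Finset.sum_congr rfl; intro R hR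
      rw [if_neg (Finset.ne_of_mem_erase hR)]
    rw [this, ← Finset.mul_sum]
    simp
  have hmain : 2 * (w - hat f ∅ ^ 2) ≤ w := by
    rw [← hsumS]
    have h1 : ∑ R : Finset ι, (R.card : ℝ) * (4 * hat f R ^ 2) = 4 * ∑ R : Finset ι, (R.card : ℝ) * hat f R ^ 2 := by
      rw [Finset.mul_sum]
      apply Finset.sum_congr rfl; intro R _; ring
    rw [hD3, h1] at hD2
    have h2 : ∑ R : Finset ι, (R.card : ℝ) * hat f R ^ 2 ≤ w := by linarith
    exact (Finset.sum_le_sum fun R _ => hspec R).trans h2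
  linarith

/-- The two sign patterns of a sum of two numbers. -/
lemma abs_add_sub_pair (X Y τ : ℝ) :
    max |X + Y| τ + max |X - Y| τ = max (|X| + |Y|) τ + max |(|X| - |Y|)| τ := by
  rcases abs_cases X with ⟨h1, h1'⟩ | ⟨h1, h1'⟩ <;> rcases abs_cases Y with ⟨h2, h2'⟩ | ⟨h2, h2'⟩
  · rw [h1, h2, abs_of_nonneg (by linarith : 0 ≤ X + Y)]
  · rw [h1, h2, abs_of_nonneg (by linarith : 0 ≤ X - Y), show X + -Y = X - Y by ring,
      show X - -Y = X + Y by ring, add_comm]
  · have e : |- X - Y| = |X + Y| := by rw [← abs_neg]; congr 1; ring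
    rw [h1, h2, e, abs_of_nonpos (by linarith : X - Y ≤ 0), show -(X - Y) = - X + Y by ring, add_comm]
  · have e : |- X - - Y| = |X - Y| := by rw [← abs_neg]; congr 1; ring
    rw [h1, h2, e, abs_of_nonpos (by linarith : X + Y ≤ 0), show -(X + Y) = - X + - Y by ring]

/-- The two-block bound with a level `τ`. -/
theorem block_bound {F : (ι → Bool) → ℝ} (hF : ∀ x, F x = 1 ∨ F x = -1) (S : Finset ι)
    {τ γ₁ α β γ₀ : ℝ} (hτ : 0 ≤ τ) (hγ₁ : 0 ≤ γ₁) (hα : 0 ≤ α) (hβ : 0 ≤ β)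
    (h1 : (1 - 2 * γ₁) ^ 2 ≤ 8 * α * τ) (h2 : 1 ≤ 16 * β * γ₀) (h3 : τ ≤ 2 * γ₀) :
    lev1 F + τ * evenW F ≤ τ / 2 + γ₀
      + γ₁ * ((∑ y, |lin (fun j => hat F {j}) S y|) / 2 ^ Fintype.card ι
        + (∑ y, |lin (fun j => hat F {j}) Sᶜ y|) / 2 ^ Fintype.card ι)
      + (α + β) * lev1 F
      + 2 * (α - β) * ((∑ y, |lin (fun j => hat F {j}) S y|) / 2 ^ Fintype.card ι
        * ((∑ y, |lin (fun j => hat F {j}) Sᶜ y|) / 2 ^ Fintype.card ι)) := by
  have hN : (0 : ℝ) < 2 ^ Fintype.card ι := by positivity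
  set N : ℝ := 2 ^ Fintype.card ι with hNdef
  set a : ι → ℝ := fun j => hat F {j} with ha
  set X := lin a S with hX
  set Y := lin a Sᶜ with hY
  set m₁ := (∑ y, |X y|) / N with hm₁
  set m₂ := (∑ y, |Y y|) / N with hm₂
  have hγ₀ : 0 ≤ γ₀ := by linarith
  have htest := even_test hF a hτ
  have hsc : ∑ j, a j * hat F {j} = lev1 F := by
    unfold lev1
    apply Finset.sum_congr rfl; intro j _
    rw [ha, sq]
  rw [hsc] at htest
  have hLsplit : ∀ y, lin a Finset.univ y = X y + Y y := by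
    intro y
    have := lin_union a (disjoint_compl_right : Disjoint S Sᶜ) y
    rw [Finset.union_compl] at this
    exact this
  have hXflip : ∀ y, X (flipOn Sᶜ y) = X y := fun y =>
    lin_flipOn_disjoint a (disjoint_compl_right : Disjoint S Sᶜ) y
  have hYflip : ∀ y, Y (flipOn Sᶜ y) = - Y y := fun y => lin_flipOn_self a Sᶜ y
  have hsumflip : ∑ y, max |lin a Finset.univ y| τ
      = (∑ y, (max |X y + Y y| τ + max |X y - Y y| τ)) / 2 := by
    have e1 : ∑ y, max |X y - Y y| τ = ∑ y, max |X y + Y y| τ := by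
      rw [← (flipOnEquiv Sᶜ).sum_comp (fun y => max |X y + Y y| τ)]
      apply Finset.sum_congr rfl; intro y _
      show _ = max |X (flipOn Sᶜ y) + Y (flipOn Sᶜ y)| τ
      rw [hXflip, hYflip, sub_eq_add_neg]
    have e2 : ∑ y, max |lin a Finset.univ y| τ = ∑ y, max |X y + Y y| τ :=
      Finset.sum_congr rfl fun y _ => by rw [hLsplit]
    rw [Finset.sum_add_distrib, e1, e2]
    ring
  have hmaj1 : ∀ z : ℝ, 0 ≤ z → max z τ ≤ τ + 2 * γ₁ * z + 2 * α * z ^ 2 := by
    intro z hz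
    apply max_le
    · by_cases hα0 : α = 0
      · subst hα0
        have h4 : (1 - 2 * γ₁) ^ 2 ≤ 0 := by simpa using h1
        have h5 : 1 - 2 * γ₁ = 0 := by
          have := sq_nonneg (1 - 2 * γ₁)
          exact pow_eq_zero_iff (two_ne_zero) |>.mp (le_antisymm h4 this)
        have h6 : 2 * γ₁ = 1 := by linarith
        rw [h6]; simp; linarith
      · have hαpos : 0 < α := lt_of_le_of_ne hα (Ne.symm hα0)
        have h4 : 0 ≤ 8 * α * (τ + 2 * γ₁ * z + 2 * α * z ^ 2 - z) := by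
          have e : 8 * α * (τ + 2 * γ₁ * z + 2 * α * z ^ 2 - z)
              = (4 * α * z - (1 - 2 * γ₁)) ^ 2 + (8 * α * τ - (1 - 2 * γ₁) ^ 2) := by ring
          rw [e]
          have := sq_nonneg (4 * α * z - (1 - 2 * γ₁))
          linarith
        have h5 : 0 ≤ τ + 2 * γ₁ * z + 2 * α * z ^ 2 - z :=
          nonneg_of_mul_nonneg_right h4 (by positivity)
        linarith
    · have : 0 ≤ 2 * γ₁ * z := by positivity
      have : 0 ≤ 2 * α * z ^ 2 := by positivity
      linarith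
  have hmaj2 : ∀ z : ℝ, max z τ ≤ 2 * γ₀ + 2 * β * z ^ 2 := by
    intro z
    have hβ0 : 0 < β := by
      by_contra hc
      have : β = 0 := le_antisymm (not_lt.mp hc) hβ
      rw [this] at h2
      norm_num at h2
    apply max_le
    · have h4 : 0 ≤ 8 * β * (2 * γ₀ + 2 * β * z ^ 2 - z) := by
        have e : 8 * β * (2 * γ₀ + 2 * β * z ^ 2 - z)
            = (4 * β * z - 1) ^ 2 + (16 * β * γ₀ - 1) := by ring
        rw [e]
        have := sq_nonneg (4 * β * z - 1)
        linarith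
      have h5 : 0 ≤ 2 * γ₀ + 2 * β * z ^ 2 - z :=
        nonneg_of_mul_nonneg_right h4 (by positivity)
      linarith
    · have : 0 ≤ 2 * β * z ^ 2 := by positivity
      linarith
  have hpt : ∀ y, max |X y + Y y| τ + max |X y - Y y| τ
      ≤ τ + 2 * γ₀ + 2 * γ₁ * (|X y| + |Y y|)
        + 2 * α * ((X y) ^ 2 + (Y y) ^ 2 + 2 * (|X y| * |Y y|))
        + 2 * β * ((X y) ^ 2 + (Y y) ^ 2 - 2 * (|X y| * |Y y|)) := by
    intro y
    rw [abs_add_sub_pair]
    have h4 := hmaj1 (|X y| + |Y y|) (by positivity)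
    have h5 := hmaj2 |(|X y| - |Y y|)|
    rw [sq_abs] at h5
    have e1 : (|X y| + |Y y|) ^ 2 = (X y) ^ 2 + (Y y) ^ 2 + 2 * (|X y| * |Y y|) := by
      rw [add_sq, sq_abs, sq_abs]; ring
    have e2 : (|X y| - |Y y|) ^ 2 = (X y) ^ 2 + (Y y) ^ 2 - 2 * (|X y| * |Y y|) := by
      rw [sub_sq, sq_abs, sq_abs]; ring
    rw [e1] at h4
    rw [e2] at h5
    linarith
  have hind : ∑ y, |X y| * |Y y| = N * (m₁ * m₂) := by
    have h := sum_mul_of_depOn (depOn_abs_lin a S) (depOn_abs_lin a Sᶜ)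
      (disjoint_compl_right : Disjoint S Sᶜ)
    beta_reduce at h
    rw [← hX, ← hY, ← hNdef] at h
    rw [h, hm₁, hm₂]
    field_simp
  have hXsq : ∑ y, (X y) ^ 2 + ∑ y, (Y y) ^ 2 = N * lev1 F := by
    rw [hX, hY, sum_lin_sq, sum_lin_sq, ← hNdef, ← mul_add, Finset.sum_add_sum_compl]
    rfl
  have hsX : ∑ y, |X y| = N * m₁ := by rw [hm₁]; field_simp
  have hsY : ∑ y, |Y y| = N * m₂ := by rw [hm₂]; field_simp
  have hconst : ∑ y : ι → Bool, (τ + 2 * γ₀) = N * (τ + 2 * γ₀) := by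
    rw [Finset.sum_const, Finset.card_univ, Fintype.card_fun, Fintype.card_bool, nsmul_eq_mul, hNdef]
    push_cast
    ring
  have hupper : ∑ y, (max |X y + Y y| τ + max |X y - Y y| τ)
      ≤ N * (τ + 2 * γ₀ + 2 * γ₁ * (m₁ + m₂) + 2 * α * (lev1 F + 2 * (m₁ * m₂))
        + 2 * β * (lev1 F - 2 * (m₁ * m₂))) := by
    refine (Finset.sum_le_sum fun y _ => hpt y).trans (le_of_eq ?_)
    simp only [Finset.sum_add_distrib, Finset.sum_sub_distrib, ← Finset.mul_sum, hconst, hsX, hsY,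
      hind, hXsq]
    ring
  rw [hsumflip] at htest
  have hfin : lev1 F + τ * evenW F
      ≤ (N * (τ + 2 * γ₀ + 2 * γ₁ * (m₁ + m₂) + 2 * α * (lev1 F + 2 * (m₁ * m₂))
        + 2 * β * (lev1 F - 2 * (m₁ * m₂)))) / 2 / N := by
    refine htest.trans ?_
    apply div_le_div_of_nonneg_right _ hN.le
    exact div_le_div_of_nonneg_right hupper (by norm_num)
  have e : (N * (τ + 2 * γ₀ + 2 * γ₁ * (m₁ + m₂) + 2 * α * (lev1 F + 2 * (m₁ * m₂))
        + 2 * β * (lev1 F - 2 * (m₁ * m₂)))) / 2 / N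
      = τ / 2 + γ₀ + γ₁ * (m₁ + m₂) + (α + β) * lev1 F + 2 * (α - β) * (m₁ * m₂) := by
    field_simp
    ring
  rw [e] at hfin
  exact hfin

/-- The bilinear term over a box. -/
lemma bilin_box {γ κ lo hi p q B : ℝ} (hlo : lo < hi) (hp1 : lo ≤ p) (hp2 : p ≤ hi) (hq1 : lo ≤ q)
    (hq2 : q ≤ hi) (h1 : γ * (lo + lo) - 2 * κ * (lo * lo) ≤ B)
    (h2 : γ * (lo + hi) - 2 * κ * (lo * hi) ≤ B) (h3 : γ * (hi + hi) - 2 * κ * (hi * hi) ≤ B) :
    γ * (p + q) - 2 * κ * (p * q) ≤ B := by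
  have hd : 0 < hi - lo := by linarith
  have w1 : 0 ≤ (hi - p) * (hi - q) := mul_nonneg (by linarith) (by linarith)
  have w2 : 0 ≤ (p - lo) * (hi - q) + (hi - p) * (q - lo) :=
    add_nonneg (mul_nonneg (by linarith) (by linarith)) (mul_nonneg (by linarith) (by linarith))
  have w3 : 0 ≤ (p - lo) * (q - lo) := mul_nonneg (by linarith) (by linarith)
  have key : (hi - lo) ^ 2 * (γ * (p + q) - 2 * κ * (p * q))
      = (hi - p) * (hi - q) * (γ * (lo + lo) - 2 * κ * (lo * lo))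
        + ((p - lo) * (hi - q) + (hi - p) * (q - lo)) * (γ * (lo + hi) - 2 * κ * (lo * hi))
        + (p - lo) * (q - lo) * (γ * (hi + hi) - 2 * κ * (hi * hi)) := by ring
  have h4 : (hi - lo) ^ 2 * (γ * (p + q) - 2 * κ * (p * q)) ≤ (hi - lo) ^ 2 * B := by
    rw [key]
    have c1 := mul_le_mul_of_nonneg_left h1 w1
    have c2 := mul_le_mul_of_nonneg_left h2 w2
    have c3 := mul_le_mul_of_nonneg_left h3 w3
    have e : (hi - lo) ^ 2 = (hi - p) * (hi - q) + ((p - lo) * (hi - q) + (hi - p) * (q - lo))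
        + (p - lo) * (q - lo) := by ring
    rw [e]
    linarith
  exact le_of_mul_le_mul_left h4 (by positivity)

/-- A small-coefficient facet: for level-one weight in `[Wa, Wb]` and coefficients at most `A`. -/
theorem small_facet {F : (ι → Bool) → ℝ} (hF : ∀ x, F x = 1 ∨ F x = -1) {A : ℝ} (hA0 : 0 ≤ A)
    (hA : ∀ j, |hat F {j}| ≤ A) {τ γ₁ α β γ₀ Wa Wb lo hi B : ℝ} (hτ : 0 ≤ τ) (hγ₁ : 0 ≤ γ₁)
    (hα : 0 ≤ α) (hβ : 0 ≤ β) (h1 : (1 - 2 * γ₁) ^ 2 ≤ 8 * α * τ) (h2 : 1 ≤ 16 * β * γ₀)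
    (h3 : τ ≤ 2 * γ₀) (hWa : A ^ 2 ≤ Wa) (hW1 : Wa ≤ lev1 F) (hW2 : lev1 F ≤ Wb) (hlo0 : 0 ≤ lo)
    (hlohi : lo < hi) (hlo : lo ^ 2 ≤ (Wa - A ^ 2) / 4) (hhi : (Wb + A ^ 2) / 2 ≤ hi ^ 2)
    (hb1 : γ₁ * (lo + lo) - 2 * (β - α) * (lo * lo) ≤ B)
    (hb2 : γ₁ * (lo + hi) - 2 * (β - α) * (lo * hi) ≤ B)
    (hb3 : γ₁ * (hi + hi) - 2 * (β - α) * (hi * hi) ≤ B) :
    (1 - α - β) * lev1 F + τ * evenW F ≤ τ / 2 + γ₀ + B := by
  set a : ι → ℝ := fun j => hat F {j} with ha
  set W := lev1 F with hWdef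
  have hwj : ∀ j ∈ (Finset.univ : Finset ι), 0 ≤ (a j) ^ 2 ∧ (a j) ^ 2 ≤ A ^ 2 := by
    intro j _
    refine ⟨sq_nonneg _, ?_⟩
    rw [← sq_abs (a j)]
    exact pow_le_pow_left₀ (abs_nonneg _) (hA j) 2
  have hWtot : ∑ j, (a j) ^ 2 = W := rfl
  have hc0 : 0 ≤ W / 2 - A ^ 2 / 2 := by linarith
  have hc1 : W / 2 - A ^ 2 / 2 ≤ ∑ j, (a j) ^ 2 := by
    rw [hWtot]; nlinarith [sq_nonneg A]
  obtain ⟨S, _, hS1, hS2⟩ := exists_subset_between (fun j => (a j) ^ 2) (sq_nonneg A)
    Finset.univ hwj hc0 hc1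
  have hS : ∑ j ∈ S, (a j) ^ 2 + ∑ j ∈ Sᶜ, (a j) ^ 2 = W := by
    rw [Finset.sum_add_sum_compl]
    exact hWtot
  have hbb := block_bound hF S hτ hγ₁ hα hβ h1 h2 h3
  set m₁ := (∑ y, |lin a S y|) / 2 ^ Fintype.card ι with hm₁
  set m₂ := (∑ y, |lin a Sᶜ y|) / 2 ^ Fintype.card ι with hm₂
  have hN : (0 : ℝ) < 2 ^ Fintype.card ι := by positivity
  have hm₁0 : 0 ≤ m₁ := div_nonneg (Finset.sum_nonneg fun y _ => abs_nonneg _) hN.le
  have hm₂0 : 0 ≤ m₂ := div_nonneg (Finset.sum_nonneg fun y _ => abs_nonneg _) hN.le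
  have hhi0 : 0 ≤ hi := by linarith
  have hm₁hi : m₁ ≤ hi := mean_abs_le a S hhi0 (by linarith)
  have hm₂hi : m₂ ≤ hi := mean_abs_le a Sᶜ hhi0 (by linarith)
  have hm₁lo : lo ≤ m₁ := by
    have h4 := mean_abs_ge a S
    have h5 : lo ^ 2 ≤ m₁ ^ 2 := by
      refine le_trans hlo (le_trans ?_ h4)
      linarith
    exact (abs_le_of_sq_le_sq' h5 hm₁0).2
  have hm₂lo : lo ≤ m₂ := by
    have h4 := mean_abs_ge a Sᶜ
    have h5 : lo ^ 2 ≤ m₂ ^ 2 := by
      refine le_trans hlo (le_trans ?_ h4)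
      linarith
    exact (abs_le_of_sq_le_sq' h5 hm₂0).2
  have hbox := bilin_box hlohi hm₁lo hm₁hi hm₂lo hm₂hi hb1 hb2 hb3
  have e : 2 * (α - β) * (m₁ * m₂) = - (2 * (β - α) * (m₁ * m₂)) := by ring
  rw [e] at hbb
  linarith

end Vale.Agent.Lib.P322
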