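import Vale.Agent.Lib.P322.FarT

/-! The even Fourier weight and its link with the level-one weight. -/

set_option linter.unusedVariables false
set_option linter.unusedSectionVars false

namespace Vale.Agent.Lib.P322

open Finset Vale.Agent.Lib.P311

variable {ι : Type*} [Fintype ι] [DecidableEq ι]

/-- The even Fourier weight (the empty set included). -/
noncomputable def evenW (F : (ι → Bool) → ℝ) : ℝ :=
  ∑ S : Finset ι, if Even S.card then hat F S ^ 2 else 0

lemma evenW_nonneg (F : (ι → Bool) → ℝ) : 0 ≤ evenW F := by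
  unfold evenW
  apply Finset.sum_nonneg
  intro S _
  split_ifs
  · exact sq_nonneg _
  · exact le_rfl

lemma evenW_neg (F : (ι → Bool) → ℝ) : evenW (fun x => - F x) = evenW F := by
  unfold evenW
  simp only [hat_neg, neg_sq]

/-- The even weight and the level-one weight add up to at most one. -/
lemma evenW_add_lev1_le {F : (ι → Bool) → ℝ} (hF : ∀ x, F x = 1 ∨ F x = -1) :
    evenW F + lev1 F ≤ 1 := by
  rw [← sum_hat_sq hF]
  unfold evenW lev1
  rw [← sum_card_one (fun S => (hat F S) ^ 2), ← Finset.sum_add_distrib]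
  apply Finset.sum_le_sum
  intro S _
  by_cases h1 : S.card = 1
  · simp [h1]
  · rw [if_neg h1, add_zero]
    split_ifs
    · exact le_rfl
    · exact sq_nonneg _

/-- The Fourier coefficients of the antipodal reflection. -/
lemma hat_negv (F : (ι → Bool) → ℝ) (S : Finset ι) :
    hat (fun x => F (negv x)) S = (-1) ^ S.card * hat F S := by
  unfold hat
  have e1 : ∑ x, F (negv x) * chi S x = (-1) ^ S.card * ∑ x, F x * chi S x := by
    have := sum_negv (fun x => F x * chi S (negv x))
    simp only [negv_negv] at this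
    rw [this, Finset.mul_sum]
    apply Finset.sum_congr rfl; intro x _
    rw [chi_negv]; ring
  rw [e1]
  ring

/-- The even weight as the mean of the indicator of `F x = F (-x)`. -/
lemma sum_even_indicator {F : (ι → Bool) → ℝ} (hF : ∀ x, F x = 1 ∨ F x = -1) :
    ∑ x, (1 + F x * F (negv x)) / 2 = 2 ^ Fintype.card ι * evenW F := by
  have h2 : (2 : ℝ) ^ Fintype.card ι ≠ 0 := two_pow_ne
  have hp := parseval F (fun x => F (negv x))
  have e1 : ∑ x : ι → Bool, (1 : ℝ) = 2 ^ Fintype.card ι := by
    simp [Finset.card_univ]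
  have e2 : ∑ x, (1 + F x * F (negv x)) / 2
      = ((∑ x : ι → Bool, (1 : ℝ)) + ∑ x, F x * F (negv x)) / 2 := by
    rw [← Finset.sum_add_distrib, Finset.sum_div]
  rw [e2, e1, hp]
  have e3 : ∑ S : Finset ι, hat F S * hat (fun x => F (negv x)) S
      = ∑ S : Finset ι, (-1) ^ S.card * hat F S ^ 2 := by
    apply Finset.sum_congr rfl; intro S _
    rw [hat_negv]; ring
  rw [e3]
  have e4 : evenW F = ((∑ S : Finset ι, hat F S ^ 2) + ∑ S : Finset ι, (-1) ^ S.card * hat F S ^ 2) / 2 := by
    unfold evenW
    rw [← Finset.sum_add_distrib, Finset.sum_div]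
    apply Finset.sum_congr rfl; intro S _
    by_cases h : Even S.card
    · rw [if_pos h, h.neg_one_pow]; ring
    · rw [if_neg h, (Nat.not_even_iff_odd.mp h).neg_one_pow]; ring
  rw [e4, sum_hat_sq hF]
  ring

lemma lin_negv (v : ι → ℝ) (S : Finset ι) (y : ι → Bool) : lin v S (negv y) = - lin v S y := by
  unfold lin negv
  rw [← Finset.sum_neg_distrib]
  apply Finset.sum_congr rfl; intro j _
  rw [sg_not]; ring

lemma sum_F_mul_lin (F : (ι → Bool) → ℝ) (v : ι → ℝ) :
    ∑ y, F y * lin v Finset.univ y = 2 ^ Fintype.card ι * ∑ j, v j * hat F {j} := by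
  have h2 : (2 : ℝ) ^ Fintype.card ι ≠ 0 := two_pow_ne
  unfold lin
  have e : ∀ y : ι → Bool, F y * ∑ j, v j * sg (y j) = ∑ j, v j * (F y * sg (y j)) := by
    intro y
    rw [Finset.mul_sum]
    apply Finset.sum_congr rfl; intro j _; ring
  simp_rw [e]
  rw [Finset.sum_comm, Finset.mul_sum]
  apply Finset.sum_congr rfl
  intro j _
  rw [← Finset.mul_sum]
  have : ∑ y, F y * sg (y j) = hat F {j} * 2 ^ Fintype.card ι := by
    unfold hat
    simp only [chi_single]
    field_simp
  rw [this]
  ring

/-- The basic test: a linear form against the odd part, the remaining points counted at `τ`. -/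
theorem even_test {F : (ι → Bool) → ℝ} (hF : ∀ x, F x = 1 ∨ F x = -1) (v : ι → ℝ) {τ : ℝ}
    (hτ : 0 ≤ τ) :
    ∑ j, v j * hat F {j} + τ * evenW F
      ≤ (∑ y, max |lin v Finset.univ y| τ) / 2 ^ Fintype.card ι := by
  have hN : (0 : ℝ) < 2 ^ Fintype.card ι := by positivity
  set L := lin v Finset.univ with hL
  have h1 := sum_F_mul_lin F v
  rw [← hL] at h1
  have h2 := sum_even_indicator hF
  have h3 : ∑ y, F y * L y = ∑ y, (F y - F (negv y)) / 2 * L y := by
    have h4 : ∑ y, F (negv y) * L (negv y) = ∑ y, F y * L y :=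
      sum_negv (fun y => F y * L y)
    have h5 : ∑ y, F (negv y) * L y = - ∑ y, F y * L y := by
      rw [← h4, ← Finset.sum_neg_distrib]
      apply Finset.sum_congr rfl; intro y _
      rw [hL, lin_negv]; ring
    have h6 : ∑ y, (F y - F (negv y)) / 2 * L y
        = (∑ y, F y * L y - ∑ y, F (negv y) * L y) / 2 := by
      rw [← Finset.sum_sub_distrib, Finset.sum_div]
      apply Finset.sum_congr rfl; intro y _; ring
    rw [h6, h5]
    ring
  have hpt : ∀ y, (F y - F (negv y)) / 2 * L y + τ * ((1 + F y * F (negv y)) / 2)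
      ≤ max |L y| τ := by
    intro y
    have hm1 : |L y| ≤ max |L y| τ := le_max_left _ _
    have hm2 : τ ≤ max |L y| τ := le_max_right _ _
    have hab : L y ≤ |L y| := le_abs_self _
    have hab' : - L y ≤ |L y| := neg_le_abs _
    generalize max |L y| τ = M at hm1 hm2 ⊢
    rcases hF y with h | h <;> rcases hF (negv y) with h' | h' <;> rw [h, h'] <;>
      nlinarith
  rw [le_div_iff₀ hN]
  have hsum := Finset.sum_le_sum fun y (_ : y ∈ Finset.univ) => hpt y
  rw [Finset.sum_add_distrib, ← Finset.mul_sum, ← h3, h1, h2] at hsum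
  calc _ = 2 ^ Fintype.card ι * ∑ j, v j * hat F {j}
        + τ * (2 ^ Fintype.card ι * evenW F) := by ring
    _ ≤ _ := hsum

/-- The pointwise bound in the one-coordinate link. -/
lemma link_pointwise {c t : ℝ} (hc : |c| = 1 / 2) :
    max |c + t| (1 / 4) + max |- c + t| (1 / 4) ≤ 1 + t ^ 2 := by
  have ht : ∀ s u : ℝ, |s| = 1 / 2 → 0 ≤ u → max |s + u| (1 / 4) + max |- s + u| (1 / 4) ≤ 1 + u ^ 2 := by
    intro s u hs hu
    rcases abs_cases s with ⟨h1, h2⟩ | ⟨h1, h2⟩
    · have hs' : s = 1 / 2 := by linarith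
      subst hs'
      have e1 : |(1 / 2 : ℝ) + u| = 1 / 2 + u := abs_of_nonneg (by linarith)
      rw [e1]
      have e2 : max ((1 : ℝ) / 2 + u) (1 / 4) = 1 / 2 + u := max_eq_left (by linarith)
      rw [e2]
      by_cases h3 : u ≤ 1 / 4
      · have e3 : |(- (1 / 2 : ℝ)) + u| = 1 / 2 - u := by
          rw [abs_of_nonpos (by linarith)]; ring
        rw [e3, max_eq_left (by linarith)]
        nlinarith
      · by_cases h4 : u ≤ 3 / 4
        · have e3 : max |(- (1 / 2 : ℝ)) + u| (1 / 4) = 1 / 4 := by
            apply max_eq_right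
            rw [abs_le]; constructor <;> linarith
          rw [e3]
          nlinarith [sq_nonneg (u - 1 / 2)]
        · have e3 : |(- (1 / 2 : ℝ)) + u| = - (1 / 2) + u := abs_of_nonneg (by linarith)
          rw [e3, max_eq_left (by linarith)]
          nlinarith [sq_nonneg (u - 1)]
    · have hs' : s = - (1 / 2) := by linarith
      subst hs'
      have e0 : (- - (1 / 2 : ℝ)) = 1 / 2 := by ring
      rw [e0]
      have e1 : |(1 / 2 : ℝ) + u| = 1 / 2 + u := abs_of_nonneg (by linarith)
      rw [e1]
      have e2 : max ((1 : ℝ) / 2 + u) (1 / 4) = 1 / 2 + u := max_eq_left (by linarith)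
      rw [e2]
      by_cases h3 : u ≤ 1 / 4
      · have e3 : |(- (1 / 2 : ℝ)) + u| = 1 / 2 - u := by
          rw [abs_of_nonpos (by linarith)]; ring
        rw [e3, max_eq_left (by linarith)]
        nlinarith
      · by_cases h4 : u ≤ 3 / 4
        · have e3 : max |(- (1 / 2 : ℝ)) + u| (1 / 4) = 1 / 4 := by
            apply max_eq_right
            rw [abs_le]; constructor <;> linarith
          rw [e3]
          nlinarith [sq_nonneg (u - 1 / 2)]
        · have e3 : |(- (1 / 2 : ℝ)) + u| = - (1 / 2) + u := abs_of_nonneg (by linarith)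
          rw [e3, max_eq_left (by linarith)]
          nlinarith [sq_nonneg (u - 1)]
  rcases le_total 0 t with h | h
  · exact ht c t hc h
  · have := ht c (-t) hc (by linarith)
    have e1 : |c + -t| = |- c + t| := by
      rw [← abs_neg]; congr 1; ring
    have e2 : |- c + -t| = |c + t| := by
      rw [← abs_neg]; congr 1; ring
    rw [e1, e2, neg_sq] at this
    linarith

/-- The one-coordinate link between the level-one and the even weight. -/
theorem lev1_even_link {F : (ι → Bool) → ℝ} (hF : ∀ x, F x = 1 ∨ F x = -1) (i : ι) :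
    lev1 F + evenW F / 2 ≤ 1 - |hat F {i}| + |hat F {i}| ^ 2 := by
  have hN : (0 : ℝ) < 2 ^ Fintype.card ι := by positivity
  set a : ι → ℝ := fun j => hat F {j} with ha
  set A := |a i| with hA
  have hbase := evenW_add_lev1_le hF
  have he0 := evenW_nonneg F
  by_cases hzero : a i = 0
  · have : A = 0 := by rw [hA, hzero]; simp
    show lev1 F + evenW F / 2 ≤ 1 - A + A ^ 2
    rw [this]
    nlinarith
  have hApos : 0 < A := abs_pos.mpr hzero
  set s : ℝ := a i / A with hs
  have hs2 : s * a i = A := by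
    rw [hs, div_mul_eq_mul_div, ← sq, ← sq_abs, ← hA]
    field_simp
  have hsabs : |s| = 1 := by
    rw [hs, abs_div, ← hA, abs_of_pos hApos, div_self hApos.ne']
  set v : ι → ℝ := Function.update a i (s / 2) with hv
  have hvi : v i = s / 2 := by simp [hv]
  have hvj : ∀ j, j ≠ i → v j = a j := fun j hj => by simp [hv, Function.update_of_ne hj]
  have htest := even_test hF v (τ := 1 / 4) (by norm_num)
  -- the scalar product
  have hsc : ∑ j, v j * hat F {j} = A / 2 + lev1 F - A ^ 2 := by
    rw [← Finset.add_sum_erase Finset.univ _ (Finset.mem_univ i), hvi]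
    have e1 : ∑ j ∈ Finset.univ.erase i, v j * hat F {j} = ∑ j ∈ Finset.univ.erase i, (a j) ^ 2 := by
      apply Finset.sum_congr rfl
      intro j hj
      rw [hvj j (Finset.ne_of_mem_erase hj), ha, sq]
    have e2 : lev1 F = (a i) ^ 2 + ∑ j ∈ Finset.univ.erase i, (a j) ^ 2 := by
      unfold lev1
      rw [← Finset.add_sum_erase Finset.univ _ (Finset.mem_univ i)]
    have e3 : (a i) ^ 2 = A ^ 2 := by rw [hA, sq_abs]
    have e4 : s / 2 * hat F {i} = A / 2 := by
      have : hat F {i} = a i := rfl
      rw [this]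
      linarith
    rw [e1, e4, e2, e3]
    ring
  -- the remaining linear form
  set t : (ι → Bool) → ℝ := lin a (Finset.univ.erase i) with ht
  have hLy : ∀ y, lin v Finset.univ y = s / 2 * sg (y i) + t y := by
    intro y
    unfold lin
    rw [← Finset.add_sum_erase Finset.univ _ (Finset.mem_univ i), hvi]
    congr 1
    rw [ht]
    unfold lin
    apply Finset.sum_congr rfl
    intro j hj
    rw [hvj j (Finset.ne_of_mem_erase hj)]
  have htflp : ∀ y, t (flp y i) = t y := by
    intro y
    rw [ht]
    unfold lin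
    apply Finset.sum_congr rfl
    intro j hj
    rw [flp_apply_of_ne _ (Finset.ne_of_mem_erase hj)]
  have hLflp : ∀ y, lin v Finset.univ (flp y i) = - (s / 2 * sg (y i)) + t y := by
    intro y
    rw [hLy, flp_apply_self, sg_not, htflp]
    ring
  have hsum : ∑ y, max |lin v Finset.univ y| (1 / 4)
      = (∑ y, (max |lin v Finset.univ y| (1 / 4) + max |lin v Finset.univ (flp y i)| (1 / 4))) / 2 := by
    rw [Finset.sum_add_distrib, sum_flp i (fun y => max |lin v Finset.univ y| (1 / 4))]
    ring
  have hpt : ∀ y, max |lin v Finset.univ y| (1 / 4) + max |lin v Finset.univ (flp y i)| (1 / 4)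
      ≤ 1 + (t y) ^ 2 := by
    intro y
    rw [hLy, hLflp]
    apply link_pointwise
    rw [abs_mul, abs_div, hsabs]
    cases y i <;> simp [sg] <;> norm_num
  have hbound : ∑ y, max |lin v Finset.univ y| (1 / 4)
      ≤ (2 ^ Fintype.card ι + 2 ^ Fintype.card ι * (lev1 F - A ^ 2)) / 2 := by
    rw [hsum]
    apply div_le_div_of_nonneg_right _ (by norm_num)
    calc _ ≤ ∑ y, (1 + (t y) ^ 2) := Finset.sum_le_sum fun y _ => hpt y
      _ = _ := by
        rw [Finset.sum_add_distrib, ht, sum_lin_sq]
        have e1 : ∑ y : ι → Bool, (1 : ℝ) = 2 ^ Fintype.card ι := by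
          simp [Finset.card_univ]
        have e2 : ∑ j ∈ Finset.univ.erase i, (a j) ^ 2 = lev1 F - A ^ 2 := by
          have e3 : (a i) ^ 2 = A ^ 2 := by rw [hA, sq_abs]
          unfold lev1
          rw [← Finset.add_sum_erase Finset.univ (fun j => (hat F {j}) ^ 2) (Finset.mem_univ i)]
          have : (hat F {i}) ^ 2 = A ^ 2 := e3
          rw [this]
          ring
        rw [e1, e2]
  have hfin : A / 2 + lev1 F - A ^ 2 + 1 / 4 * evenW F ≤ (1 + (lev1 F - A ^ 2)) / 2 := by
    rw [← hsc]
    refine htest.trans ?_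
    rw [div_le_iff₀ hN]
    calc _ ≤ _ := hbound
      _ = _ := by ring
  show lev1 F + evenW F / 2 ≤ 1 - A + A ^ 2
  linarith

end Vale.Agent.Lib.P322
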