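import Vale.Agent.Lib.P322.EvenBlock

/-! The far case with the even weight: a Fourier-side bound separating the even levels, and a
computable check of the numerical hypotheses over a polygon of level-one and even weights. -/

set_option linter.unusedVariables false
set_option linter.unusedSectionVars false

namespace Vale.Agent.Lib.P322

open Finset Vale.Agent.Lib.P311

variable {n : ℕ}

/-- The Fourier-side bound given two parabola majorants, with separate thresholds for the odd and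
for the even levels. -/
theorem far_bound2 {F : (Fin n → Bool) → ℝ} (hF : ∀ x, F x = 1 ∨ F x = -1)
    {ρ cP dP cM dM e G Y : ℝ} (hρ0 : 0 ≤ ρ) (hρ1 : ρ ≤ 1) (he : 0 ≤ e)
    (hP : ∀ t, |t| ≤ 1 → Psi t ≤ cP + dP * t + e * t ^ 2)
    (hM : ∀ t, |t| ≤ 1 → Psi t ≤ cM + dM * t + e * t ^ 2)
    (hG0 : 0 ≤ G) (hY0 : 0 ≤ Y)
    (hG3 : (dP - dM) / 2 * ρ ^ 3 + e * (ρ ^ 3) ^ 2 ≤ G)
    (hG2 : (dP - dM) / 2 * ρ ^ 2 + e * (ρ ^ 2) ^ 2 ≤ G + Y) :
    (∑ y, Psi (noise ρ F y)) / 2 ^ n ≤ (cP + cM) / 2 + ((cP - cM) / 2 + (dP + dM) / 2) * hat F ∅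
      + ((dP - dM) / 2 + e - G - Y) * (hat F ∅) ^ 2
      + ((dP - dM) / 2 * ρ + e * ρ ^ 2 - G) * lev1 F + Y * evenW F + G := by
  set μ := hat F ∅ with hμ
  set a := (dP - dM) / 2 with ha
  have hN : (0 : ℝ) < 2 ^ n := by positivity
  have hρabs : |ρ| ≤ 1 := by rw [abs_of_nonneg hρ0]; exact hρ1
  have hFabs : ∀ x, |F x| ≤ 1 := fun x => by
    rcases hF x with h | h <;> simp [h]
  have hpt : ∀ y, Psi (noise ρ F y) ≤ (cP + cM) / 2 + (cP - cM) / 2 * F y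
      + (dP + dM) / 2 * noise ρ F y + a * (F y * noise ρ F y)
      + e * (noise ρ F y * noise ρ F y) := by
    intro y
    have ht := abs_noise_le hρabs hFabs y
    rcases hF y with h | h
    · have := hP _ ht
      rw [h, ha]
      nlinarith
    · have := hM _ ht
      rw [h, ha]
      nlinarith
  have hsum : ∑ y, Psi (noise ρ F y) ≤ ∑ y, ((cP + cM) / 2 + (cP - cM) / 2 * F y
      + (dP + dM) / 2 * noise ρ F y + a * (F y * noise ρ F y)
      + e * (noise ρ F y * noise ρ F y)) :=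
    Finset.sum_le_sum fun y _ => hpt y
  have hexp : ∑ y, ((cP + cM) / 2 + (cP - cM) / 2 * F y
      + (dP + dM) / 2 * noise ρ F y + a * (F y * noise ρ F y)
      + e * (noise ρ F y * noise ρ F y))
      = 2 ^ n * ((cP + cM) / 2 + (cP - cM) / 2 * μ + (dP + dM) / 2 * μ
        + ∑ S, (a * ρ ^ S.card + e * (ρ ^ S.card) ^ 2) * hat F S ^ 2) := by
    simp only [Finset.sum_add_distrib, ← Finset.mul_sum]
    rw [sum_F_mul_noise, sum_noise_mul_noise, sum_noise, sum_eq_hat_empty F]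
    simp only [Finset.sum_const, Finset.card_univ, Fintype.card_fun, Fintype.card_bool,
      Fintype.card_fin, nsmul_eq_mul]
    push_cast
    have : ∑ S : Finset (Fin n), (a * ρ ^ S.card + e * (ρ ^ S.card) ^ 2) * hat F S ^ 2
        = a * ∑ S : Finset (Fin n), ρ ^ S.card * hat F S ^ 2
          + e * ∑ S : Finset (Fin n), (ρ ^ S.card) ^ 2 * hat F S ^ 2 := by
      rw [Finset.mul_sum, Finset.mul_sum, ← Finset.sum_add_distrib]
      apply Finset.sum_congr rfl; intro S _; ring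
    rw [this]
    ring
  have hterm : ∀ S : Finset (Fin n), (a * ρ ^ S.card + e * (ρ ^ S.card) ^ 2) * hat F S ^ 2
      ≤ (if S = ∅ then (a + e - G - Y) * μ ^ 2 else 0)
        + (if S.card = 1 then (a * ρ + e * ρ ^ 2 - G) * hat F S ^ 2 else 0)
        + Y * (if Even S.card then hat F S ^ 2 else 0)
        + G * hat F S ^ 2 := by
    intro S
    by_cases h0 : S = ∅
    · subst h0
      simp only [Finset.card_empty, pow_zero, if_true, zero_ne_one, if_false, add_zero, hμ,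
        Even.zero]
      apply le_of_eq; ring
    · rw [if_neg h0, zero_add]
      by_cases h1 : S.card = 1
      · rw [if_pos h1, h1, pow_one, if_neg (by decide : ¬ Even 1)]
        apply le_of_eq; ring
      · rw [if_neg h1, zero_add]
        have hk : 2 ≤ S.card := by
          have : S.card ≠ 0 := by
            rw [Finset.card_ne_zero]; exact Finset.nonempty_iff_ne_empty.mpr h0
          omega
        by_cases hev : Even S.card
        · rw [if_pos hev]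
          have hv : ρ ^ S.card ≤ ρ ^ 2 := pow_le_pow_of_le_one hρ0 hρ1 hk
          have := level_g_le he (add_nonneg hG0 hY0) hG2 (pow_nonneg hρ0 _) hv
          have h2 := mul_le_mul_of_nonneg_right this (sq_nonneg (hat F S))
          linarith
        · rw [if_neg hev, mul_zero, zero_add]
          have hk3 : 3 ≤ S.card := by
            by_contra hlt
            have : S.card = 2 := by omega
            rw [this] at hev
            exact hev (by decide)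
          have hv : ρ ^ S.card ≤ ρ ^ 3 := pow_le_pow_of_le_one hρ0 hρ1 hk3
          have := level_g_le he hG0 hG3 (pow_nonneg hρ0 _) hv
          exact mul_le_mul_of_nonneg_right this (sq_nonneg _)
  have hfour : ∑ S : Finset (Fin n), (a * ρ ^ S.card + e * (ρ ^ S.card) ^ 2) * hat F S ^ 2
      ≤ (a + e - G - Y) * μ ^ 2 + (a * ρ + e * ρ ^ 2 - G) * lev1 F + Y * evenW F + G := by
    calc _ ≤ ∑ S : Finset (Fin n), ((if S = ∅ then (a + e - G - Y) * μ ^ 2 else 0)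
        + (if S.card = 1 then (a * ρ + e * ρ ^ 2 - G) * hat F S ^ 2 else 0)
        + Y * (if Even S.card then hat F S ^ 2 else 0)
        + G * hat F S ^ 2) := Finset.sum_le_sum fun S _ => hterm S
      _ = _ := by
        rw [Finset.sum_add_distrib, Finset.sum_add_distrib, Finset.sum_add_distrib,
          Finset.sum_ite_eq' Finset.univ ∅, sum_card_one, ← Finset.mul_sum (a := G), sum_hat_sq hF,
          ← Finset.mul_sum (a := Y)]
        simp only [Finset.mem_univ, if_true, lev1, Finset.mul_sum, mul_one, evenW]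
  rw [div_le_iff₀ hN]
  calc ∑ y, Psi (noise ρ F y) ≤ _ := hsum
    _ = _ := hexp
    _ ≤ 2 ^ n * ((cP + cM) / 2 + (cP - cM) / 2 * μ + (dP + dM) / 2 * μ
        + ((a + e - G - Y) * μ ^ 2 + (a * ρ + e * ρ ^ 2 - G) * lev1 F + Y * evenW F + G)) := by
        apply mul_le_mul_of_nonneg_left _ hN.le
        linarith
    _ = _ := by ring

/-- The pair `(W, e)` is dominated by the list `V` of rational points: every linear form with a
nonnegative weight on `e` is at most its value on some point of `V`. -/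
def Dominated (V : List (ℚ × ℚ)) (W e : ℝ) : Prop :=
  ∀ X Y : ℝ, 0 ≤ Y → ∃ v ∈ V, X * W + Y * e ≤ X * (v.1 : ℝ) + Y * (v.2 : ℝ)

lemma Dominated.mono {V V' : List (ℚ × ℚ)} (h : V ⊆ V') {W e : ℝ} (hd : Dominated V W e) :
    Dominated V' W e := by
  intro X Y hY
  obtain ⟨v, hv, hle⟩ := hd X Y hY
  exact ⟨v, h hv, hle⟩

/-- A point between two vertices, under a facet with positive weight on `e`. -/
lemma dom_segment {V : List (ℚ × ℚ)} {Wa Wb ea eb : ℚ} (ha : (Wa, ea) ∈ V) (hb : (Wb, eb) ∈ V)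
    {W e P Q R : ℝ} (hab : (Wa : ℝ) < (Wb : ℝ)) (h1 : (Wa : ℝ) ≤ W) (h2 : W ≤ (Wb : ℝ)) (hQ : 0 < Q)
    (hf : P * W + Q * e ≤ R) (hRa : R ≤ P * (Wa : ℝ) + Q * (ea : ℝ))
    (hRb : R ≤ P * (Wb : ℝ) + Q * (eb : ℝ)) : Dominated V W e := by
  intro X Y hY
  have hd : 0 < (Wb : ℝ) - (Wa : ℝ) := by linarith
  set l : ℝ := ((Wb : ℝ) - W) / ((Wb : ℝ) - (Wa : ℝ)) with hl
  have hl0 : 0 ≤ l := div_nonneg (by linarith) hd.le
  have hl1 : l ≤ 1 := by rw [hl, div_le_one hd]; linarith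
  have hWe : W = l * (Wa : ℝ) + (1 - l) * (Wb : ℝ) := by rw [hl]; field_simp; ring
  set e' : ℝ := l * (ea : ℝ) + (1 - l) * (eb : ℝ) with he'
  have hee : e ≤ e' := by
    have h3 : Q * e ≤ Q * e' := by
      have c1 := mul_le_mul_of_nonneg_left hRa hl0
      have c2 := mul_le_mul_of_nonneg_left hRb (by linarith : 0 ≤ 1 - l)
      have e1 : P * W = l * (P * (Wa : ℝ)) + (1 - l) * (P * (Wb : ℝ)) := by rw [hWe]; ring
      have e2 : Q * e' = l * (Q * (ea : ℝ)) + (1 - l) * (Q * (eb : ℝ)) := by rw [he']; ring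
      nlinarith
    exact le_of_mul_le_mul_left h3 hQ
  have hval : X * W + Y * e ≤ l * (X * (Wa : ℝ) + Y * (ea : ℝ))
      + (1 - l) * (X * (Wb : ℝ) + Y * (eb : ℝ)) := by
    have h3 := mul_le_mul_of_nonneg_left hee hY
    have e1 : X * W = l * (X * (Wa : ℝ)) + (1 - l) * (X * (Wb : ℝ)) := by rw [hWe]; ring
    have e2 : Y * e' = l * (Y * (ea : ℝ)) + (1 - l) * (Y * (eb : ℝ)) := by rw [he']; ring
    nlinarith
  by_cases hc : X * (Wa : ℝ) + Y * (ea : ℝ) ≤ X * (Wb : ℝ) + Y * (eb : ℝ)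
  · refine ⟨(Wb, eb), hb, ?_⟩
    have c1 := mul_le_mul_of_nonneg_left hc hl0
    simp only
    nlinarith
  · refine ⟨(Wa, ea), ha, ?_⟩
    have hc' := (lt_of_not_ge hc).le
    have c1 := mul_le_mul_of_nonneg_left hc' (by linarith : 0 ≤ 1 - l)
    simp only
    nlinarith

/-- The middle polygon. -/
lemma dom_mid {V : List (ℚ × ℚ)} {C : ℚ} (h1 : ((0 : ℚ), (1 : ℚ)) ∈ V)
    (h2 : ((2 * C - 1 : ℚ), (2 - 2 * C : ℚ)) ∈ V) (h3 : ((C : ℚ), (0 : ℚ)) ∈ V) {W e : ℝ}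
    (hW : 0 ≤ W) (he : 0 ≤ e) (hsum : W + e ≤ 1) (hlink : W + e / 2 ≤ (C : ℝ)) :
    Dominated V W e := by
  intro X Y hY
  by_cases hXY : X ≤ Y
  · refine ⟨(0, 1), h1, ?_⟩
    simp only [Rat.cast_zero, Rat.cast_one, mul_zero, mul_one, zero_add]
    by_cases hX : 0 ≤ X
    · have c1 := mul_le_mul_of_nonneg_left hsum hX
      have c2 : (Y - X) * e ≤ (Y - X) * 1 :=
        mul_le_mul_of_nonneg_left (by linarith) (by linarith)
      nlinarith
    · have hX' : X < 0 := lt_of_not_ge hX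
      have c1 : X * W ≤ 0 := mul_nonpos_of_nonpos_of_nonneg hX'.le hW
      have c2 : Y * e ≤ Y * 1 := mul_le_mul_of_nonneg_left (by linarith) hY
      linarith
  · have hXY' : Y < X := lt_of_not_ge hXY
    by_cases hX2 : X ≤ 2 * Y
    · refine ⟨(2 * C - 1, 2 - 2 * C), h2, ?_⟩
      push_cast
      have c1 := mul_le_mul_of_nonneg_left hlink (by linarith : 0 ≤ 2 * (X - Y))
      have c2 := mul_le_mul_of_nonneg_left hsum (by linarith : 0 ≤ 2 * Y - X)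
      nlinarith
    · have hX2' : 2 * Y < X := lt_of_not_ge hX2
      refine ⟨(C, 0), h3, ?_⟩
      simp only [Rat.cast_zero, mul_zero, add_zero]
      have c1 := mul_le_mul_of_nonneg_left hlink (by linarith : 0 ≤ X)
      have c2 : (X / 2 - Y) * e ≥ 0 := mul_nonneg (by linarith) he
      nlinarith

/-- One piece in the mean for a far cell with the even weight. -/
structure FarPieceE where
  m₁ : ℚ
  m₂ : ℚ
  lm : LineD
  pu : Parab
  pv : Parab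
  su : Bool
  sv : Bool
  G : ℚ
  Y : ℚ

/-- Slope for the first parabola. -/
def FarPieceE.dp (P : FarPieceE) : ℚ := if P.su then -P.pu.d else P.pu.d

/-- Slope for the second parabola. -/
def FarPieceE.dm (P : FarPieceE) : ℚ := if P.sv then -P.pv.d else P.pv.d

/-- The corner inequalities of a far piece, at all points of `V`. -/
def FarPieceE.corner (P : FarPieceE) (V : List (ℚ × ℚ)) (lr : LineD) (r m : ℚ) : Bool :=
  let a := (P.dp - P.dm) / 2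
  let e := P.pu.e
  let K₀ := (P.pu.c + P.pv.c) / 2
  let K₁ := (P.pu.c - P.pv.c) / 2 + (P.dp + P.dm) / 2
  V.all fun v => decide (K₀ + K₁ * m + (a + e - P.G - P.Y) * m ^ 2
      + (a * r + e * r ^ 2 - P.G) * v.1 + P.Y * v.2 + P.G
    ≤ lr.P + lr.S * (r - lr.x₀) + (P.lm.P + P.lm.S * (m - P.lm.x₀)))

/-- The numerical check for a far piece. -/
def FarPieceE.ok (P : FarPieceE) (r₁ r₂ : ℚ) (V : List (ℚ × ℚ)) (lr : LineD) : Bool :=
  let a := (P.dp - P.dm) / 2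
  let e := P.pu.e
  P.pu.ok && P.pv.ok && decide (P.pu.e = P.pv.e) && decide (0 ≤ r₁) && decide (r₁ < r₂)
    && decide (r₂ ≤ 1) && decide (0 ≤ P.m₁) && decide (P.m₁ < P.m₂) && decide (P.m₂ ≤ 1)
    && P.lm.ok P.m₁ P.m₂ && decide (0 ≤ P.G) && decide (0 ≤ P.Y)
    && decide (a * r₂ ^ 3 + e * (r₂ ^ 3) ^ 2 ≤ P.G)
    && decide (a * r₂ ^ 2 + e * (r₂ ^ 2) ^ 2 ≤ P.G + P.Y) && decide (0 ≤ a + e - P.G - P.Y)
    && P.corner V lr r₁ P.m₁ && P.corner V lr r₁ P.m₂ && P.corner V lr r₂ P.m₁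
    && P.corner V lr r₂ P.m₂

/-- What a far check delivers at a fixed mean. -/
def FarAtE (V : List (ℚ × ℚ)) (ρ : ℝ) (μ₀ : ℝ) : Prop :=
  ∀ (n : ℕ) (F : (Fin n → Bool) → ℝ), (∀ x, F x = 1 ∨ F x = -1) → hat F ∅ = μ₀ →
    Dominated V (lev1 F) (evenW F) →
    (∑ y, Psi (noise ρ F y)) / 2 ^ n ≤ Psi ρ + Psi (hat F ∅)

/-- The corner principle for a far cell with the even weight. -/
lemma far_cornersE {ρ μ W E r₁ r₂ m₁ m₂ K₀ K₁ a e G Y Pr Sr xr Pm Sm xm Tρ Tμ : ℝ}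
    (hr : r₁ < r₂) (hρ1 : r₁ ≤ ρ) (hρ2 : ρ ≤ r₂) (hm : m₁ < m₂) (hμ1 : m₁ ≤ μ) (hμ2 : μ ≤ m₂)
    (he : 0 ≤ e) (hθ : 0 ≤ a + e - G - Y) (hW0 : 0 ≤ W)
    (hLr : Pr + Sr * (ρ - xr) ≤ Tρ) (hLm : Pm + Sm * (μ - xm) ≤ Tμ)
    (h11 : K₀ + K₁ * m₁ + (a + e - G - Y) * m₁ ^ 2 + (a * r₁ + e * r₁ ^ 2 - G) * W + Y * E + G
      ≤ Pr + Sr * (r₁ - xr) + (Pm + Sm * (m₁ - xm)))
    (h12 : K₀ + K₁ * m₂ + (a + e - G - Y) * m₂ ^ 2 + (a * r₁ + e * r₁ ^ 2 - G) * W + Y * E + G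
      ≤ Pr + Sr * (r₁ - xr) + (Pm + Sm * (m₂ - xm)))
    (h21 : K₀ + K₁ * m₁ + (a + e - G - Y) * m₁ ^ 2 + (a * r₂ + e * r₂ ^ 2 - G) * W + Y * E + G
      ≤ Pr + Sr * (r₂ - xr) + (Pm + Sm * (m₁ - xm)))
    (h22 : K₀ + K₁ * m₂ + (a + e - G - Y) * m₂ ^ 2 + (a * r₂ + e * r₂ ^ 2 - G) * W + Y * E + G
      ≤ Pr + Sr * (r₂ - xr) + (Pm + Sm * (m₂ - xm))) :
    K₀ + K₁ * μ + (a + e - G - Y) * μ ^ 2 + (a * ρ + e * ρ ^ 2 - G) * W + Y * E + G ≤ Tρ + Tμ := by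
  have hrw : 0 < r₂ - r₁ := by linarith
  have hmw : 0 < m₂ - m₁ := by linarith
  set l := (r₂ - ρ) / (r₂ - r₁) with hl
  set q := (m₂ - μ) / (m₂ - m₁) with hq
  have hl0 : 0 ≤ l := div_nonneg (by linarith) hrw.le
  have hl1 : l ≤ 1 := by rw [hl, div_le_one hrw]; linarith
  have hq0 : 0 ≤ q := div_nonneg (by linarith) hmw.le
  have hq1 : q ≤ 1 := by rw [hq, div_le_one hmw]; linarith
  have hρe : ρ = l * r₁ + (1 - l) * r₂ := by rw [hl]; field_simp; ring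
  have hμe : μ = q * m₁ + (1 - q) * m₂ := by rw [hq]; field_simp; ring
  set X₁ := a * r₁ + e * r₁ ^ 2 - G with hX₁
  set X₂ := a * r₂ + e * r₂ ^ 2 - G with hX₂
  have hg : a * ρ + e * ρ ^ 2 - G ≤ l * X₁ + (1 - l) * X₂ := by
    have h1 : a * ρ + e * ρ ^ 2 - G
        = l * X₁ + (1 - l) * X₂ - e * (l * (1 - l) * (r₁ - r₂) ^ 2) := by
      rw [hρe, hX₁, hX₂]; ring
    have h2 : 0 ≤ e * (l * (1 - l) * (r₁ - r₂) ^ 2) := by
      have : 0 ≤ 1 - l := by linarith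
      positivity
    linarith
  have hprod : (a * ρ + e * ρ ^ 2 - G) * W ≤ (l * X₁ + (1 - l) * X₂) * W :=
    mul_le_mul_of_nonneg_right hg hW0
  have hsq : (a + e - G - Y) * μ ^ 2 ≤ (a + e - G - Y) * (q * m₁ ^ 2 + (1 - q) * m₂ ^ 2) := by
    apply mul_le_mul_of_nonneg_left _ hθ
    have h5 : q * m₁ ^ 2 + (1 - q) * m₂ ^ 2 - μ ^ 2 = q * (1 - q) * (m₁ - m₂) ^ 2 := by
      rw [hμe]; ring
    have h6 : 0 ≤ q * (1 - q) * (m₁ - m₂) ^ 2 := by
      have : 0 ≤ 1 - q := by linarith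
      positivity
    linarith
  have w11 : 0 ≤ l * q := mul_nonneg hl0 hq0
  have w12 : 0 ≤ l * (1 - q) := mul_nonneg hl0 (by linarith)
  have w21 : 0 ≤ (1 - l) * q := mul_nonneg (by linarith) hq0
  have w22 : 0 ≤ (1 - l) * (1 - q) := mul_nonneg (by linarith) (by linarith)
  have c11 := mul_le_mul_of_nonneg_left h11 w11
  have c12 := mul_le_mul_of_nonneg_left h12 w12
  have c21 := mul_le_mul_of_nonneg_left h21 w21
  have c22 := mul_le_mul_of_nonneg_left h22 w22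
  have hrhs : l * q * (Pr + Sr * (r₁ - xr) + (Pm + Sm * (m₁ - xm)))
      + l * (1 - q) * (Pr + Sr * (r₁ - xr) + (Pm + Sm * (m₂ - xm)))
      + (1 - l) * q * (Pr + Sr * (r₂ - xr) + (Pm + Sm * (m₁ - xm)))
      + (1 - l) * (1 - q) * (Pr + Sr * (r₂ - xr) + (Pm + Sm * (m₂ - xm)))
      = Pr + Sr * (ρ - xr) + (Pm + Sm * (μ - xm)) := by
    rw [hρe, hμe]; ring
  have hlhs : l * q * (K₀ + K₁ * m₁ + (a + e - G - Y) * m₁ ^ 2 + X₁ * W + Y * E + G)
      + l * (1 - q) * (K₀ + K₁ * m₂ + (a + e - G - Y) * m₂ ^ 2 + X₁ * W + Y * E + G)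
      + (1 - l) * q * (K₀ + K₁ * m₁ + (a + e - G - Y) * m₁ ^ 2 + X₂ * W + Y * E + G)
      + (1 - l) * (1 - q) * (K₀ + K₁ * m₂ + (a + e - G - Y) * m₂ ^ 2 + X₂ * W + Y * E + G)
      = K₀ + K₁ * μ + (a + e - G - Y) * (q * m₁ ^ 2 + (1 - q) * m₂ ^ 2)
        + (l * X₁ + (1 - l) * X₂) * W + Y * E + G := by
    rw [hμe]; ring
  linarith

theorem FarPieceE.sound {P : FarPieceE} {r₁ r₂ : ℚ} {V : List (ℚ × ℚ)} {lr : LineD}
    (h : P.ok r₁ r₂ V lr = true)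
    (hlr : lr.ok r₁ r₂ = true) {ρ μ : ℝ} (hρ1 : (r₁ : ℝ) ≤ ρ) (hρ2 : ρ ≤ (r₂ : ℝ))
    (hμ1 : (P.m₁ : ℝ) ≤ μ) (hμ2 : μ ≤ (P.m₂ : ℝ)) : FarAtE V ρ μ := by
  simp only [FarPieceE.ok, Bool.and_eq_true, decide_eq_true_eq] at h
  obtain ⟨⟨⟨⟨⟨⟨⟨⟨⟨⟨⟨⟨⟨⟨⟨⟨⟨⟨hpu, hpv⟩, hee⟩, hr0⟩, hr⟩, hr1⟩, hm0⟩, hm⟩, hm1⟩, hlm⟩, hG0⟩, hY0⟩,
    hG3⟩, hG2⟩, hθ⟩, h11⟩, h12⟩, h21⟩, h22⟩ := h
  intro n F hF hμ hdom
  subst hμ
  set μ := hat F ∅ with hμdef
  have hr0' : (0 : ℝ) ≤ (r₁ : ℝ) := by exact_mod_cast hr0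
  have hr' : (r₁ : ℝ) < (r₂ : ℝ) := by exact_mod_cast hr
  have hr1' : (r₂ : ℝ) ≤ 1 := by exact_mod_cast hr1
  have hm' : (P.m₁ : ℝ) < (P.m₂ : ℝ) := by exact_mod_cast hm
  have hG0' : (0 : ℝ) ≤ (P.G : ℝ) := by exact_mod_cast hG0
  have hY0' : (0 : ℝ) ≤ (P.Y : ℝ) := by exact_mod_cast hY0
  have hρ0 : 0 ≤ ρ := hr0'.trans hρ1
  have hρ11 : ρ ≤ 1 := hρ2.trans hr1'
  have he0 : (0 : ℝ) ≤ (P.pu.e : ℝ) := by
    have : 0 ≤ P.pu.e := by
      simp only [Parab.ok, Bool.and_eq_true, decide_eq_true_eq] at hpu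
      exact hpu.1.1.1.2
    exact_mod_cast this
  have hQp : ∀ t, |t| ≤ 1 → Psi t ≤ (P.pu.c : ℝ) + (P.dp : ℝ) * t + (P.pu.e : ℝ) * t ^ 2 := by
    intro t ht
    unfold FarPieceE.dp
    by_cases hs : P.su = true
    · simp only [hs, if_true]
      push_cast
      exact Parab.sound_neg hpu t ht
    · simp only [hs, if_false]
      exact Parab.sound hpu t ht
  have hQm : ∀ t, |t| ≤ 1 → Psi t ≤ (P.pv.c : ℝ) + (P.dm : ℝ) * t + (P.pu.e : ℝ) * t ^ 2 := by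
    intro t ht
    unfold FarPieceE.dm
    by_cases hs : P.sv = true
    · simp only [hs, if_true]
      push_cast
      rw [hee]
      exact Parab.sound_neg hpv t ht
    · simp only [hs, if_false]
      rw [hee]
      exact Parab.sound hpv t ht
  have hG3' := (Rat.cast_le (K := ℝ)).mpr hG3
  have hG2' := (Rat.cast_le (K := ℝ)).mpr hG2
  have hθ' := (Rat.cast_le (K := ℝ)).mpr hθ
  push_cast at hG3' hG2' hθ'
  set a : ℝ := ((P.dp : ℝ) - (P.dm : ℝ)) / 2 with ha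
  set e : ℝ := (P.pu.e : ℝ) with he
  set G : ℝ := (P.G : ℝ) with hG
  set Y : ℝ := (P.Y : ℝ) with hY
  have hGρ3 : a * ρ ^ 3 + e * (ρ ^ 3) ^ 2 ≤ G := by
    refine level_g_le he0 hG0' hG3' (pow_nonneg hρ0 3) ?_
    exact pow_le_pow_left₀ hρ0 hρ2 3
  have hGρ2 : a * ρ ^ 2 + e * (ρ ^ 2) ^ 2 ≤ G + Y := by
    refine level_g_le he0 (add_nonneg hG0' hY0') hG2' (sq_nonneg ρ) ?_
    exact pow_le_pow_left₀ hρ0 hρ2 2
  have hbound := far_bound2 hF hρ0 hρ11 he0 hQp hQm hG0' hY0' hGρ3 hGρ2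
  rw [← ha, ← hμdef] at hbound
  have hLr := LineD.sound hlr hρ1 hρ2
  have hLm := LineD.sound hlm hμ1 hμ2
  -- corners in real form
  have cast_corner : ∀ r m : ℚ, P.corner V lr r m = true →
      ((P.pu.c : ℝ) + (P.pv.c : ℝ)) / 2
        + (((P.pu.c : ℝ) - (P.pv.c : ℝ)) / 2 + ((P.dp : ℝ) + (P.dm : ℝ)) / 2) * (m : ℝ)
        + (a + e - G - Y) * (m : ℝ) ^ 2 + (a * (r : ℝ) + e * (r : ℝ) ^ 2 - G) * lev1 F
        + Y * evenW F + G
      ≤ (lr.P : ℝ) + (lr.S : ℝ) * ((r : ℝ) - (lr.x₀ : ℝ))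
        + ((P.lm.P : ℝ) + (P.lm.S : ℝ) * ((m : ℝ) - (P.lm.x₀ : ℝ))) := by
    intro r m hc
    obtain ⟨v, hv, hle⟩ := hdom (a * (r : ℝ) + e * (r : ℝ) ^ 2 - G) Y hY0'
    simp only [FarPieceE.corner, List.all_eq_true, decide_eq_true_eq] at hc
    have := (Rat.cast_le (K := ℝ)).mpr (hc v hv)
    push_cast at this
    simp only [← ha, ← he, ← hG, ← hY] at this
    linarith
  have hfinal := far_cornersE (ρ := ρ) (μ := μ) (W := lev1 F) (E := evenW F) (r₁ := (r₁ : ℝ))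
    (r₂ := (r₂ : ℝ)) (m₁ := (P.m₁ : ℝ)) (m₂ := (P.m₂ : ℝ))
    (K₀ := ((P.pu.c : ℝ) + (P.pv.c : ℝ)) / 2)
    (K₁ := ((P.pu.c : ℝ) - (P.pv.c : ℝ)) / 2 + ((P.dp : ℝ) + (P.dm : ℝ)) / 2) (a := a) (e := e)
    (G := G) (Y := Y) (Pr := (lr.P : ℝ)) (Sr := (lr.S : ℝ))
    (xr := (lr.x₀ : ℝ)) (Pm := (P.lm.P : ℝ)) (Sm := (P.lm.S : ℝ)) (xm := (P.lm.x₀ : ℝ))
    (Tρ := Psi ρ) (Tμ := Psi μ) hr' hρ1 hρ2 hm' hμ1 hμ2 he0 hθ' (lev1_nonneg F) hLr hLm
    (cast_corner _ _ h11) (cast_corner _ _ h12) (cast_corner _ _ h21) (cast_corner _ _ h22)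
  linarith

/-- A chain of pieces covering the means from `lo` up to `top`. -/
def farPiecesE (r₁ r₂ : ℚ) (V : List (ℚ × ℚ)) (lr : LineD) (top : ℚ) : ℚ → List FarPieceE → Bool
  | lo, [] => decide (top ≤ lo)
  | lo, P :: l => decide (P.m₁ ≤ lo) && P.ok r₁ r₂ V lr && farPiecesE r₁ r₂ V lr top P.m₂ l

lemma farPiecesE_sound_strict {r₁ r₂ top : ℚ} {V : List (ℚ × ℚ)} {lr : LineD}
    (hlr : lr.ok r₁ r₂ = true)
    (l : List FarPieceE) (lo : ℚ) (h : farPiecesE r₁ r₂ V lr top lo l = true) {ρ μ : ℝ}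
    (hρ1 : (r₁ : ℝ) ≤ ρ) (hρ2 : ρ ≤ (r₂ : ℝ)) (h1 : (lo : ℝ) < μ) (h2 : μ ≤ (top : ℝ)) :
    FarAtE V ρ μ := by
  induction l generalizing lo with
  | nil =>
    simp only [farPiecesE, decide_eq_true_eq] at h
    have : (top : ℝ) ≤ (lo : ℝ) := by exact_mod_cast h
    linarith
  | cons P l ih =>
    simp only [farPiecesE, Bool.and_eq_true, decide_eq_true_eq] at h
    obtain ⟨⟨hr, hok⟩, hl⟩ := h
    have hr' : (P.m₁ : ℝ) ≤ (lo : ℝ) := by exact_mod_cast hr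
    by_cases hc : μ ≤ (P.m₂ : ℝ)
    · exact FarPieceE.sound hok hlr hρ1 hρ2 (by linarith) hc
    · exact ih P.m₂ hl (lt_of_not_ge hc)

/-- A far cell: an interval in the noise parameter, and pieces for the mean. -/
structure FarCellE where
  r₁ : ℚ
  r₂ : ℚ
  lr : LineD
  P₀ : FarPieceE
  rest : List FarPieceE

/-- The numerical check for a far cell. -/
def FarCellE.ok (c : FarCellE) (V : List (ℚ × ℚ)) (top : ℚ) : Bool :=
  c.lr.ok c.r₁ c.r₂ && farPiecesE c.r₁ c.r₂ V c.lr top 0 (c.P₀ :: c.rest)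

/-- What a far check delivers: all means in `[0, top]`. -/
def FarEConcl (V : List (ℚ × ℚ)) (top : ℚ) (ρ : ℝ) : Prop :=
  ∀ (n : ℕ) (F : (Fin n → Bool) → ℝ), (∀ x, F x = 1 ∨ F x = -1) → 0 ≤ hat F ∅ →
    hat F ∅ ≤ (top : ℝ) → Dominated V (lev1 F) (evenW F) →
    (∑ y, Psi (noise ρ F y)) / 2 ^ n ≤ Psi ρ + Psi (hat F ∅)

theorem FarCellE.sound {c : FarCellE} {V : List (ℚ × ℚ)} {top : ℚ} (h : c.ok V top = true) {ρ : ℝ}
    (h1 : (c.r₁ : ℝ) ≤ ρ) (h2 : ρ ≤ (c.r₂ : ℝ)) : FarEConcl V top ρ := by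
  simp only [FarCellE.ok, farPiecesE, Bool.and_eq_true, decide_eq_true_eq] at h
  obtain ⟨hlr, ⟨hr, hok⟩, hl⟩ := h
  intro n F hF hm hmt hW
  have hr' : (c.P₀.m₁ : ℝ) ≤ 0 := by exact_mod_cast hr
  by_cases hc : hat F ∅ ≤ (c.P₀.m₂ : ℝ)
  · exact FarPieceE.sound hok hlr h1 h2 (by linarith) hc n F hF rfl hW
  · exact farPiecesE_sound_strict hlr c.rest _ hl h1 h2 (lt_of_not_ge hc) hmt n F hF rfl hW

/-- A chain of far cells covering an interval in the noise parameter. -/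
def farChainE (V : List (ℚ × ℚ)) (top : ℚ) : ℚ → List FarCellE → ℚ → Bool
  | lo, [], hi => decide (hi ≤ lo)
  | lo, c :: l, hi => decide (c.r₁ ≤ lo) && c.ok V top && farChainE V top c.r₂ l hi

lemma farChainE_sound_strict {V : List (ℚ × ℚ)} {top : ℚ} (l : List FarCellE) (lo hi : ℚ)
    (h : farChainE V top lo l hi = true) {ρ : ℝ} (h1 : (lo : ℝ) < ρ) (h2 : ρ ≤ (hi : ℝ)) :
    FarEConcl V top ρ := by
  induction l generalizing lo with
  | nil =>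
    simp only [farChainE, decide_eq_true_eq] at h
    have : (hi : ℝ) ≤ (lo : ℝ) := by exact_mod_cast h
    linarith
  | cons c l ih =>
    simp only [farChainE, Bool.and_eq_true, decide_eq_true_eq] at h
    obtain ⟨⟨hr, hok⟩, hl⟩ := h
    have hr' : (c.r₁ : ℝ) ≤ (lo : ℝ) := by exact_mod_cast hr
    by_cases hc : ρ ≤ (c.r₂ : ℝ)
    · exact FarCellE.sound hok (by linarith) hc
    · exact ih c.r₂ hl (lt_of_not_ge hc)

theorem farChainE_sound {V : List (ℚ × ℚ)} {top : ℚ} (c : FarCellE) (l : List FarCellE) (lo hi : ℚ)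
    (h : farChainE V top lo (c :: l) hi = true) {ρ : ℝ} (h1 : (lo : ℝ) ≤ ρ) (h2 : ρ ≤ (hi : ℝ)) :
    FarEConcl V top ρ := by
  simp only [farChainE, Bool.and_eq_true, decide_eq_true_eq] at h
  obtain ⟨⟨hr, hok⟩, hl⟩ := h
  have hr' : (c.r₁ : ℝ) ≤ (lo : ℝ) := by exact_mod_cast hr
  by_cases hc : ρ ≤ (c.r₂ : ℝ)
  · exact FarCellE.sound hok (by linarith) hc
  · exact farChainE_sound_strict l c.r₂ hi hl (lt_of_not_ge hc) h2

end Vale.Agent.Lib.P322
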