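import Vale.Agent.Lib.P322.Core

/-! The level-one weight of a `± 1`-valued function against its largest coefficient. -/

set_option linter.unusedVariables false
set_option linter.unusedSectionVars false

namespace Vale.Agent.Lib.P322

open Finset Vale.Agent.Lib.P311

variable {ι : Type*} [Fintype ι] [DecidableEq ι]

/-- A partial linear form on the cube. -/
noncomputable def lin (a : ι → ℝ) (S : Finset ι) (y : ι → Bool) : ℝ := ∑ j ∈ S, a j * sg (y j)

lemma chi_single (j : ι) (x : ι → Bool) : chi {j} x = sg (x j) := by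
  simp [chi]

lemma sum_sg_mul_sg (j k : ι) :
    ∑ y : ι → Bool, sg (y j) * sg (y k) = if j = k then 2 ^ Fintype.card ι else 0 := by
  have := sum_chi_mul_chi ({j} : Finset ι) ({k} : Finset ι)
  simp only [chi_single] at this
  rw [this]
  by_cases h : j = k
  · simp [h]
  · have h' : ({j} : Finset ι) ≠ {k} := by
      intro h2
      exact h (Finset.singleton_inj.mp h2)
    simp [h, h']

/-- The second moment of a partial linear form. -/
lemma sum_lin_sq (a : ι → ℝ) (S : Finset ι) :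
    ∑ y, (lin a S y) ^ 2 = 2 ^ Fintype.card ι * ∑ j ∈ S, (a j) ^ 2 := by
  unfold lin
  have e : ∀ y : ι → Bool, (∑ j ∈ S, a j * sg (y j)) ^ 2
      = ∑ j ∈ S, ∑ k ∈ S, a j * a k * (sg (y j) * sg (y k)) := by
    intro y
    rw [sq, Finset.sum_mul_sum]
    apply Finset.sum_congr rfl; intro j _
    apply Finset.sum_congr rfl; intro k _
    ring
  simp_rw [e]
  rw [Finset.sum_comm]
  have e2 : ∀ j ∈ S, ∑ y : ι → Bool, ∑ k ∈ S, a j * a k * (sg (y j) * sg (y k))
      = 2 ^ Fintype.card ι * (a j) ^ 2 := by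
    intro j hj
    rw [Finset.sum_comm]
    have : ∀ k ∈ S, ∑ y : ι → Bool, a j * a k * (sg (y j) * sg (y k))
        = if j = k then a j * a k * 2 ^ Fintype.card ι else 0 := by
      intro k _
      rw [← Finset.mul_sum, sum_sg_mul_sg]
      split_ifs <;> simp
    rw [Finset.sum_congr rfl this, Finset.sum_ite_eq S j]
    simp only [hj, if_true]
    ring
  rw [Finset.sum_congr rfl e2, Finset.mul_sum]

/-- Flip all the coordinates in `T`. -/
def flipOn (T : Finset ι) (y : ι → Bool) : ι → Bool := fun j => if j ∈ T then !y j else y j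

lemma flipOn_flipOn (T : Finset ι) (y : ι → Bool) : flipOn T (flipOn T y) = y := by
  funext j
  unfold flipOn
  by_cases h : j ∈ T <;> simp [h]

/-- Flipping as a permutation. -/
def flipOnEquiv (T : Finset ι) : (ι → Bool) ≃ (ι → Bool) where
  toFun := flipOn T
  invFun := flipOn T
  left_inv := flipOn_flipOn T
  right_inv := flipOn_flipOn T

lemma lin_flipOn_disjoint (a : ι → ℝ) {S T : Finset ι} (h : Disjoint S T) (y : ι → Bool) :
    lin a S (flipOn T y) = lin a S y := by
  unfold lin flipOn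
  apply Finset.sum_congr rfl
  intro j hj
  have : j ∉ T := Finset.disjoint_left.mp h hj
  simp [this]

lemma lin_flipOn_self (a : ι → ℝ) (T : Finset ι) (y : ι → Bool) :
    lin a T (flipOn T y) = - lin a T y := by
  unfold lin flipOn
  rw [← Finset.sum_neg_distrib]
  apply Finset.sum_congr rfl
  intro j hj
  simp [hj, sg_not]

lemma lin_union (a : ι → ℝ) {S T : Finset ι} (h : Disjoint S T) (y : ι → Bool) :
    lin a (S ∪ T) y = lin a S y + lin a T y := by
  unfold lin
  rw [Finset.sum_union h]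

/-- The mean absolute value of a sum of two independent symmetric parts. -/
lemma sum_abs_lin_union (a : ι → ℝ) {S T : Finset ι} (h : Disjoint S T) :
    ∑ y, |lin a (S ∪ T) y| = ∑ y, max |lin a S y| |lin a T y| := by
  have h1 : ∑ y, |lin a S y + lin a T y| = ∑ y, |lin a S y - lin a T y| := by
    rw [← (flipOnEquiv T).sum_comp (fun y => |lin a S y + lin a T y|)]
    apply Finset.sum_congr rfl
    intro y _
    show |lin a S (flipOn T y) + lin a T (flipOn T y)| = _
    rw [lin_flipOn_disjoint a h, lin_flipOn_self, sub_eq_add_neg]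
  have h2 : ∀ u v : ℝ, |u + v| + |u - v| = 2 * max |u| |v| := by
    intro u v
    rcases le_total |u| |v| with huv | huv
    · rw [max_eq_right huv]
      rcases abs_cases u with ⟨hu, _⟩ | ⟨hu, _⟩ <;> rcases abs_cases v with ⟨hv, _⟩ | ⟨hv, _⟩ <;>
        rcases abs_cases (u + v) with ⟨h3, _⟩ | ⟨h3, _⟩ <;>
        rcases abs_cases (u - v) with ⟨h4, _⟩ | ⟨h4, _⟩ <;> linarith
    · rw [max_eq_left huv]
      rcases abs_cases u with ⟨hu, _⟩ | ⟨hu, _⟩ <;> rcases abs_cases v with ⟨hv, _⟩ | ⟨hv, _⟩ <;>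
        rcases abs_cases (u + v) with ⟨h3, _⟩ | ⟨h3, _⟩ <;>
        rcases abs_cases (u - v) with ⟨h4, _⟩ | ⟨h4, _⟩ <;> linarith
  have h3 : ∑ y, |lin a (S ∪ T) y| = ∑ y, |lin a S y + lin a T y| :=
    Finset.sum_congr rfl fun y _ => by rw [lin_union a h]
  have h4 : ∑ y, |lin a S y + lin a T y| + ∑ y, |lin a S y - lin a T y|
      = 2 * ∑ y, max |lin a S y| |lin a T y| := by
    rw [← Finset.sum_add_distrib, Finset.mul_sum]
    exact Finset.sum_congr rfl fun y _ => h2 _ _
  rw [h3]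
  linarith

/-- A function that does not depend on the coordinates outside `S`. -/
def DepOn (U : (ι → Bool) → ℝ) (S : Finset ι) : Prop := ∀ j, j ∉ S → ∀ y, U (flp y j) = U y

lemma hat_eq_zero_of_depOn {U : (ι → Bool) → ℝ} {S R : Finset ι} (hU : DepOn U S) {j : ι}
    (hjR : j ∈ R) (hjS : j ∉ S) : hat U R = 0 := by
  unfold hat
  have h1 := sum_flp j (fun y => U y * chi R y)
  have h2 : ∑ y, U (flp y j) * chi R (flp y j) = - ∑ y, U y * chi R y := by
    rw [← Finset.sum_neg_distrib]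
    apply Finset.sum_congr rfl
    intro y _
    rw [hU j hjS, chi_flp_of_mem hjR]
    ring
  have h3 : ∑ y, U y * chi R y = 0 := by linarith
  rw [h3, zero_div]

/-- Independence of functions of disjoint coordinates. -/
lemma sum_mul_of_depOn {U V : (ι → Bool) → ℝ} {S T : Finset ι} (hU : DepOn U S) (hV : DepOn V T)
    (h : Disjoint S T) :
    ∑ y, U y * V y = (∑ y, U y) * (∑ y, V y) / 2 ^ Fintype.card ι := by
  rw [parseval]
  have h1 : ∑ R : Finset ι, hat U R * hat V R = hat U ∅ * hat V ∅ := by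
    apply Finset.sum_eq_single ∅
    · intro R _ hR
      obtain ⟨j, hj⟩ := Finset.nonempty_iff_ne_empty.mpr hR
      by_cases hjS : j ∈ S
      · have hjT : j ∉ T := Finset.disjoint_left.mp h hjS
        rw [hat_eq_zero_of_depOn hV hj hjT, mul_zero]
      · rw [hat_eq_zero_of_depOn hU hj hjS, zero_mul]
    · intro h0; exact absurd (Finset.mem_univ _) h0
  rw [h1, sum_eq_hat_empty U, sum_eq_hat_empty V]
  have h2 : (2 : ℝ) ^ Fintype.card ι ≠ 0 := two_pow_ne
  field_simp

lemma depOn_abs_lin (a : ι → ℝ) (S : Finset ι) : DepOn (fun y => |lin a S y|) S := by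
  intro j hj y
  show |lin a S (flp y j)| = |lin a S y|
  congr 1
  unfold lin
  apply Finset.sum_congr rfl
  intro k hk
  have : k ≠ j := fun h => hj (h ▸ hk)
  rw [flp_apply_of_ne _ this]

/-- First moment against second moment. -/
lemma mean_abs_le (a : ι → ℝ) (S : Finset ι) {M : ℝ} (hM : 0 ≤ M)
    (h : ∑ j ∈ S, (a j) ^ 2 ≤ M ^ 2) :
    (∑ y, |lin a S y|) / 2 ^ Fintype.card ι ≤ M := by
  have hN : (0 : ℝ) < 2 ^ Fintype.card ι := by positivity
  set N : ℝ := 2 ^ Fintype.card ι with hNdef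
  have h1 : (∑ y : ι → Bool, |lin a S y|) ^ 2
      ≤ (Finset.univ : Finset (ι → Bool)).card * ∑ y, |lin a S y| ^ 2 :=
    sq_sum_le_card_mul_sum_sq
  have hcard : ((Finset.univ : Finset (ι → Bool)).card : ℝ) = N := by
    simp [Finset.card_univ, hNdef]
  rw [hcard] at h1
  simp only [sq_abs] at h1
  rw [sum_lin_sq, ← hNdef] at h1
  have h2 : ((∑ y : ι → Bool, |lin a S y|) / N) ^ 2 ≤ M ^ 2 := by
    rw [div_pow, div_le_iff₀ (by positivity)]
    nlinarith [mul_le_mul_of_nonneg_left h (mul_pos hN hN).le]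
  exact abs_le_of_sq_le_sq' h2 hM |>.2

/-- The one-coordinate estimate. -/
lemma mean_abs_le_pair (a : ι → ℝ) {S : Finset ι} {i : ι} (hi : i ∈ S) (hai : 0 < |a i|) :
    (∑ y, |lin a S y|) / 2 ^ Fintype.card ι
      ≤ |a i| + (∑ j ∈ S, (a j) ^ 2 - (a i) ^ 2) / (4 * |a i|) := by
  have hN : (0 : ℝ) < 2 ^ Fintype.card ι := by positivity
  have hdisj : Disjoint ({i} : Finset ι) (S.erase i) := by
    rw [Finset.disjoint_singleton_left]; simp
  have hun : ({i} : Finset ι) ∪ S.erase i = S := by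
    rw [← Finset.insert_eq, Finset.insert_erase hi]
  have h1 := sum_abs_lin_union a hdisj
  rw [hun] at h1
  rw [h1]
  have hsingle : ∀ y : ι → Bool, |lin a {i} y| = |a i| := by
    intro y
    unfold lin
    rw [Finset.sum_singleton, abs_mul]
    cases y i <;> simp [sg]
  have hpt : ∀ y : ι → Bool, max |lin a {i} y| |lin a (S.erase i) y|
      ≤ |a i| + (lin a (S.erase i) y) ^ 2 / (4 * |a i|) := by
    intro y
    rw [hsingle]
    apply max_le
    · have : 0 ≤ (lin a (S.erase i) y) ^ 2 / (4 * |a i|) := by positivity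
      linarith
    · rw [← sub_le_iff_le_add', le_div_iff₀ (by positivity)]
      nlinarith [sq_nonneg (|lin a (S.erase i) y| - 2 * |a i|), sq_abs (lin a (S.erase i) y)]
  have h2 : ∑ y, max |lin a {i} y| |lin a (S.erase i) y|
      ≤ ∑ y : ι → Bool, (|a i| + (lin a (S.erase i) y) ^ 2 / (4 * |a i|)) :=
    Finset.sum_le_sum fun y _ => hpt y
  have hcard : ∑ y : ι → Bool, |a i| = 2 ^ Fintype.card ι * |a i| := by
    simp [Finset.card_univ]
  rw [Finset.sum_add_distrib, hcard, ← Finset.sum_div, sum_lin_sq] at h2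
  have hw : ∑ j ∈ S.erase i, (a j) ^ 2 = ∑ j ∈ S, (a j) ^ 2 - (a i) ^ 2 := by
    rw [← Finset.add_sum_erase S _ hi]; ring
  rw [hw] at h2
  rw [div_le_iff₀ hN]
  calc _ ≤ _ := h2
    _ = _ := by field_simp

/-- The two-block estimate. -/
lemma mean_abs_le_blocks (a : ι → ℝ) {S T : Finset ι} (h : Disjoint S T) {M : ℝ} (hM : 0 < M)
    (h1 : (∑ y, |lin a S y|) / 2 ^ Fintype.card ι ≤ M)
    (h2 : (∑ y, |lin a T y|) / 2 ^ Fintype.card ι ≤ M) :
    (∑ y, |lin a (S ∪ T) y|) / 2 ^ Fintype.card ι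
      ≤ 3 / 4 * M + (∑ j ∈ S ∪ T, (a j) ^ 2) / (4 * M) := by
  have hN : (0 : ℝ) < 2 ^ Fintype.card ι := by positivity
  set N : ℝ := 2 ^ Fintype.card ι with hNdef
  rw [sum_abs_lin_union a h]
  set X := lin a S with hX
  set Y := lin a T with hY
  have hpt : ∀ y, max |X y| |Y y|
      ≤ (|X y| + |Y y|) / 2 + ((X y) ^ 2 + (Y y) ^ 2 - 2 * (|X y| * |Y y|)) / (4 * M) + M / 4 := by
    intro y
    set u := |X y| with hu
    set v := |Y y| with hv
    have hu2 : (X y) ^ 2 = u ^ 2 := (sq_abs _).symm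
    have hv2 : (Y y) ^ 2 = v ^ 2 := (sq_abs _).symm
    rw [hu2, hv2]
    have e : (u ^ 2 + v ^ 2 - 2 * (u * v)) / (4 * M) = (u - v) ^ 2 / (4 * M) := by
      congr 1; ring
    rw [e]
    have h3 : |u - v| / 2 ≤ (u - v) ^ 2 / (4 * M) + M / 4 := by
      have : (u - v) ^ 2 / (4 * M) + M / 4 - |u - v| / 2 = (|u - v| - M) ^ 2 / (4 * M) := by
        field_simp
        rw [← sq_abs (u - v)]
        ring
      have h4 : 0 ≤ (|u - v| - M) ^ 2 / (4 * M) := by positivity
      linarith
    have h5 : max u v = (u + v) / 2 + |u - v| / 2 := by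
      rcases le_total u v with huv | huv
      · rw [max_eq_right huv, abs_of_nonpos (by linarith)]; ring
      · rw [max_eq_left huv, abs_of_nonneg (by linarith)]; ring
    rw [h5]
    linarith
  have h3 : ∑ y, max |X y| |Y y| ≤ ∑ y, ((|X y| + |Y y|) / 2
      + ((X y) ^ 2 + (Y y) ^ 2 - 2 * (|X y| * |Y y|)) / (4 * M) + M / 4) :=
    Finset.sum_le_sum fun y _ => hpt y
  have hind : ∑ y, |X y| * |Y y| = (∑ y, |X y|) * (∑ y, |Y y|) / N :=
    sum_mul_of_depOn (depOn_abs_lin a S) (depOn_abs_lin a T) h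
  set m₁ := (∑ y, |X y|) / N with hm₁
  set m₂ := (∑ y, |Y y|) / N with hm₂
  have hm₁0 : 0 ≤ m₁ := div_nonneg (Finset.sum_nonneg fun y _ => abs_nonneg _) hN.le
  have hm₂0 : 0 ≤ m₂ := div_nonneg (Finset.sum_nonneg fun y _ => abs_nonneg _) hN.le
  have hsX : ∑ y, |X y| = N * m₁ := by rw [hm₁]; field_simp
  have hsY : ∑ y, |Y y| = N * m₂ := by rw [hm₂]; field_simp
  have hsum : ∑ y, ((|X y| + |Y y|) / 2 + ((X y) ^ 2 + (Y y) ^ 2 - 2 * (|X y| * |Y y|)) / (4 * M) + M / 4)
      = N * ((m₁ + m₂) / 2 + ((∑ j ∈ S, (a j) ^ 2) + (∑ j ∈ T, (a j) ^ 2) - 2 * (m₁ * m₂)) / (4 * M)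
        + M / 4) := by
    have e1 : ∑ y : ι → Bool, M / 4 = N * (M / 4) := by
      simp [Finset.card_univ, hNdef]
    rw [Finset.sum_add_distrib, Finset.sum_add_distrib, e1, ← Finset.sum_div, ← Finset.sum_div,
      Finset.sum_add_distrib, Finset.sum_sub_distrib, Finset.sum_add_distrib, hX, hY,
      sum_lin_sq, sum_lin_sq, ← hNdef, ← hX, ← hY, ← Finset.mul_sum, hind, hsX, hsY]
    field_simp
  rw [hsum] at h3
  have h4 : (m₁ + m₂) / 2 - m₁ * m₂ / (2 * M) ≤ M / 2 := by
    have h5 : 0 ≤ (M - m₁) * (M - m₂) := mul_nonneg (by linarith) (by linarith)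
    have : M / 2 - ((m₁ + m₂) / 2 - m₁ * m₂ / (2 * M)) = (M - m₁) * (M - m₂) / (2 * M) := by
      field_simp
      ring
    have h6 : 0 ≤ (M - m₁) * (M - m₂) / (2 * M) := by positivity
    linarith
  rw [Finset.sum_union h, div_le_iff₀ hN]
  calc _ ≤ _ := h3
    _ ≤ _ := by
      rw [mul_comm]
      apply mul_le_mul_of_nonneg_right _ hN.le
      have e2 : ((∑ j ∈ S, (a j) ^ 2) + (∑ j ∈ T, (a j) ^ 2) - 2 * (m₁ * m₂)) / (4 * M)
          = ((∑ j ∈ S, (a j) ^ 2) + (∑ j ∈ T, (a j) ^ 2)) / (4 * M) - m₁ * m₂ / (2 * M) := by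
        field_simp
        ring
      rw [e2]
      linarith

/-- Greedy partition. -/
lemma exists_subset_between (w : ι → ℝ) {b : ℝ} (hb : 0 ≤ b) (T : Finset ι)
    (hw : ∀ j ∈ T, 0 ≤ w j ∧ w j ≤ b) {c : ℝ} (hc0 : 0 ≤ c) (hc : c ≤ ∑ j ∈ T, w j) :
    ∃ S, S ⊆ T ∧ c ≤ ∑ j ∈ S, w j ∧ ∑ j ∈ S, w j ≤ c + b := by
  induction T using Finset.induction_on with
  | empty =>
    refine ⟨∅, Finset.Subset.refl _, ?_, ?_⟩
    · simpa using hc
    · simp; linarith
  | insert j T' hj ih =>
    by_cases hcase : c ≤ ∑ k ∈ T', w k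
    · obtain ⟨S, hS, h1, h2⟩ := ih (fun k hk => hw k (Finset.mem_insert_of_mem hk)) hcase
      exact ⟨S, hS.trans (Finset.subset_insert _ _), h1, h2⟩
    · refine ⟨insert j T', Finset.Subset.refl _, hc, ?_⟩
      rw [Finset.sum_insert hj]
      have := (hw j (Finset.mem_insert_self _ _)).2
      linarith

/-- The level-one weight. -/
noncomputable def lev1 (F : (ι → Bool) → ℝ) : ℝ := ∑ j : ι, (hat F {j}) ^ 2

/-- Level-one weight is at most the mean absolute value of the level-one part. -/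
lemma lev1_le_mean_abs {F : (ι → Bool) → ℝ} (hF : ∀ x, F x = 1 ∨ F x = -1) :
    lev1 F ≤ (∑ y, |lin (fun j => hat F {j}) Finset.univ y|) / 2 ^ Fintype.card ι := by
  have hN : (0 : ℝ) < 2 ^ Fintype.card ι := by positivity
  set a : ι → ℝ := fun j => hat F {j} with ha
  have h1 : lev1 F * 2 ^ Fintype.card ι = ∑ y, F y * lin a Finset.univ y := by
    unfold lev1 lin
    have e : ∀ y : ι → Bool, F y * ∑ j, a j * sg (y j) = ∑ j, a j * (F y * sg (y j)) := by
      intro y
      rw [Finset.mul_sum]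
      apply Finset.sum_congr rfl; intro j _; ring
    simp_rw [e]
    rw [Finset.sum_comm, Finset.sum_mul]
    apply Finset.sum_congr rfl
    intro j _
    rw [← Finset.mul_sum]
    have : ∑ y, F y * sg (y j) = hat F {j} * 2 ^ Fintype.card ι := by
      unfold hat
      simp only [chi_single]
      field_simp
    rw [this, ha]
    ring
  rw [le_div_iff₀ hN, h1]
  apply Finset.sum_le_sum
  intro y _
  have : |F y| = 1 := by
    rcases hF y with h | h <;> simp [h]
  calc F y * lin a Finset.univ y ≤ |F y * lin a Finset.univ y| := le_abs_self _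
    _ = |lin a Finset.univ y| := by rw [abs_mul, this, one_mul]

/-- Parseval for `± 1`-valued functions. -/
lemma sum_hat_sq {F : (ι → Bool) → ℝ} (hF : ∀ x, F x = 1 ∨ F x = -1) :
    ∑ S, (hat F S) ^ 2 = 1 := by
  have hN : (2 : ℝ) ^ Fintype.card ι ≠ 0 := two_pow_ne
  have h := parseval F F
  have h1 : ∑ x, F x * F x = 2 ^ Fintype.card ι := by
    have : ∀ x, F x * F x = 1 := by
      intro x
      rcases hF x with h | h <;> simp [h]
    simp [this, Finset.card_univ]
  rw [h1] at h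
  have h2 : ∑ S, hat F S * hat F S = 1 := by
    have h3 : (2 : ℝ) ^ Fintype.card ι * ∑ S, hat F S * hat F S = 2 ^ Fintype.card ι * 1 := by
      rw [← h, mul_one]
    exact mul_left_cancel₀ hN h3
  simpa [sq] using h2

lemma lev1_le_one {F : (ι → Bool) → ℝ} (hF : ∀ x, F x = 1 ∨ F x = -1) : lev1 F ≤ 1 := by
  rw [← sum_hat_sq hF]
  unfold lev1
  have h : ∑ j : ι, (hat F {j}) ^ 2 = ∑ S ∈ Finset.univ.image (fun j : ι => ({j} : Finset ι)), (hat F S) ^ 2 := by
    rw [Finset.sum_image]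
    intro a _ b _ hab
    exact Finset.singleton_inj.mp hab
  rw [h]
  exact Finset.sum_le_sum_of_subset_of_nonneg (Finset.subset_univ _) fun _ _ _ => sq_nonneg _

lemma lev1_nonneg (F : (ι → Bool) → ℝ) : 0 ≤ lev1 F := by
  unfold lev1
  exact Finset.sum_nonneg fun _ _ => sq_nonneg _

/-- The one-coordinate bound on the level-one weight. -/
theorem lev1_pair {F : (ι → Bool) → ℝ} (hF : ∀ x, F x = 1 ∨ F x = -1) {i : ι}
    (hpos : 0 < |hat F {i}|) :
    lev1 F * (4 * |hat F {i}| - 1) ≤ 3 * |hat F {i}| ^ 2 := by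
  set A := |hat F {i}| with hA
  have h1 := lev1_le_mean_abs hF
  have h2 := mean_abs_le_pair (fun j => hat F {j}) (Finset.mem_univ i) hpos
  have h3 : ∑ j, (hat F {j}) ^ 2 = lev1 F := rfl
  rw [h3, ← hA] at h2
  have h4 : (hat F {i}) ^ 2 = A ^ 2 := by rw [hA, sq_abs]
  rw [h4] at h2
  have h5 := h1.trans h2
  have h6 : lev1 F * (4 * A) ≤ A * (4 * A) + (lev1 F - A ^ 2) := by
    have := mul_le_mul_of_nonneg_right h5 (by positivity : (0:ℝ) ≤ 4 * A)
    have e : (A + (lev1 F - A ^ 2) / (4 * A)) * (4 * A) = A * (4 * A) + (lev1 F - A ^ 2) := by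
      field_simp
    rwa [e] at this
  nlinarith

/-- A `± 1`-valued function whose coefficients are all at most `2/3` has level-one weight at most
`4/5`. -/
theorem lev1_le_four_fifths {F : (ι → Bool) → ℝ} (hF : ∀ x, F x = 1 ∨ F x = -1) {i : ι}
    (hmax : ∀ j, |hat F {j}| ≤ |hat F {i}|) (hi : |hat F {i}| ≤ 2 / 3) :
    lev1 F ≤ 4 / 5 := by
  set A := |hat F {i}| with hA
  by_contra hcon
  have hW : 4 / 5 < lev1 F := lt_of_not_ge hcon
  set W := lev1 F with hWdef
  have hW1 : W ≤ 1 := lev1_le_one hF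
  have hA0 : 0 ≤ A := abs_nonneg _
  by_cases hbig : 2 / 5 ≤ A
  · have h := lev1_pair hF (i := i) (by rw [← hA]; linarith)
    rw [← hA, ← hWdef] at h
    have h1 : 0 < 4 * A - 1 := by linarith
    have h2 : 4 / 5 * (4 * A - 1) < W * (4 * A - 1) := mul_lt_mul_of_pos_right hW h1
    nlinarith
  · have hsmall : A < 2 / 5 := lt_of_not_ge hbig
    set a : ι → ℝ := fun j => hat F {j} with ha
    have hwj : ∀ j ∈ (Finset.univ : Finset ι), 0 ≤ (a j) ^ 2 ∧ (a j) ^ 2 ≤ A ^ 2 := by
      intro j _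
      refine ⟨sq_nonneg _, ?_⟩
      rw [← sq_abs (a j)]
      exact pow_le_pow_left₀ (abs_nonneg _) (hmax j) 2
    set M := (26 + 30 * W) / 75 with hM
    have hMpos : 0 < M := by rw [hM]; positivity
    have hWtot : ∑ j, (a j) ^ 2 = W := rfl
    have hfinal : ∃ S : Finset ι, (∑ y, |lin a S y|) / 2 ^ Fintype.card ι ≤ M ∧
        (∑ y, |lin a Sᶜ y|) / 2 ^ Fintype.card ι ≤ M := by
      by_cases hA29 : A ≤ 29 / 100
      · -- a balanced partition
        have hc0 : 0 ≤ W / 2 - A ^ 2 / 2 := by nlinarith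
        have hc1 : W / 2 - A ^ 2 / 2 ≤ ∑ j, (a j) ^ 2 := by
          rw [hWtot]; nlinarith [sq_nonneg A]
        obtain ⟨S, _, h1, h2⟩ := exists_subset_between (fun j => (a j) ^ 2) (sq_nonneg A)
          Finset.univ hwj hc0 hc1
        have hS : ∑ j ∈ S, (a j) ^ 2 + ∑ j ∈ Sᶜ, (a j) ^ 2 = W := by
          rw [Finset.sum_add_sum_compl]
          exact hWtot
        have hA2 : A ^ 2 ≤ (29 / 100) ^ 2 := pow_le_pow_left₀ hA0 hA29 2
        have hM2 : W / 2 + (29 / 100) ^ 2 / 2 ≤ M ^ 2 := by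
          rw [hM]; nlinarith
        refine ⟨S, mean_abs_le a S hMpos.le ?_, mean_abs_le a Sᶜ hMpos.le ?_⟩
        · linarith
        · linarith
      · -- the largest coordinate in the heavier block
        have hA29' : 29 / 100 < A := lt_of_not_ge hA29
        have hc0 : 0 ≤ W / 2 - A ^ 2 := by nlinarith
        have hw' : ∀ j ∈ (Finset.univ : Finset ι).erase i, 0 ≤ (a j) ^ 2 ∧ (a j) ^ 2 ≤ A ^ 2 :=
          fun j hj => hwj j (Finset.mem_of_mem_erase hj)
        have hai : (a i) ^ 2 = A ^ 2 := by rw [hA, sq_abs]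
        have herase : ∑ j ∈ (Finset.univ : Finset ι).erase i, (a j) ^ 2 = W - A ^ 2 := by
          rw [← hai, ← hWtot, ← Finset.add_sum_erase Finset.univ _ (Finset.mem_univ i)]
          ring
        have hc1 : W / 2 - A ^ 2 ≤ ∑ j ∈ (Finset.univ : Finset ι).erase i, (a j) ^ 2 := by
          rw [herase]; nlinarith
        obtain ⟨S', hS', h1, h2⟩ := exists_subset_between (fun j => (a j) ^ 2) (sq_nonneg A)
          ((Finset.univ : Finset ι).erase i) hw' hc0 hc1
        have hiS' : i ∉ S' := fun h => (Finset.mem_erase.mp (hS' h)).1 rfl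
        set S := insert i S' with hS
        have hiS : i ∈ S := Finset.mem_insert_self _ _
        have hsumS : ∑ j ∈ S, (a j) ^ 2 = A ^ 2 + ∑ j ∈ S', (a j) ^ 2 := by
          rw [hS, Finset.sum_insert hiS', hai]
        have hcompl : ∑ j ∈ S, (a j) ^ 2 + ∑ j ∈ Sᶜ, (a j) ^ 2 = W := by
          rw [Finset.sum_add_sum_compl]
          exact hWtot
        have hApos : 0 < |a i| := by
          have : |a i| = A := rfl
          rw [this]; linarith
        refine ⟨S, ?_, mean_abs_le a Sᶜ hMpos.le ?_⟩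
        · refine (mean_abs_le_pair a hiS hApos).trans ?_
          have hAe : |a i| = A := rfl
          rw [hAe, hai, hsumS]
          have hApos' : 0 < A := by linarith
          have h3 : (A ^ 2 + ∑ j ∈ S', (a j) ^ 2 - A ^ 2) / (4 * A) ≤ (W / 2) / (4 * A) := by
            apply div_le_div_of_nonneg_right _ (by positivity)
            linarith
          have h4 : A + (W / 2) / (4 * A) ≤ M := by
            have e : (W / 2) / (4 * A) = W / (8 * A) := by field_simp; ring
            rw [e, ← le_sub_iff_add_le', div_le_iff₀ (by positivity), hM]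
            nlinarith [mul_nonneg (sub_nonneg.mpr hA29'.le) (sub_nonneg.mpr hsmall.le),
              mul_nonneg (sub_nonneg.mpr hA29'.le) (sub_nonneg.mpr hW.le),
              mul_nonneg (sub_nonneg.mpr hsmall.le) (sub_nonneg.mpr hW.le),
              mul_nonneg (sub_nonneg.mpr hA29'.le) (sub_nonneg.mpr hW1),
              mul_nonneg (sub_nonneg.mpr hsmall.le) (sub_nonneg.mpr hW1)]
          linarith
        · have h5 : ∑ j ∈ Sᶜ, (a j) ^ 2 ≤ W / 2 := by
            rw [hsumS] at hcompl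
            linarith
          have hM2 : W / 2 ≤ M ^ 2 := by rw [hM]; nlinarith
          linarith
    obtain ⟨S, h1, h2⟩ := hfinal
    have hblocks := mean_abs_le_blocks a (disjoint_compl_right : Disjoint S Sᶜ) hMpos h1 h2
    rw [Finset.union_compl] at hblocks
    have h3 := lev1_le_mean_abs hF
    have h4 := h3.trans hblocks
    rw [hWtot, ← hWdef] at h4
    have h5 : W * (4 * M) ≤ 3 * M ^ 2 + W := by
      have := mul_le_mul_of_nonneg_right h4 (by positivity : (0:ℝ) ≤ 4 * M)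
      have e : (3 / 4 * M + W / (4 * M)) * (4 * M) = 3 * M ^ 2 + W := by
        field_simp
      rwa [e] at this
    rw [hM] at h5
    nlinarith

end Vale.Agent.Lib.P322
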