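import Vale.Agent.Lib.P322.Check
import Vale.Agent.Lib.P322.Link

/-! The case of moderate level-one weight: parabola certificates on the Fourier side, with a
computable check of the numerical hypotheses. -/

set_option linter.unusedVariables false
set_option linter.unusedSectionVars false

namespace Vale.Agent.Lib.P322

open Finset Vale.Agent.Lib.P311

variable {n : ℕ}

lemma sum_card_one {ι : Type*} [Fintype ι] [DecidableEq ι] (h : Finset ι → ℝ) :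
    ∑ S : Finset ι, (if S.card = 1 then h S else 0) = ∑ j : ι, h {j} := by
  rw [← Finset.sum_filter]
  have e : (Finset.univ.filter fun S : Finset ι => S.card = 1)
      = Finset.univ.image (fun j : ι => ({j} : Finset ι)) := by
    ext S
    simp only [Finset.mem_filter, Finset.mem_univ, true_and, Finset.mem_image]
    constructor
    · intro hS
      obtain ⟨a, rfl⟩ := Finset.card_eq_one.mp hS
      exact ⟨a, rfl⟩
    · rintro ⟨a, rfl⟩
      simp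
  rw [e, Finset.sum_image]
  intro a _ b _ hab
  exact Finset.singleton_inj.mp hab

/-- Level-one weight is at most one minus the mean. -/
lemma lev1_le_one_sub {ι : Type*} [Fintype ι] [DecidableEq ι] {F : (ι → Bool) → ℝ}
    (hF : ∀ x, F x = 1 ∨ F x = -1) : lev1 F ≤ 1 - hat F ∅ := by
  refine le_trans ?_ (odd_weight_le hF)
  unfold lev1
  rw [← sum_card_one (fun S => (hat F S) ^ 2)]
  apply Finset.sum_le_sum
  intro S _
  by_cases h1 : S.card = 1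
  · simp [h1]
  · rw [if_neg h1]
    split_ifs
    · exact sq_nonneg _
    · exact le_rfl

/-- The quadratic `g` on the levels. -/
lemma level_g_le {a e G v V : ℝ} (he : 0 ≤ e) (hG0 : 0 ≤ G) (hG : a * V + e * V ^ 2 ≤ G) (hv0 : 0 ≤ v)
    (hv : v ≤ V) : a * v + e * v ^ 2 ≤ G := by
  by_cases h : a + e * v ≤ 0
  · have : a * v + e * v ^ 2 = v * (a + e * v) := by ring
    rw [this]
    exact (mul_nonpos_of_nonneg_of_nonpos hv0 h).trans hG0
  · have h' : 0 < a + e * v := lt_of_not_ge h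
    have h1 : a * v + e * v ^ 2 = v * (a + e * v) := by ring
    have h2 : a * V + e * V ^ 2 = V * (a + e * V) := by ring
    have h3 : a + e * v ≤ a + e * V := by
      have := mul_le_mul_of_nonneg_left hv he
      linarith
    have h4 : v * (a + e * v) ≤ V * (a + e * V) :=
      mul_le_mul hv h3 h'.le (hv0.trans hv)
    rw [h1]
    linarith

/-- The Fourier-side bound given two parabola majorants. -/
theorem far_bound {F : (Fin n → Bool) → ℝ} (hF : ∀ x, F x = 1 ∨ F x = -1)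
    {ρ cP dP cM dM e G : ℝ} (hρ0 : 0 ≤ ρ) (hρ1 : ρ ≤ 1) (he : 0 ≤ e)
    (hP : ∀ t, |t| ≤ 1 → Psi t ≤ cP + dP * t + e * t ^ 2)
    (hM : ∀ t, |t| ≤ 1 → Psi t ≤ cM + dM * t + e * t ^ 2)
    (hG0 : 0 ≤ G) (hG : (dP - dM) / 2 * ρ ^ 2 + e * (ρ ^ 2) ^ 2 ≤ G) :
    (∑ y, Psi (noise ρ F y)) / 2 ^ n ≤ (cP + cM) / 2 + ((cP - cM) / 2 + (dP + dM) / 2) * hat F ∅
      + ((dP - dM) / 2 + e - G) * (hat F ∅) ^ 2
      + ((dP - dM) / 2 * ρ + e * ρ ^ 2 - G) * lev1 F + G := by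
  set μ := hat F ∅ with hμ
  set a := (dP - dM) / 2 with ha
  have hN : (0 : ℝ) < 2 ^ n := by positivity
  have hρabs : |ρ| ≤ 1 := by rw [abs_of_nonneg hρ0]; exact hρ1
  have hFabs : ∀ x, |F x| ≤ 1 := fun x => by
    rcases hF x with h | h <;> simp [h]
  have hpt : ∀ y, Psi (noise ρ F y) ≤ (cP + cM) / 2 + (cP - cM) / 2 * F y
      + (dP + dM) / 2 * noise ρ F y + a * (F y * noise ρ F y)
      + e * (noise ρ F y * noise ρ F y) := by
    intro y
    have ht := abs_noise_le hρabs hFabs y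
    rcases hF y with h | h
    · have := hP _ ht
      rw [h, ha]
      nlinarith
    · have := hM _ ht
      rw [h, ha]
      nlinarith
  have hsum : ∑ y, Psi (noise ρ F y) ≤ ∑ y, ((cP + cM) / 2 + (cP - cM) / 2 * F y
      + (dP + dM) / 2 * noise ρ F y + a * (F y * noise ρ F y)
      + e * (noise ρ F y * noise ρ F y)) :=
    Finset.sum_le_sum fun y _ => hpt y
  have hexp : ∑ y, ((cP + cM) / 2 + (cP - cM) / 2 * F y
      + (dP + dM) / 2 * noise ρ F y + a * (F y * noise ρ F y)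
      + e * (noise ρ F y * noise ρ F y))
      = 2 ^ n * ((cP + cM) / 2 + (cP - cM) / 2 * μ + (dP + dM) / 2 * μ
        + ∑ S, (a * ρ ^ S.card + e * (ρ ^ S.card) ^ 2) * hat F S ^ 2) := by
    simp only [Finset.sum_add_distrib, ← Finset.mul_sum]
    rw [sum_F_mul_noise, sum_noise_mul_noise, sum_noise, sum_eq_hat_empty F]
    simp only [Finset.sum_const, Finset.card_univ, Fintype.card_fun, Fintype.card_bool,
      Fintype.card_fin, nsmul_eq_mul]
    push_cast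
    have : ∑ S : Finset (Fin n), (a * ρ ^ S.card + e * (ρ ^ S.card) ^ 2) * hat F S ^ 2
        = a * ∑ S : Finset (Fin n), ρ ^ S.card * hat F S ^ 2
          + e * ∑ S : Finset (Fin n), (ρ ^ S.card) ^ 2 * hat F S ^ 2 := by
      rw [Finset.mul_sum, Finset.mul_sum, ← Finset.sum_add_distrib]
      apply Finset.sum_congr rfl; intro S _; ring
    rw [this]
    ring
  have hterm : ∀ S : Finset (Fin n), (a * ρ ^ S.card + e * (ρ ^ S.card) ^ 2) * hat F S ^ 2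
      ≤ (if S = ∅ then (a + e - G) * μ ^ 2 else 0)
        + (if S.card = 1 then (a * ρ + e * ρ ^ 2 - G) * hat F S ^ 2 else 0)
        + G * hat F S ^ 2 := by
    intro S
    by_cases h0 : S = ∅
    · subst h0
      simp only [Finset.card_empty, pow_zero, if_true, zero_ne_one, if_false, add_zero, hμ]
      apply le_of_eq; ring
    · rw [if_neg h0, zero_add]
      by_cases h1 : S.card = 1
      · rw [if_pos h1, h1, pow_one]
        apply le_of_eq; ring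
      · rw [if_neg h1, zero_add]
        have hk : 2 ≤ S.card := by
          have : S.card ≠ 0 := by
            rw [Finset.card_ne_zero]; exact Finset.nonempty_iff_ne_empty.mpr h0
          omega
        have hv : ρ ^ S.card ≤ ρ ^ 2 := pow_le_pow_of_le_one hρ0 hρ1 hk
        have := level_g_le he hG0 hG (pow_nonneg hρ0 _) hv
        exact mul_le_mul_of_nonneg_right this (sq_nonneg _)
  have hfour : ∑ S : Finset (Fin n), (a * ρ ^ S.card + e * (ρ ^ S.card) ^ 2) * hat F S ^ 2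
      ≤ (a + e - G) * μ ^ 2 + (a * ρ + e * ρ ^ 2 - G) * lev1 F + G := by
    calc _ ≤ ∑ S : Finset (Fin n), ((if S = ∅ then (a + e - G) * μ ^ 2 else 0)
        + (if S.card = 1 then (a * ρ + e * ρ ^ 2 - G) * hat F S ^ 2 else 0)
        + G * hat F S ^ 2) := Finset.sum_le_sum fun S _ => hterm S
      _ = _ := by
        rw [Finset.sum_add_distrib, Finset.sum_add_distrib, Finset.sum_ite_eq' Finset.univ ∅,
          sum_card_one, ← Finset.mul_sum (a := G), sum_hat_sq hF]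
        simp only [Finset.mem_univ, if_true, lev1, Finset.mul_sum, mul_one]
  rw [div_le_iff₀ hN]
  calc ∑ y, Psi (noise ρ F y) ≤ _ := hsum
    _ = _ := hexp
    _ ≤ 2 ^ n * ((cP + cM) / 2 + (cP - cM) / 2 * μ + (dP + dM) / 2 * μ
        + ((a + e - G) * μ ^ 2 + (a * ρ + e * ρ ^ 2 - G) * lev1 F + G)) := by
        apply mul_le_mul_of_nonneg_left _ hN.le
        linarith
    _ = _ := by ring

/-- The tangent line of `Psi`. -/
lemma Psi_tangent {x x₀ : ℝ} (hx : |x| ≤ 1) (hx₀ : |x₀| < 1) :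
    Psi x₀ + psi x₀ * (x - x₀) ≤ Psi x := by
  have hx1 := abs_le.mp hx
  have hx2 := abs_lt.mp hx₀
  have key : ∀ A B : ℝ, 0 ≤ A → 0 < B → A - B ≤ A * Real.log A - A * Real.log B := by
    intro A B hA hB
    rcases eq_or_lt_of_le hA with rfl | hA'
    · simp; linarith
    · have h := Real.one_sub_inv_le_log_of_pos (div_pos hA' hB)
      rw [Real.log_div hA'.ne' hB.ne', inv_div] at h
      have h2 := mul_le_mul_of_nonneg_left h hA
      have e1 : A * (1 - B / A) = A - B := by field_simp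
      rw [e1] at h2
      linarith
  have h1 := key (1 + x) (1 + x₀) (by linarith) (by linarith)
  have h2 := key (1 - x) (1 - x₀) (by linarith) (by linarith)
  unfold Psi psi
  nlinarith

/-- The corner principle for a far cell. -/
lemma far_corners {ρ μ W₁ r₁ r₂ m₁ m₂ K₀ K₁ a e G A B Pr Sr xr Pm Sm xm Tρ Tμ : ℝ}
    (hr : r₁ < r₂) (hρ1 : r₁ ≤ ρ) (hρ2 : ρ ≤ r₂) (hm : m₁ < m₂) (hμ1 : m₁ ≤ μ) (hμ2 : μ ≤ m₂)
    (he : 0 ≤ e) (hθ : 0 ≤ a + e - G) (hW0 : 0 ≤ W₁) (hW : W₁ ≤ A - B * μ)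
    (hWm1 : 0 ≤ A - B * m₁) (hWm2 : 0 ≤ A - B * m₂)
    (hLr : Pr + Sr * (ρ - xr) ≤ Tρ) (hLm : Pm + Sm * (μ - xm) ≤ Tμ)
    (h11 : K₀ + K₁ * m₁ + (a + e - G) * m₁ ^ 2 + max 0 (a * r₁ + e * r₁ ^ 2 - G) * (A - B * m₁) + G
      ≤ Pr + Sr * (r₁ - xr) + (Pm + Sm * (m₁ - xm)))
    (h12 : K₀ + K₁ * m₂ + (a + e - G) * m₂ ^ 2 + max 0 (a * r₁ + e * r₁ ^ 2 - G) * (A - B * m₂) + G
      ≤ Pr + Sr * (r₁ - xr) + (Pm + Sm * (m₂ - xm)))
    (h21 : K₀ + K₁ * m₁ + (a + e - G) * m₁ ^ 2 + max 0 (a * r₂ + e * r₂ ^ 2 - G) * (A - B * m₁) + G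
      ≤ Pr + Sr * (r₂ - xr) + (Pm + Sm * (m₁ - xm)))
    (h22 : K₀ + K₁ * m₂ + (a + e - G) * m₂ ^ 2 + max 0 (a * r₂ + e * r₂ ^ 2 - G) * (A - B * m₂) + G
      ≤ Pr + Sr * (r₂ - xr) + (Pm + Sm * (m₂ - xm)))  :
    K₀ + K₁ * μ + (a + e - G) * μ ^ 2 + (a * ρ + e * ρ ^ 2 - G) * W₁ + G ≤ Tρ + Tμ := by
  have hrw : 0 < r₂ - r₁ := by linarith
  have hmw : 0 < m₂ - m₁ := by linarith
  set l := (r₂ - ρ) / (r₂ - r₁) with hl
  set q := (m₂ - μ) / (m₂ - m₁) with hq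
  have hl0 : 0 ≤ l := div_nonneg (by linarith) hrw.le
  have hl1 : l ≤ 1 := by rw [hl, div_le_one hrw]; linarith
  have hq0 : 0 ≤ q := div_nonneg (by linarith) hmw.le
  have hq1 : q ≤ 1 := by rw [hq, div_le_one hmw]; linarith
  have hρe : ρ = l * r₁ + (1 - l) * r₂ := by rw [hl]; field_simp; ring
  have hμe : μ = q * m₁ + (1 - q) * m₂ := by rw [hq]; field_simp; ring
  set X₁ := max 0 (a * r₁ + e * r₁ ^ 2 - G) with hX₁
  set X₂ := max 0 (a * r₂ + e * r₂ ^ 2 - G) with hX₂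
  have hX₁0 : 0 ≤ X₁ := le_max_left _ _
  have hX₂0 : 0 ≤ X₂ := le_max_left _ _
  have hX₁1 : a * r₁ + e * r₁ ^ 2 - G ≤ X₁ := le_max_right _ _
  have hX₂1 : a * r₂ + e * r₂ ^ 2 - G ≤ X₂ := le_max_right _ _
  -- convexity in the noise parameter
  have hg : a * ρ + e * ρ ^ 2 - G ≤ l * X₁ + (1 - l) * X₂ := by
    have h1 : a * ρ + e * ρ ^ 2 - G
        = l * (a * r₁ + e * r₁ ^ 2 - G) + (1 - l) * (a * r₂ + e * r₂ ^ 2 - G)
          - e * (l * (1 - l) * (r₁ - r₂) ^ 2) := by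
      rw [hρe]; ring
    have h2 : 0 ≤ e * (l * (1 - l) * (r₁ - r₂) ^ 2) := by
      have : 0 ≤ 1 - l := by linarith
      positivity
    have h3 := mul_le_mul_of_nonneg_left hX₁1 hl0
    have h4 := mul_le_mul_of_nonneg_left hX₂1 (by linarith : 0 ≤ 1 - l)
    linarith
  have hXnn : 0 ≤ l * X₁ + (1 - l) * X₂ :=
    add_nonneg (mul_nonneg hl0 hX₁0) (mul_nonneg (by linarith) hX₂0)
  have hWμ : A - B * μ = q * (A - B * m₁) + (1 - q) * (A - B * m₂) := by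
    rw [hμe]; ring
  have hWμ0 : 0 ≤ A - B * μ := hW0.trans hW
  have hprod : (a * ρ + e * ρ ^ 2 - G) * W₁ ≤ (l * X₁ + (1 - l) * X₂) * (A - B * μ) := by
    calc (a * ρ + e * ρ ^ 2 - G) * W₁ ≤ (l * X₁ + (1 - l) * X₂) * W₁ :=
          mul_le_mul_of_nonneg_right hg hW0
      _ ≤ _ := mul_le_mul_of_nonneg_left hW hXnn
  -- convexity of the square
  have hsq : (a + e - G) * μ ^ 2 ≤ (a + e - G) * (q * m₁ ^ 2 + (1 - q) * m₂ ^ 2) := by
    apply mul_le_mul_of_nonneg_left _ hθ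
    have h5 : q * m₁ ^ 2 + (1 - q) * m₂ ^ 2 - μ ^ 2 = q * (1 - q) * (m₁ - m₂) ^ 2 := by
      rw [hμe]; ring
    have h6 : 0 ≤ q * (1 - q) * (m₁ - m₂) ^ 2 := by
      have : 0 ≤ 1 - q := by linarith
      positivity
    linarith
  -- the convex combination of the four corners
  have w11 : 0 ≤ l * q := mul_nonneg hl0 hq0
  have w12 : 0 ≤ l * (1 - q) := mul_nonneg hl0 (by linarith)
  have w21 : 0 ≤ (1 - l) * q := mul_nonneg (by linarith) hq0
  have w22 : 0 ≤ (1 - l) * (1 - q) := mul_nonneg (by linarith) (by linarith)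
  have c11 := mul_le_mul_of_nonneg_left h11 w11
  have c12 := mul_le_mul_of_nonneg_left h12 w12
  have c21 := mul_le_mul_of_nonneg_left h21 w21
  have c22 := mul_le_mul_of_nonneg_left h22 w22
  have hrhs : l * q * (Pr + Sr * (r₁ - xr) + (Pm + Sm * (m₁ - xm)))
      + l * (1 - q) * (Pr + Sr * (r₁ - xr) + (Pm + Sm * (m₂ - xm)))
      + (1 - l) * q * (Pr + Sr * (r₂ - xr) + (Pm + Sm * (m₁ - xm)))
      + (1 - l) * (1 - q) * (Pr + Sr * (r₂ - xr) + (Pm + Sm * (m₂ - xm)))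
      = Pr + Sr * (ρ - xr) + (Pm + Sm * (μ - xm)) := by
    rw [hρe, hμe]; ring
  have hlhs : l * q * (K₀ + K₁ * m₁ + (a + e - G) * m₁ ^ 2 + X₁ * (A - B * m₁) + G)
      + l * (1 - q) * (K₀ + K₁ * m₂ + (a + e - G) * m₂ ^ 2 + X₁ * (A - B * m₂) + G)
      + (1 - l) * q * (K₀ + K₁ * m₁ + (a + e - G) * m₁ ^ 2 + X₂ * (A - B * m₁) + G)
      + (1 - l) * (1 - q) * (K₀ + K₁ * m₂ + (a + e - G) * m₂ ^ 2 + X₂ * (A - B * m₂) + G)
      = K₀ + K₁ * μ + (a + e - G) * (q * m₁ ^ 2 + (1 - q) * m₂ ^ 2)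
        + (l * X₁ + (1 - l) * X₂) * (A - B * μ) + G := by
    rw [hWμ, hμe]; ring
  linarith

/-- A certified parabola: `Psi t ≤ c + d t + e t²` on `[-1, 1]`. -/
structure Parab where
  u : ℚ
  e : ℚ
  c : ℚ
  d : ℚ

/-- The numerical check for a certified parabola. -/
def Parab.ok (p : Parab) : Bool :=
  let cU := (logUB fuel (1 + p.u) + logUB fuel (1 - p.u)) / 2 + p.e * p.u ^ 2
  let dL := psiL p.u - 2 * p.e * p.u
  let dU := psiU p.u - 2 * p.e * p.u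
  decide (0 ≤ p.u) && decide (p.u < 1) && decide (0 ≤ p.e)
    && decide (log2U - logLB fuel (1 + p.u) ≤ p.e * (1 - p.u) ^ 2)
    && decide (cU + (p.d - dL) ≤ p.c) && decide (cU + (dU - p.d) ≤ p.c)

theorem Parab.sound {p : Parab} (h : p.ok = true) (t : ℝ) (ht : |t| ≤ 1) :
    Psi t ≤ (p.c : ℝ) + (p.d : ℝ) * t + (p.e : ℝ) * t ^ 2 := by
  simp only [Parab.ok, Bool.and_eq_true, decide_eq_true_eq] at h
  obtain ⟨⟨⟨⟨⟨hu0, hu1⟩, he⟩, hR⟩, hc1⟩, hc2⟩ := h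
  set u : ℝ := (p.u : ℝ) with hu
  set e : ℝ := (p.e : ℝ) with hedef
  have hu0' : 0 ≤ u := by rw [hu]; exact_mod_cast hu0
  have hu1' : u < 1 := by rw [hu]; exact_mod_cast hu1
  have he' : 0 ≤ e := by rw [hedef]; exact_mod_cast he
  have hlogp := logUB_sound fuel (1 + p.u) (by linarith)
  have hlogm := logUB_sound fuel (1 - p.u) (by linarith)
  have hpU := psiU_sound (t := p.u) (by linarith) hu1
  have hpL := psiL_sound (t := p.u) (by linarith) hu1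
  have hlowp := logLB_sound fuel (1 + p.u) (by linarith)
  have hR' := (Rat.cast_le (K := ℝ)).mpr hR
  have hc1' := (Rat.cast_le (K := ℝ)).mpr hc1
  have hc2' := (Rat.cast_le (K := ℝ)).mpr hc2
  have h2U := log2U_sound
  push_cast at hlogp hlogm hlowp hR' hc1' hc2'
  rw [← hu] at *
  rw [← hedef] at *
  have hbr := bregman_le (t := t) (u := u) (U := u) ht (by rw [abs_of_nonneg hu0']) hu1'
  have hpos : 0 < (1 - u) ^ 2 := by
    have : 0 < 1 - u := by linarith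
    positivity
  have hB : Psi t - Psi u - psi u * (t - u) ≤ e * (t - u) ^ 2 := by
    have h3 : (t - u) ^ 2 * (Real.log 2 - Real.log (1 + u)) ≤ (t - u) ^ 2 * (e * (1 - u) ^ 2) := by
      apply mul_le_mul_of_nonneg_left _ (sq_nonneg _)
      linarith
    have h4 : (1 - u) ^ 2 * (Psi t - Psi u - psi u * (t - u)) ≤ (1 - u) ^ 2 * (e * (t - u) ^ 2) := by
      have e1 : (1 - u) ^ 2 * (e * (t - u) ^ 2) = (t - u) ^ 2 * (e * (1 - u) ^ 2) := by ring
      rw [e1]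
      exact hbr.trans h3
    exact le_of_mul_le_mul_left h4 hpos
  have hCD : Psi u - psi u * u = (Real.log (1 + u) + Real.log (1 - u)) / 2 := by
    unfold Psi psi; ring
  set D := psi u - 2 * e * u with hD
  set C := (Real.log (1 + u) + Real.log (1 - u)) / 2 + e * u ^ 2 with hC
  have hmain : Psi t ≤ C + D * t + e * t ^ 2 := by
    rw [hC, hD, ← hCD]
    nlinarith
  have ht1 := abs_le.mp ht
  have hCU : C ≤ (logUB fuel (1 + p.u) + logUB fuel (1 - p.u) : ℚ) / 2 + e * u ^ 2 := by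
    rw [hC]
    push_cast
    linarith
  push_cast at hCU
  have hDL : (psiL p.u : ℝ) - 2 * e * u ≤ D := by rw [hD]; linarith
  have hDU : D ≤ (psiU p.u : ℝ) - 2 * e * u := by rw [hD]; linarith
  set d : ℝ := (p.d : ℝ) with hd
  set c : ℝ := (p.c : ℝ) with hc
  have hfin : C + D * t ≤ c + d * t := by
    have h5 : (D - d) * t ≤ c - C := by
      by_cases hs : d ≤ D
      · have : (D - d) * t ≤ (D - d) * 1 := mul_le_mul_of_nonneg_left ht1.2 (by linarith)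
        linarith
      · have hs' : D < d := lt_of_not_ge hs
        have : (D - d) * t ≤ (d - D) * 1 := by
          have h6 : (d - D) * (-t) ≤ (d - D) * 1 :=
            mul_le_mul_of_nonneg_left (by linarith) (by linarith)
          linarith
        linarith
    linarith
  linarith

theorem Parab.sound_neg {p : Parab} (h : p.ok = true) (t : ℝ) (ht : |t| ≤ 1) :
    Psi t ≤ (p.c : ℝ) + (-(p.d : ℝ)) * t + (p.e : ℝ) * t ^ 2 := by
  have := Parab.sound h (-t) (by rwa [abs_neg])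
  rw [Psi_neg] at this
  have e : (p.c : ℝ) + (p.d : ℝ) * -t + (p.e : ℝ) * (-t) ^ 2
      = (p.c : ℝ) + (-(p.d : ℝ)) * t + (p.e : ℝ) * t ^ 2 := by ring
  rwa [e] at this

/-- A certified affine lower bound of `Psi` on an interval. -/
structure LineD where
  x₀ : ℚ
  P : ℚ
  S : ℚ

/-- The numerical check for an affine lower bound. -/
def LineD.ok (L : LineD) (lo hi : ℚ) : Bool :=
  let w := max (hi - L.x₀) (L.x₀ - lo)
  let δ := max (L.S - psiL L.x₀) (psiU L.x₀ - L.S)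
  decide (-1 < L.x₀) && decide (L.x₀ < 1) && decide (-1 ≤ lo) && decide (hi ≤ 1)
    && decide (L.P + δ * w ≤ PsiL L.x₀)

theorem LineD.sound {L : LineD} {lo hi : ℚ} (h : L.ok lo hi = true) {x : ℝ} (h1 : (lo : ℝ) ≤ x)
    (h2 : x ≤ (hi : ℝ)) : (L.P : ℝ) + (L.S : ℝ) * (x - (L.x₀ : ℝ)) ≤ Psi x := by
  simp only [LineD.ok, Bool.and_eq_true, decide_eq_true_eq] at h
  obtain ⟨⟨⟨⟨hx1, hx2⟩, hlo⟩, hhi⟩, hP⟩ := h
  have hx1' : (-1 : ℝ) < (L.x₀ : ℝ) := by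
    have := (Rat.cast_lt (K := ℝ)).mpr hx1
    push_cast at this
    exact this
  have hx2' : (L.x₀ : ℝ) < 1 := by exact_mod_cast hx2
  have hlo' : (-1 : ℝ) ≤ (lo : ℝ) := by
    have := (Rat.cast_le (K := ℝ)).mpr hlo
    push_cast at this
    exact this
  have hhi' : (hi : ℝ) ≤ 1 := by exact_mod_cast hhi
  have habs : |x| ≤ 1 := by rw [abs_le]; constructor <;> linarith
  have habs₀ : |(L.x₀ : ℝ)| < 1 := by rw [abs_lt]; constructor <;> linarith
  have ht := Psi_tangent habs habs₀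
  have hPL := PsiL_sound (t := L.x₀) hx1.le hx2.le
  have hpU := psiU_sound hx1 hx2
  have hpL := psiL_sound hx1 hx2
  have hP' := (Rat.cast_le (K := ℝ)).mpr hP
  push_cast at hP'
  set w : ℝ := max ((hi : ℝ) - (L.x₀ : ℝ)) ((L.x₀ : ℝ) - (lo : ℝ)) with hw
  set δ : ℝ := max ((L.S : ℝ) - (psiL L.x₀ : ℝ)) ((psiU L.x₀ : ℝ) - (L.S : ℝ)) with hδ
  have hw1 : (hi : ℝ) - (L.x₀ : ℝ) ≤ w := le_max_left _ _
  have hw2 : (L.x₀ : ℝ) - (lo : ℝ) ≤ w := le_max_right _ _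
  have hδ1 : (L.S : ℝ) - (psiL L.x₀ : ℝ) ≤ δ := le_max_left _ _
  have hδ2 : (psiU L.x₀ : ℝ) - (L.S : ℝ) ≤ δ := le_max_right _ _
  have hyabs : |x - (L.x₀ : ℝ)| ≤ w := by
    rw [abs_le]; constructor <;> linarith
  have hAabs : |(L.S : ℝ) - psi (L.x₀ : ℝ)| ≤ δ := by
    rw [abs_le]; constructor <;> linarith
  have hprod : ((L.S : ℝ) - psi (L.x₀ : ℝ)) * (x - (L.x₀ : ℝ)) ≤ δ * w := by
    calc _ ≤ |((L.S : ℝ) - psi (L.x₀ : ℝ)) * (x - (L.x₀ : ℝ))| := le_abs_self _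
      _ = |(L.S : ℝ) - psi (L.x₀ : ℝ)| * |x - (L.x₀ : ℝ)| := abs_mul _ _
      _ ≤ δ * w := mul_le_mul hAabs hyabs (abs_nonneg _) ((abs_nonneg _).trans hAabs)
  nlinarith

/-- One piece in the mean for a far cell. -/
structure FarPiece where
  m₁ : ℚ
  m₂ : ℚ
  lm : LineD
  pu : Parab
  pv : Parab
  su : Bool
  sv : Bool
  G : ℚ
  odd : Bool

/-- Slope for the first parabola. -/
def FarPiece.dp (P : FarPiece) : ℚ := if P.su then -P.pu.d else P.pu.d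

/-- Slope for the second parabola. -/
def FarPiece.dm (P : FarPiece) : ℚ := if P.sv then -P.pv.d else P.pv.d

/-- The cap on the level-one weight at mean `m`. -/
def FarPiece.capA (P : FarPiece) (Wc : ℚ) : ℚ := if P.odd then 1 else Wc

/-- Slope of the cap. -/
def FarPiece.capB (P : FarPiece) : ℚ := if P.odd then 1 else 0

/-- One corner inequality of a far piece. -/
def FarPiece.corner (P : FarPiece) (Wc : ℚ) (lr : LineD) (r m : ℚ) : Bool :=
  let a := (P.dp - P.dm) / 2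
  let e := P.pu.e
  let K₀ := (P.pu.c + P.pv.c) / 2
  let K₁ := (P.pu.c - P.pv.c) / 2 + (P.dp + P.dm) / 2
  decide (K₀ + K₁ * m + (a + e - P.G) * m ^ 2 + max 0 (a * r + e * r ^ 2 - P.G)
      * (P.capA Wc - P.capB * m) + P.G
    ≤ lr.P + lr.S * (r - lr.x₀) + (P.lm.P + P.lm.S * (m - P.lm.x₀)))

/-- The numerical check for a far piece. -/
def FarPiece.ok (P : FarPiece) (r₁ r₂ Wc : ℚ) (lr : LineD) : Bool :=
  let a := (P.dp - P.dm) / 2
  let e := P.pu.e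
  P.pu.ok && P.pv.ok && decide (P.pu.e = P.pv.e) && decide (0 ≤ r₁) && decide (r₁ < r₂)
    && decide (r₂ ≤ 1) && decide (0 ≤ P.m₁) && decide (P.m₁ < P.m₂) && decide (P.m₂ ≤ 1)
    && P.lm.ok P.m₁ P.m₂ && decide (0 ≤ P.G) && decide (0 ≤ Wc)
    && decide (a * r₂ ^ 2 + e * (r₂ ^ 2) ^ 2 ≤ P.G) && decide (0 ≤ a + e - P.G)
    && P.corner Wc lr r₁ P.m₁ && P.corner Wc lr r₁ P.m₂ && P.corner Wc lr r₂ P.m₁
    && P.corner Wc lr r₂ P.m₂

/-- What a far check delivers at a fixed mean. -/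
def FarAt (Wc : ℚ) (ρ : ℝ) (μ₀ : ℝ) : Prop :=
  ∀ (n : ℕ) (F : (Fin n → Bool) → ℝ), (∀ x, F x = 1 ∨ F x = -1) → hat F ∅ = μ₀ →
    lev1 F ≤ (Wc : ℝ) →
    (∑ y, Psi (noise ρ F y)) / 2 ^ n ≤ Psi ρ + Psi (hat F ∅)

theorem FarPiece.sound {P : FarPiece} {r₁ r₂ Wc : ℚ} {lr : LineD} (h : P.ok r₁ r₂ Wc lr = true)
    (hlr : lr.ok r₁ r₂ = true) {ρ μ : ℝ} (hρ1 : (r₁ : ℝ) ≤ ρ) (hρ2 : ρ ≤ (r₂ : ℝ))
    (hμ1 : (P.m₁ : ℝ) ≤ μ) (hμ2 : μ ≤ (P.m₂ : ℝ)) : FarAt Wc ρ μ := by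
  simp only [FarPiece.ok, Bool.and_eq_true, decide_eq_true_eq] at h
  obtain ⟨⟨⟨⟨⟨⟨⟨⟨⟨⟨⟨⟨⟨⟨⟨⟨⟨hpu, hpv⟩, hee⟩, hr0⟩, hr⟩, hr1⟩, hm0⟩, hm⟩, hm1⟩, hlm⟩, hG0⟩, hWc⟩, hGV⟩,
    hθ⟩, h11⟩, h12⟩, h21⟩, h22⟩ := h
  intro n F hF hμ hW
  subst hμ
  set μ := hat F ∅ with hμdef
  have hr0' : (0 : ℝ) ≤ (r₁ : ℝ) := by exact_mod_cast hr0
  have hr' : (r₁ : ℝ) < (r₂ : ℝ) := by exact_mod_cast hr
  have hr1' : (r₂ : ℝ) ≤ 1 := by exact_mod_cast hr1
  have hm0' : (0 : ℝ) ≤ (P.m₁ : ℝ) := by exact_mod_cast hm0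
  have hm' : (P.m₁ : ℝ) < (P.m₂ : ℝ) := by exact_mod_cast hm
  have hm1' : (P.m₂ : ℝ) ≤ 1 := by exact_mod_cast hm1
  have hG0' : (0 : ℝ) ≤ (P.G : ℝ) := by exact_mod_cast hG0
  have hWc' : (0 : ℝ) ≤ (Wc : ℝ) := by exact_mod_cast hWc
  have hρ0 : 0 ≤ ρ := hr0'.trans hρ1
  have hρ11 : ρ ≤ 1 := hρ2.trans hr1'
  have he0 : (0 : ℝ) ≤ (P.pu.e : ℝ) := by
    have : 0 ≤ P.pu.e := by
      simp only [Parab.ok, Bool.and_eq_true, decide_eq_true_eq] at hpu
      exact hpu.1.1.1.2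
    exact_mod_cast this
  -- the parabola for `F = 1`
  have hQp : ∀ t, |t| ≤ 1 → Psi t ≤ (P.pu.c : ℝ) + (P.dp : ℝ) * t + (P.pu.e : ℝ) * t ^ 2 := by
    intro t ht
    unfold FarPiece.dp
    by_cases hs : P.su = true
    · simp only [hs, if_true]
      push_cast
      exact Parab.sound_neg hpu t ht
    · simp only [hs, if_false]
      exact Parab.sound hpu t ht
  have hQm : ∀ t, |t| ≤ 1 → Psi t ≤ (P.pv.c : ℝ) + (P.dm : ℝ) * t + (P.pu.e : ℝ) * t ^ 2 := by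
    intro t ht
    unfold FarPiece.dm
    by_cases hs : P.sv = true
    · simp only [hs, if_true]
      push_cast
      rw [hee]
      exact Parab.sound_neg hpv t ht
    · simp only [hs, if_false]
      rw [hee]
      exact Parab.sound hpv t ht
  have hGV' := (Rat.cast_le (K := ℝ)).mpr hGV
  have hθ' := (Rat.cast_le (K := ℝ)).mpr hθ
  push_cast at hGV' hθ'
  set a : ℝ := ((P.dp : ℝ) - (P.dm : ℝ)) / 2 with ha
  set e : ℝ := (P.pu.e : ℝ) with he
  set G : ℝ := (P.G : ℝ) with hG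
  have hGρ : a * ρ ^ 2 + e * (ρ ^ 2) ^ 2 ≤ G := by
    refine level_g_le he0 hG0' hGV' (sq_nonneg ρ) ?_
    exact pow_le_pow_left₀ hρ0 hρ2 2
  have hbound := far_bound hF hρ0 hρ11 he0 hQp hQm hG0' hGρ
  rw [← ha, ← hμdef] at hbound
  -- the lines
  have hLr := LineD.sound hlr hρ1 hρ2
  have hLm := LineD.sound hlm hμ1 hμ2
  -- the cap
  have hcap : lev1 F ≤ (P.capA Wc : ℝ) - (P.capB : ℝ) * μ := by
    unfold FarPiece.capA FarPiece.capB
    by_cases ho : P.odd = true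
    · simp only [ho, if_true]
      push_cast
      have := lev1_le_one_sub hF
      rw [← hμdef] at this
      linarith
    · simp only [ho, if_false]
      push_cast
      linarith
  have hcapm : ∀ m : ℝ, m ≤ 1 → 0 ≤ (P.capA Wc : ℝ) - (P.capB : ℝ) * m := by
    intro m hm
    unfold FarPiece.capA FarPiece.capB
    by_cases ho : P.odd = true
    · simp only [ho, if_true]
      push_cast
      linarith
    · simp only [ho, if_false]
      push_cast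
      linarith
  -- corners in real form
  have cast_corner : ∀ r m : ℚ, P.corner Wc lr r m = true →
      (P.pu.c + P.pv.c : ℝ) / 2 + ((P.pu.c - P.pv.c : ℝ) / 2 + ((P.dp : ℝ) + (P.dm : ℝ)) / 2) * (m : ℝ)
        + (a + e - G) * (m : ℝ) ^ 2 + max 0 (a * (r : ℝ) + e * (r : ℝ) ^ 2 - G)
          * ((P.capA Wc : ℝ) - (P.capB : ℝ) * (m : ℝ)) + G
      ≤ (lr.P : ℝ) + (lr.S : ℝ) * ((r : ℝ) - (lr.x₀ : ℝ))
        + ((P.lm.P : ℝ) + (P.lm.S : ℝ) * ((m : ℝ) - (P.lm.x₀ : ℝ))) := by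
    intro r m hc
    simp only [FarPiece.corner, decide_eq_true_eq] at hc
    have := (Rat.cast_le (K := ℝ)).mpr hc
    push_cast at this
    exact this
  have hfinal := far_corners (ρ := ρ) (μ := μ) (W₁ := lev1 F) (r₁ := (r₁ : ℝ)) (r₂ := (r₂ : ℝ))
    (m₁ := (P.m₁ : ℝ)) (m₂ := (P.m₂ : ℝ))
    (K₀ := ((P.pu.c : ℝ) + (P.pv.c : ℝ)) / 2)
    (K₁ := ((P.pu.c : ℝ) - (P.pv.c : ℝ)) / 2 + ((P.dp : ℝ) + (P.dm : ℝ)) / 2) (a := a) (e := e)
    (G := G) (A := (P.capA Wc : ℝ)) (B := (P.capB : ℝ)) (Pr := (lr.P : ℝ)) (Sr := (lr.S : ℝ))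
    (xr := (lr.x₀ : ℝ)) (Pm := (P.lm.P : ℝ)) (Sm := (P.lm.S : ℝ)) (xm := (P.lm.x₀ : ℝ))
    (Tρ := Psi ρ) (Tμ := Psi μ) hr' hρ1 hρ2 hm' hμ1 hμ2 he0 hθ' (lev1_nonneg F) hcap
    (hcapm _ (by linarith)) (hcapm _ hm1') hLr hLm
    (cast_corner _ _ h11) (cast_corner _ _ h12) (cast_corner _ _ h21) (cast_corner _ _ h22)
  linarith

/-- A chain of pieces covering the means from `lo` up to `1`. -/
def farPieces (r₁ r₂ Wc : ℚ) (lr : LineD) : ℚ → List FarPiece → Bool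
  | lo, [] => decide (1 ≤ lo)
  | lo, P :: l => decide (P.m₁ ≤ lo) && P.ok r₁ r₂ Wc lr && farPieces r₁ r₂ Wc lr P.m₂ l

lemma farPieces_sound_strict {r₁ r₂ Wc : ℚ} {lr : LineD} (hlr : lr.ok r₁ r₂ = true)
    (l : List FarPiece) (lo : ℚ) (h : farPieces r₁ r₂ Wc lr lo l = true) {ρ μ : ℝ}
    (hρ1 : (r₁ : ℝ) ≤ ρ) (hρ2 : ρ ≤ (r₂ : ℝ)) (h1 : (lo : ℝ) < μ) (h2 : μ ≤ 1) :
    FarAt Wc ρ μ := by
  induction l generalizing lo with
  | nil =>
    simp only [farPieces, decide_eq_true_eq] at h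
    have : (1 : ℝ) ≤ (lo : ℝ) := by exact_mod_cast h
    linarith
  | cons P l ih =>
    simp only [farPieces, Bool.and_eq_true, decide_eq_true_eq] at h
    obtain ⟨⟨hr, hok⟩, hl⟩ := h
    have hr' : (P.m₁ : ℝ) ≤ (lo : ℝ) := by exact_mod_cast hr
    by_cases hc : μ ≤ (P.m₂ : ℝ)
    · exact FarPiece.sound hok hlr hρ1 hρ2 (by linarith) hc
    · exact ih P.m₂ hl (lt_of_not_ge hc)

/-- A far cell: an interval in the noise parameter, and pieces for the mean. -/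
structure FarCell where
  r₁ : ℚ
  r₂ : ℚ
  lr : LineD
  P₀ : FarPiece
  rest : List FarPiece

/-- The numerical check for a far cell. -/
def FarCell.ok (c : FarCell) (Wc m₀ : ℚ) : Bool :=
  c.lr.ok c.r₁ c.r₂ && farPieces c.r₁ c.r₂ Wc c.lr m₀ (c.P₀ :: c.rest)

/-- What a far check delivers. -/
def FarConcl (Wc m₀ : ℚ) (ρ : ℝ) : Prop :=
  ∀ (n : ℕ) (F : (Fin n → Bool) → ℝ), (∀ x, F x = 1 ∨ F x = -1) → (m₀ : ℝ) ≤ hat F ∅ →
    lev1 F ≤ (Wc : ℝ) →
    (∑ y, Psi (noise ρ F y)) / 2 ^ n ≤ Psi ρ + Psi (hat F ∅)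

theorem FarCell.sound {c : FarCell} {Wc m₀ : ℚ} (h : c.ok Wc m₀ = true) {ρ : ℝ}
    (h1 : (c.r₁ : ℝ) ≤ ρ) (h2 : ρ ≤ (c.r₂ : ℝ)) : FarConcl Wc m₀ ρ := by
  simp only [FarCell.ok, farPieces, Bool.and_eq_true, decide_eq_true_eq] at h
  obtain ⟨hlr, ⟨hr, hok⟩, hl⟩ := h
  intro n F hF hm hW
  have hμ1 : hat F ∅ ≤ 1 := (abs_le.mp (abs_hat_empty_le hF)).2
  have hr' : (c.P₀.m₁ : ℝ) ≤ (m₀ : ℝ) := by exact_mod_cast hr
  by_cases hc : hat F ∅ ≤ (c.P₀.m₂ : ℝ)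
  · exact FarPiece.sound hok hlr h1 h2 (by linarith) hc n F hF rfl hW
  · exact farPieces_sound_strict hlr c.rest _ hl h1 h2 (lt_of_not_ge hc) hμ1 n F hF rfl hW

/-- A chain of far cells covering an interval in the noise parameter. -/
def farChain (Wc m₀ : ℚ) : ℚ → List FarCell → ℚ → Bool
  | lo, [], hi => decide (hi ≤ lo)
  | lo, c :: l, hi => decide (c.r₁ ≤ lo) && c.ok Wc m₀ && farChain Wc m₀ c.r₂ l hi

lemma farChain_sound_strict {Wc m₀ : ℚ} (l : List FarCell) (lo hi : ℚ)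
    (h : farChain Wc m₀ lo l hi = true) {ρ : ℝ} (h1 : (lo : ℝ) < ρ) (h2 : ρ ≤ (hi : ℝ)) :
    FarConcl Wc m₀ ρ := by
  induction l generalizing lo with
  | nil =>
    simp only [farChain, decide_eq_true_eq] at h
    have : (hi : ℝ) ≤ (lo : ℝ) := by exact_mod_cast h
    linarith
  | cons c l ih =>
    simp only [farChain, Bool.and_eq_true, decide_eq_true_eq] at h
    obtain ⟨⟨hr, hok⟩, hl⟩ := h
    have hr' : (c.r₁ : ℝ) ≤ (lo : ℝ) := by exact_mod_cast hr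
    by_cases hc : ρ ≤ (c.r₂ : ℝ)
    · exact FarCell.sound hok (by linarith) hc
    · exact ih c.r₂ hl (lt_of_not_ge hc)

theorem farChain_sound {Wc m₀ : ℚ} (c : FarCell) (l : List FarCell) (lo hi : ℚ)
    (h : farChain Wc m₀ lo (c :: l) hi = true) {ρ : ℝ} (h1 : (lo : ℝ) ≤ ρ) (h2 : ρ ≤ (hi : ℝ)) :
    FarConcl Wc m₀ ρ := by
  simp only [farChain, Bool.and_eq_true, decide_eq_true_eq] at h
  obtain ⟨⟨hr, hok⟩, hl⟩ := h
  have hr' : (c.r₁ : ℝ) ≤ (lo : ℝ) := by exact_mod_cast hr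
  by_cases hc : ρ ≤ (c.r₂ : ℝ)
  · exact FarCell.sound hok (by linarith) hc
  · exact farChain_sound_strict l c.r₂ hi hl (lt_of_not_ge hc) h2

end Vale.Agent.Lib.P322
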