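import Vale.Agent.Lib.P322.Core

/-! A two-point inequality and its tensorisation: the `L^2` norm of a noisy indicator function.
This is the Bonami-Beckner small-set estimate, proved here from scratch for a noise operator whose
correlation may depend on the coordinate. -/

set_option linter.unusedVariables false
set_option linter.unusedSectionVars false

namespace Vale.Agent.Lib.P322

open Finset Vale.Agent.Lib.P311

lemma rpow_add_sub_lower {s t : ℝ} (hs0 : 0 ≤ s) (hs1 : s ≤ 1) (ht0 : 0 ≤ t) (ht1 : t ≤ 1) :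
    2 * s * t ≤ (1 + t) ^ s - (1 - t) ^ s := by
  set χ : ℝ → ℝ := fun x => (1 + x) ^ s - (1 - x) ^ s - 2 * s * x with hχ
  have hcont : ContinuousOn χ (Set.Icc 0 1) := by
    apply Continuous.continuousOn
    have h1 : Continuous fun x : ℝ => (1 + x) ^ s :=
      (continuous_const.add continuous_id).rpow_const (fun _ => Or.inr hs0)
    have h2 : Continuous fun x : ℝ => (1 - x) ^ s :=
      (continuous_const.sub continuous_id).rpow_const (fun _ => Or.inr hs0)
    exact (h1.sub h2).sub (continuous_const.mul continuous_id)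
  have hder : ∀ x ∈ Set.Ioo (0 : ℝ) 1, HasDerivAt χ (s * (1 + x) ^ (s - 1) + s * (1 - x) ^ (s - 1) - 2 * s) x := by
    intro x hx
    have hp : 1 + x ≠ 0 := by have := hx.1; linarith
    have hm : 1 - x ≠ 0 := by have := hx.2; linarith
    have h1 : HasDerivAt (fun y : ℝ => 1 + y) 1 x := by
      simpa using (hasDerivAt_id x).const_add 1
    have h2 : HasDerivAt (fun y : ℝ => 1 - y) (-1) x := by
      simpa using (hasDerivAt_id x).const_sub 1
    have d1 := h1.rpow_const (p := s) (Or.inl hp)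
    have d2 := h2.rpow_const (p := s) (Or.inl hm)
    have d3 : HasDerivAt (fun y : ℝ => 2 * s * y) (2 * s) x := by
      simpa using (hasDerivAt_id x).const_mul (2 * s)
    refine HasDerivAt.congr_deriv ((d1.sub d2).sub d3) ?_
    ring
  have hmono : MonotoneOn χ (Set.Icc 0 1) := by
    apply monotoneOn_of_deriv_nonneg (convex_Icc 0 1) hcont
    · intro x hx
      rw [interior_Icc] at hx
      exact (hder x hx).differentiableAt.differentiableWithinAt
    · intro x hx
      rw [interior_Icc] at hx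
      rw [(hder x hx).deriv]
      have hx0 := hx.1
      have hx1 := hx.2
      set u := (1 + x) ^ (s - 1) with hu
      set v := (1 - x) ^ (s - 1) with hv
      have hu0 : 0 < u := Real.rpow_pos_of_pos (by linarith) _
      have hv0 : 0 < v := Real.rpow_pos_of_pos (by linarith) _
      have huv : 1 ≤ u * v := by
        rw [hu, hv, ← Real.mul_rpow (by linarith) (by linarith)]
        apply Real.one_le_rpow_of_pos_of_le_one_of_nonpos
        · nlinarith
        · nlinarith
        · linarith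
      have h2 : 2 ≤ u + v := by
        nlinarith [sq_nonneg (u - v)]
      have : s * u + s * v - 2 * s = s * (u + v - 2) := by ring
      rw [this]
      exact mul_nonneg hs0 (by linarith)
  have h := hmono (Set.left_mem_Icc.mpr (by norm_num : (0:ℝ) ≤ 1)) ⟨ht0, ht1⟩ ht0
  simp only [hχ, add_zero, sub_zero, Real.one_rpow, mul_zero, sub_self] at h
  linarith

lemma rpow_sum_lower {p t : ℝ} (hp1 : 1 ≤ p) (hp2 : p ≤ 2) (ht0 : 0 ≤ t) (ht1 : t ≤ 1) :
    2 + p * (p - 1) * t ^ 2 ≤ (1 + t) ^ p + (1 - t) ^ p := by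
  set φ : ℝ → ℝ := fun x => (1 + x) ^ p + (1 - x) ^ p - 2 - p * (p - 1) * x ^ 2 with hφ
  have hp0 : 0 ≤ p := by linarith
  have hcont : ContinuousOn φ (Set.Icc 0 1) := by
    apply Continuous.continuousOn
    have h1 : Continuous fun x : ℝ => (1 + x) ^ p :=
      (continuous_const.add continuous_id).rpow_const (fun _ => Or.inr hp0)
    have h2 : Continuous fun x : ℝ => (1 - x) ^ p :=
      (continuous_const.sub continuous_id).rpow_const (fun _ => Or.inr hp0)
    exact ((h1.add h2).sub continuous_const).sub (continuous_const.mul (continuous_pow 2))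
  have hder : ∀ x ∈ Set.Ioo (0 : ℝ) 1, HasDerivAt φ
      (p * ((1 + x) ^ (p - 1) - (1 - x) ^ (p - 1) - 2 * (p - 1) * x)) x := by
    intro x hx
    have hp : 1 + x ≠ 0 := by have := hx.1; linarith
    have hm : 1 - x ≠ 0 := by have := hx.2; linarith
    have h1 : HasDerivAt (fun y : ℝ => 1 + y) 1 x := by
      simpa using (hasDerivAt_id x).const_add 1
    have h2 : HasDerivAt (fun y : ℝ => 1 - y) (-1) x := by
      simpa using (hasDerivAt_id x).const_sub 1
    have d1 := h1.rpow_const (p := p) (Or.inl hp)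
    have d2 := h2.rpow_const (p := p) (Or.inl hm)
    have d3 : HasDerivAt (fun y : ℝ => p * (p - 1) * y ^ 2) (p * (p - 1) * (2 * x)) x := by
      have := (hasDerivAt_pow 2 x).const_mul (p * (p - 1))
      simpa using this
    refine HasDerivAt.congr_deriv (((d1.add d2).sub_const 2).sub d3) ?_
    ring
  have hmono : MonotoneOn φ (Set.Icc 0 1) := by
    apply monotoneOn_of_deriv_nonneg (convex_Icc 0 1) hcont
    · intro x hx
      rw [interior_Icc] at hx
      exact (hder x hx).differentiableAt.differentiableWithinAt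
    · intro x hx
      rw [interior_Icc] at hx
      rw [(hder x hx).deriv]
      apply mul_nonneg hp0
      have := rpow_add_sub_lower (s := p - 1) (t := x) (by linarith) (by linarith) hx.1.le hx.2.le
      linarith
  have h := hmono (Set.left_mem_Icc.mpr (by norm_num : (0:ℝ) ≤ 1)) ⟨ht0, ht1⟩ ht0
  have e0 : φ 0 = 0 := by
    simp only [hφ, add_zero, sub_zero, Real.one_rpow]; ring
  rw [e0] at h
  simp only [hφ] at h
  linarith

/-- The two-point inequality, in the normalised form. -/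
lemma two_point_norm {p t : ℝ} (hp1 : 1 ≤ p) (hp2 : p ≤ 2) (ht0 : 0 ≤ t) (ht1 : t ≤ 1) :
    1 + (p - 1) * t ^ 2 ≤ (((1 + t) ^ p + (1 - t) ^ p) / 2) ^ (2 / p) := by
  have hp0 : 0 < p := by linarith
  set y := p * (p - 1) * t ^ 2 / 2 with hy
  have hy0 : 0 ≤ y := by
    have : 0 ≤ p - 1 := by linarith
    positivity
  have h1 : 1 + y ≤ ((1 + t) ^ p + (1 - t) ^ p) / 2 := by
    have := rpow_sum_lower hp1 hp2 ht0 ht1
    rw [hy]; linarith
  have h2 : (1 + y) ^ (2 / p) ≤ (((1 + t) ^ p + (1 - t) ^ p) / 2) ^ (2 / p) :=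
    Real.rpow_le_rpow (by linarith) h1 (by positivity)
  have h3 : 1 + (2 / p) * y ≤ (1 + y) ^ (2 / p) := by
    apply one_add_mul_self_le_rpow_one_add (by linarith)
    rw [le_div_iff₀ hp0]; linarith
  have h4 : (2 / p) * y = (p - 1) * t ^ 2 := by
    rw [hy]; field_simp
  rw [h4] at h3
  linarith

/-- The two-point inequality, homogeneous form. -/
lemma two_point {p σ A B : ℝ} (hp1 : 1 ≤ p) (hp2 : p ≤ 2) (hσ0 : 0 ≤ σ) (hσ : σ ≤ p - 1)
    (hA : 0 ≤ A) (hB : 0 ≤ B) :
    (1 + σ) / 4 * (A ^ 2 + B ^ 2) + (1 - σ) / 2 * (A * B)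
      ≤ ((A ^ p + B ^ p) / 2) ^ (2 / p) := by
  have hp0 : 0 < p := by linarith
  wlog hAB : B ≤ A generalizing A B
  · have := this hB hA (le_of_not_ge hAB)
    have e1 : B ^ 2 + A ^ 2 = A ^ 2 + B ^ 2 := by ring
    have e2 : B * A = A * B := by ring
    have e3 : B ^ p + A ^ p = A ^ p + B ^ p := by ring
    rwa [e1, e2, e3] at this
  rcases eq_or_lt_of_le (add_nonneg hA hB) with hS | hS
  · have hA0 : A = 0 := by linarith
    have hB0 : B = 0 := by linarith
    subst hA0; subst hB0
    rw [Real.zero_rpow hp0.ne']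
    simp
    rw [Real.zero_rpow (by positivity)]
  · set S := (A + B) / 2 with hSdef
    have hS0 : 0 < S := by rw [hSdef]; linarith
    set t := (A - B) / (A + B) with ht
    have ht0 : 0 ≤ t := div_nonneg (by linarith) hS.le
    have ht1 : t ≤ 1 := by
      rw [ht, div_le_one hS]; linarith
    have hAe : A = S * (1 + t) := by
      rw [hSdef, ht]; field_simp; ring
    have hBe : B = S * (1 - t) := by
      rw [hSdef, ht]; field_simp; ring
    have h1 : A ^ p = S ^ p * (1 + t) ^ p := by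
      rw [hAe, Real.mul_rpow hS0.le (by linarith)]
    have h2 : B ^ p = S ^ p * (1 - t) ^ p := by
      rw [hBe, Real.mul_rpow hS0.le (by linarith)]
    have h3 : (A ^ p + B ^ p) / 2 = S ^ p * (((1 + t) ^ p + (1 - t) ^ p) / 2) := by
      rw [h1, h2]; ring
    have hSp : 0 < S ^ p := Real.rpow_pos_of_pos hS0 _
    have hX : 0 ≤ ((1 + t) ^ p + (1 - t) ^ p) / 2 := by
      have := Real.rpow_nonneg (show (0:ℝ) ≤ 1 + t by linarith) p
      have := Real.rpow_nonneg (show (0:ℝ) ≤ 1 - t by linarith) p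
      linarith
    have h4 : ((A ^ p + B ^ p) / 2) ^ (2 / p)
        = S ^ 2 * (((1 + t) ^ p + (1 - t) ^ p) / 2) ^ (2 / p) := by
      rw [h3, Real.mul_rpow hSp.le hX, ← Real.rpow_mul hS0.le]
      have : p * (2 / p) = 2 := by field_simp
      rw [this]
      norm_cast
    rw [h4]
    have h5 := two_point_norm hp1 hp2 ht0 ht1
    have h6 : (1 + σ) / 4 * (A ^ 2 + B ^ 2) + (1 - σ) / 2 * (A * B) = S ^ 2 * (1 + σ * t ^ 2) := by
      rw [hAe, hBe]; ring
    rw [h6]
    apply mul_le_mul_of_nonneg_left _ (by positivity)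
    have : σ * t ^ 2 ≤ (p - 1) * t ^ 2 := mul_le_mul_of_nonneg_right hσ (by positivity)
    linarith

/-- Product kernel with a correlation depending on the coordinate. -/
noncomputable def kernV {ι : Type*} [Fintype ι] (r : ι → ℝ) (x y : ι → Bool) : ℝ :=
  ∏ i, ((1 + r i * (sg (x i) * sg (y i))) / 2)

/-- The noise operator with a correlation depending on the coordinate. -/
noncomputable def noiseV {ι : Type*} [Fintype ι] [DecidableEq ι] (r : ι → ℝ) (G : (ι → Bool) → ℝ) (y : ι → Bool) : ℝ :=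
  ∑ x, kernV r x y * G x

lemma sum_cons {n : ℕ} (φ : (Fin (n + 1) → Bool) → ℝ) :
    ∑ x, φ x = ∑ x' : Fin n → Bool,
      (φ (Fin.cons true x') + φ (Fin.cons false x')) := by
  rw [← (Fin.consEquiv (fun _ : Fin (n + 1) => Bool)).sum_comp φ, Fintype.sum_prod_type,
    Fintype.sum_bool, ← Finset.sum_add_distrib]
  rfl

lemma kernV_cons {n : ℕ} (r : Fin (n + 1) → ℝ) (a b : Bool) (x y : Fin n → Bool) :
    kernV r (Fin.cons a x) (Fin.cons b y)
      = (1 + r 0 * (sg a * sg b)) / 2 * kernV (Fin.tail r) x y := by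
  unfold kernV
  rw [Fin.prod_univ_succ]
  simp [Fin.tail]

lemma noiseV_cons {n : ℕ} (r : Fin (n + 1) → ℝ) (G : (Fin (n + 1) → Bool) → ℝ) (b : Bool)
    (y : Fin n → Bool) :
    noiseV r G (Fin.cons b y)
      = (1 + r 0 * sg b) / 2 * noiseV (Fin.tail r) (fun x => G (Fin.cons true x)) y
        + (1 - r 0 * sg b) / 2 * noiseV (Fin.tail r) (fun x => G (Fin.cons false x)) y := by
  unfold noiseV
  rw [sum_cons, Finset.mul_sum, Finset.mul_sum, ← Finset.sum_add_distrib]
  apply Finset.sum_congr rfl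
  intro x _
  rw [kernV_cons, kernV_cons]
  simp only [sg_true, sg_false]
  ring

/-- Bonami-Beckner for noisy indicators. -/
theorem hyper {n : ℕ} {σ s : ℝ} (hσ0 : 0 ≤ σ) (hs0 : 0 ≤ s) (hs1 : s ≤ 1)
    (hσ : σ * (1 + s) ≤ 1 - s) (r : Fin n → ℝ) (hr : ∀ i, (r i) ^ 2 ≤ σ)
    (G : (Fin n → Bool) → ℝ) (hG : ∀ x, G x = 0 ∨ G x = 1) :
    (∑ y, (noiseV r G y) ^ 2) / 2 ^ n ≤ ((∑ x, G x) / 2 ^ n) ^ (1 + s) := by
  induction n with
  | zero =>
    have hx : ∀ x : Fin 0 → Bool, x = default := fun x => Subsingleton.elim _ _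
    have hsum : ∀ φ : (Fin 0 → Bool) → ℝ, ∑ x, φ x = φ default := by
      intro φ; exact Fintype.sum_subsingleton φ default
    have hk : kernV r (default : Fin 0 → Bool) default = 1 := by simp [kernV]
    simp only [noiseV]
    rw [hsum, hsum, hsum, hk]
    rcases hG default with h | h
    · rw [h]
      simp only [mul_zero, ne_eq, OfNat.ofNat_ne_zero, not_false_eq_true, zero_pow, pow_zero, div_one]
      exact Real.rpow_nonneg le_rfl _
    · rw [h]
      simp
  | succ n ih =>
    set r' := Fin.tail r with hr'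
    have hr'2 : ∀ i, (r' i) ^ 2 ≤ σ := fun i => hr i.succ
    set G₁ : (Fin n → Bool) → ℝ := fun x => G (Fin.cons true x) with hG₁
    set G₀ : (Fin n → Bool) → ℝ := fun x => G (Fin.cons false x) with hG₀
    have ih1 := ih r' hr'2 G₁ (fun x => hG _)
    have ih0 := ih r' hr'2 G₀ (fun x => hG _)
    set N : ℝ := 2 ^ n with hN
    have hNpos : 0 < N := by positivity
    set u := noiseV r' G₁ with hu
    set v := noiseV r' G₀ with hv
    set ρ₀ := r 0 with hρ₀
    have hρ₀2 : ρ₀ ^ 2 ≤ σ := hr 0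
    have hσ1 : σ ≤ 1 := by nlinarith
    -- the sum of squares
    have hsq : ∑ y, (noiseV r G y) ^ 2 = ∑ y, (((1 + ρ₀ ^ 2) / 2) * ((u y) ^ 2 + (v y) ^ 2)
        + (1 - ρ₀ ^ 2) * (u y * v y)) := by
      rw [sum_cons]
      apply Finset.sum_congr rfl
      intro y _
      rw [noiseV_cons, noiseV_cons]
      simp only [sg_true, sg_false]
      ring
    -- Cauchy-Schwarz
    set X := ∑ y, (u y) ^ 2 with hX
    set Y := ∑ y, (v y) ^ 2 with hY
    have hCS : ∑ y, u y * v y ≤ Real.sqrt X * Real.sqrt Y :=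
      Real.sum_mul_le_sqrt_mul_sqrt _ _ _
    have hX0 : 0 ≤ X := Finset.sum_nonneg fun y _ => sq_nonneg _
    have hY0 : 0 ≤ Y := Finset.sum_nonneg fun y _ => sq_nonneg _
    set a := (∑ x, G₁ x) / N with ha
    set b := (∑ x, G₀ x) / N with hb
    have ha0 : 0 ≤ a := by
      apply div_nonneg _ hNpos.le
      apply Finset.sum_nonneg
      intro x _
      rcases hG (Fin.cons true x) with h | h <;> simp [hG₁, h]
    have hb0 : 0 ≤ b := by
      apply div_nonneg _ hNpos.le
      apply Finset.sum_nonneg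
      intro x _
      rcases hG (Fin.cons false x) with h | h <;> simp [hG₀, h]
    have hs' : 0 < 1 + s := by linarith
    set A := a ^ ((1 + s) / 2) with hA
    set B := b ^ ((1 + s) / 2) with hB
    have hA0 : 0 ≤ A := Real.rpow_nonneg ha0 _
    have hB0 : 0 ≤ B := Real.rpow_nonneg hb0 _
    have hA2 : A ^ 2 = a ^ (1 + s) := by
      rw [hA, ← Real.rpow_natCast, ← Real.rpow_mul ha0]
      congr 1
      push_cast
      ring
    have hB2 : B ^ 2 = b ^ (1 + s) := by
      rw [hB, ← Real.rpow_natCast, ← Real.rpow_mul hb0]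
      congr 1
      push_cast
      ring
    have hX1 : X / N ≤ A ^ 2 := by rw [hA2]; exact ih1
    have hY1 : Y / N ≤ B ^ 2 := by rw [hB2]; exact ih0
    -- the normalised inner product
    have hZ : (∑ y, u y * v y) / N ≤ A * B := by
      have h1 : Real.sqrt X ≤ A * Real.sqrt N := by
        rw [← Real.sqrt_sq hA0, ← Real.sqrt_mul (by positivity)]
        apply Real.sqrt_le_sqrt
        rw [div_le_iff₀ hNpos] at hX1
        exact hX1
      have h2 : Real.sqrt Y ≤ B * Real.sqrt N := by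
        rw [← Real.sqrt_sq hB0, ← Real.sqrt_mul (by positivity)]
        apply Real.sqrt_le_sqrt
        rw [div_le_iff₀ hNpos] at hY1
        exact hY1
      rw [div_le_iff₀ hNpos]
      calc ∑ y, u y * v y ≤ Real.sqrt X * Real.sqrt Y := hCS
        _ ≤ (A * Real.sqrt N) * (B * Real.sqrt N) :=
            mul_le_mul h1 h2 (Real.sqrt_nonneg _) (by positivity)
        _ = A * B * N := by
            have : Real.sqrt N * Real.sqrt N = N := Real.mul_self_sqrt hNpos.le
            calc A * Real.sqrt N * (B * Real.sqrt N) = A * B * (Real.sqrt N * Real.sqrt N) := by ring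
              _ = A * B * N := by rw [this]
    -- assemble
    set p := 2 / (1 + s) with hp
    have hp1 : 1 ≤ p := by
      rw [hp, le_div_iff₀ hs']; linarith
    have hp2 : p ≤ 2 := by
      rw [hp, div_le_iff₀ hs']; linarith
    have hσp : σ ≤ p - 1 := by
      rw [hp]
      have : 2 / (1 + s) - 1 = (1 - s) / (1 + s) := by field_simp; ring
      rw [this, le_div_iff₀ hs']
      exact hσ
    have htp := two_point hp1 hp2 hσ0 hσp hA0 hB0
    have hAp : A ^ p = a := by
      rw [hA, ← Real.rpow_mul ha0, hp]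
      have : (1 + s) / 2 * (2 / (1 + s)) = 1 := by field_simp
      rw [this, Real.rpow_one]
    have hBp : B ^ p = b := by
      rw [hB, ← Real.rpow_mul hb0, hp]
      have : (1 + s) / 2 * (2 / (1 + s)) = 1 := by field_simp
      rw [this, Real.rpow_one]
    rw [hAp, hBp] at htp
    have hexp : 2 / p = 1 + s := by
      rw [hp]; field_simp
    rw [hexp] at htp
    have hmean : (∑ x, G x) / 2 ^ (n + 1) = (a + b) / 2 := by
      rw [sum_cons, Finset.sum_add_distrib, ha, hb]
      simp only [hG₁, hG₀]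
      have hNN : (2 : ℝ) ^ (n + 1) = N * 2 := by rw [hN]; ring
      rw [hNN]
      field_simp
    rw [hmean, hsq]
    refine le_trans ?_ htp
    have h3 : (∑ y, (((1 + ρ₀ ^ 2) / 2) * ((u y) ^ 2 + (v y) ^ 2) + (1 - ρ₀ ^ 2) * (u y * v y)))
        = ((1 + ρ₀ ^ 2) / 2) * (X + Y) + (1 - ρ₀ ^ 2) * ∑ y, u y * v y := by
      rw [Finset.sum_add_distrib, ← Finset.mul_sum, ← Finset.mul_sum, Finset.sum_add_distrib]
    have hNN : (2 : ℝ) ^ (n + 1) = N * 2 := by rw [hN]; ring
    rw [h3, hNN]
    have hρ1 : 0 ≤ 1 - ρ₀ ^ 2 := by linarith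
    have h4 : (((1 + ρ₀ ^ 2) / 2) * (X + Y) + (1 - ρ₀ ^ 2) * ∑ y, u y * v y) / (N * 2)
        = (1 + ρ₀ ^ 2) / 4 * (X / N + Y / N) + (1 - ρ₀ ^ 2) / 2 * ((∑ y, u y * v y) / N) := by
      field_simp
      ring
    rw [h4]
    have h5 : (1 + ρ₀ ^ 2) / 4 * (X / N + Y / N) ≤ (1 + ρ₀ ^ 2) / 4 * (A ^ 2 + B ^ 2) := by
      apply mul_le_mul_of_nonneg_left (add_le_add hX1 hY1)
      positivity
    have h6 : (1 - ρ₀ ^ 2) / 2 * ((∑ y, u y * v y) / N) ≤ (1 - ρ₀ ^ 2) / 2 * (A * B) :=
      mul_le_mul_of_nonneg_left hZ (by linarith)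
    have h7 : 0 ≤ (σ - ρ₀ ^ 2) * (A - B) ^ 2 / 4 :=
      div_nonneg (mul_nonneg (by linarith) (sq_nonneg _)) (by norm_num)
    have h8 : ((1 + σ) / 4 * (A ^ 2 + B ^ 2) + (1 - σ) / 2 * (A * B))
        - ((1 + ρ₀ ^ 2) / 4 * (A ^ 2 + B ^ 2) + (1 - ρ₀ ^ 2) / 2 * (A * B))
        = (σ - ρ₀ ^ 2) * (A - B) ^ 2 / 4 := by ring
    linarith

end Vale.Agent.Lib.P322
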