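import Vale.Agent.Lib.P322.Psi

/-! Elementary inequalities on the parameters of the dual certificate, for noise `ρ ≤ 2/5`. -/

set_option linter.unusedVariables false

namespace Vale.Agent.Lib.P322

open Real

/-- The ratio `(1-μ)/(1+μ)`. -/
noncomputable def kap (μ : ℝ) : ℝ := (1 - μ) / (1 + μ)

/-- Curvature of the parabola. -/
noncomputable def alp (μ : ℝ) : ℝ := 3 * (1 + μ) / ((1 - μ) * (3 + 5 * μ))

section
variable {μ ρ : ℝ}

lemma kap_pos (h0 : 0 ≤ μ) (h1 : μ < 1) : 0 < kap μ := by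
  unfold kap; apply div_pos <;> linarith

lemma kap_le_one (h0 : 0 ≤ μ) (h1 : μ < 1) : kap μ ≤ 1 := by
  unfold kap; rw [div_le_one (by linarith)]; linarith

lemma alp_pos (h0 : 0 ≤ μ) (h1 : μ < 1) : 0 < alp μ := by
  unfold alp
  have : 0 < 1 - μ := by linarith
  positivity

lemma log_seven_tenths : -(9 / 25 : ℝ) ≤ log (7 / 10) := by
  have h : log ((1 / 2 : ℝ) ^ 14) ≤ log ((7 / 10 : ℝ) ^ 27) :=
    Real.log_le_log (by norm_num) (by norm_num)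
  rw [Real.log_pow, Real.log_pow] at h
  have h2 : log (1 / 2 : ℝ) = - log 2 := by
    rw [one_div, Real.log_inv]
  rw [h2] at h
  have h3 := Real.log_two_lt_d9
  push_cast at h
  norm_num at h3
  linarith

lemma neg_log_one_sub_le {x : ℝ} (h0 : 0 ≤ x) (h1 : x ≤ 3 / 10) : - log (1 - x) ≤ 6 / 5 * x := by
  have hc := strictConcaveOn_log_Ioi.concaveOn
  have hx := hc.2 (show (1 : ℝ) ∈ Set.Ioi (0 : ℝ) by norm_num)
    (show (7 / 10 : ℝ) ∈ Set.Ioi (0 : ℝ) by norm_num)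
    (show 0 ≤ 1 - x * (10 / 3) by linarith) (show 0 ≤ x * (10 / 3) by positivity) (by ring)
  simp only [smul_eq_mul, Real.log_one, mul_zero, zero_add] at hx
  have e : (1 - x * (10 / 3)) * 1 + x * (10 / 3) * (7 / 10) = 1 - x := by ring
  rw [e] at hx
  have := log_seven_tenths
  have h2 : x * (10 / 3) * (-(9 / 25 : ℝ)) ≤ x * (10 / 3) * log (7 / 10) :=
    mul_le_mul_of_nonneg_left this (by positivity)
  linarith

/-- `U`: a common bound for the two centres of the parabolas. -/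
noncomputable def Ub (μ : ℝ) : ℝ := μ + 2 / 5 * kap μ

lemma one_sub_Ub (h0 : 0 ≤ μ) (h1 : μ < 1) : 1 - Ub μ = kap μ * (3 + 5 * μ) / 5 := by
  unfold Ub kap
  have : 1 + μ ≠ 0 := by linarith
  field_simp
  ring

lemma Ub_lt_one (h0 : 0 ≤ μ) (h1 : μ < 1) : Ub μ < 1 := by
  have := one_sub_Ub h0 h1
  have h2 : 0 < kap μ * (3 + 5 * μ) / 5 := by
    have := kap_pos h0 h1
    positivity
  linarith

lemma Ub_nonneg (h0 : 0 ≤ μ) (h1 : μ < 1) : 0 ≤ Ub μ := by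
  unfold Ub
  have := kap_pos h0 h1
  positivity

lemma alp_mul_one_sub_Ub (h0 : 0 ≤ μ) (h1 : μ < 1) : alp μ * (1 - Ub μ) = 3 / 5 := by
  rw [one_sub_Ub h0 h1]
  unfold alp kap
  have h2 : 1 + μ ≠ 0 := by linarith
  have h3 : 1 - μ ≠ 0 := by linarith
  have h4 : 3 + 5 * μ ≠ 0 := by linarith
  field_simp

lemma log_bound (h0 : 0 ≤ μ) (h1 : μ < 1) :
    log 2 - log (1 + Ub μ) ≤ alp μ * (1 - Ub μ) ^ 2 := by
  have hU := Ub_lt_one h0 h1
  have hU0 := Ub_nonneg h0 h1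
  set x := (1 - Ub μ) / 2 with hx
  have hx0 : 0 ≤ x := by rw [hx]; linarith
  have hx1 : x ≤ 3 / 10 := by
    rw [hx, one_sub_Ub h0 h1]
    have hk : kap μ * (3 + 5 * μ) ≤ 3 := by
      unfold kap
      rw [div_mul_eq_mul_div, div_le_iff₀ (by linarith)]
      nlinarith
    linarith
  have h2 := neg_log_one_sub_le hx0 hx1
  have h3 : 1 + Ub μ = 2 * (1 - x) := by rw [hx]; ring
  rw [h3, Real.log_mul (by norm_num) (by rw [hx]; linarith)]
  have h4 : alp μ * (1 - Ub μ) ^ 2 = 3 / 5 * (1 - Ub μ) := by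
    rw [sq, ← mul_assoc, alp_mul_one_sub_Ub h0 h1]
  rw [h4]
  have h5 : (1 - Ub μ) = 2 * x := by rw [hx]; ring
  rw [h5]
  linarith

/-- The first centre. -/
noncomputable def ctrA (μ ρ : ℝ) : ℝ := μ + ρ * kap μ

/-- The second centre. -/
noncomputable def ctrC (μ ρ : ℝ) : ℝ := μ - ρ

lemma abs_ctrA_le (h0 : 0 ≤ μ) (h1 : μ < 1) (hr0 : 0 ≤ ρ) (hr : ρ ≤ 2 / 5) :
    |ctrA μ ρ| ≤ Ub μ := by
  have hk := kap_pos h0 h1
  unfold ctrA Ub
  rw [abs_of_nonneg (by positivity)]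
  nlinarith

lemma abs_ctrC_le (h0 : 0 ≤ μ) (h1 : μ < 1) (hr0 : 0 ≤ ρ) (hr : ρ ≤ 2 / 5) :
    |ctrC μ ρ| ≤ Ub μ := by
  have hk := kap_pos h0 h1
  have hk2 : 1 - 2 * μ ≤ kap μ := by
    unfold kap
    rw [le_div_iff₀ (by linarith)]
    nlinarith
  unfold ctrC Ub
  rw [abs_le]
  constructor <;> nlinarith

/-- The parabola majorant of `Psi` used for the certificate. -/
theorem parabola (h0 : 0 ≤ μ) (h1 : μ < 1) {u t : ℝ} (hu : |u| ≤ Ub μ) (ht : |t| ≤ 1) :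
    Psi t ≤ Psi u + psi u * (t - u) + alp μ * (t - u) ^ 2 := by
  have hU := Ub_lt_one h0 h1
  have hb := bregman_le ht hu hU
  have hl := log_bound h0 h1
  have hp : 0 < (1 - Ub μ) ^ 2 := by
    have : 0 < 1 - Ub μ := by linarith
    positivity
  have h2 : (1 - Ub μ) ^ 2 * (Psi t - Psi u - psi u * (t - u))
      ≤ (1 - Ub μ) ^ 2 * (alp μ * (t - u) ^ 2) := by
    calc _ ≤ (t - u) ^ 2 * (log 2 - log (1 + Ub μ)) := hb
      _ ≤ (t - u) ^ 2 * (alp μ * (1 - Ub μ) ^ 2) :=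
          mul_le_mul_of_nonneg_left hl (by positivity)
      _ = _ := by ring
  have h3 := le_of_mul_le_mul_left h2 hp
  linarith

lemma ctrA_sub_ctrC (h0 : 0 ≤ μ) (h1 : μ < 1) : ctrA μ ρ - ctrC μ ρ = 2 * ρ / (1 + μ) := by
  unfold ctrA ctrC kap
  have : 1 + μ ≠ 0 := by linarith
  field_simp
  ring

/-- First sign condition. -/
lemma cond_one (h0 : 0 ≤ μ) (h1 : μ < 1) (hr0 : 0 ≤ ρ) (hr : ρ ≤ 2 / 5) :
    0 ≤ alp μ * ρ ^ 2 + ((psi (ctrA μ ρ) - psi (ctrC μ ρ)) / 2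
      - alp μ * (ctrA μ ρ - ctrC μ ρ)) * ρ := by
  have hU := Ub_lt_one h0 h1
  have hA : |ctrA μ ρ| < 1 := lt_of_le_of_lt (abs_ctrA_le h0 h1 hr0 hr) hU
  have hC : |ctrC μ ρ| < 1 := lt_of_le_of_lt (abs_ctrC_le h0 h1 hr0 hr) hU
  have hd := ctrA_sub_ctrC (ρ := ρ) h0 h1
  have hle : ctrC μ ρ ≤ ctrA μ ρ := by
    have : 0 ≤ 2 * ρ / (1 + μ) := by positivity
    linarith
  have hg := psi_sub_ge hC hA hle
  rw [hd] at hg ⊢
  have hk : alp μ * (2 * ρ / (1 + μ)) - alp μ * ρ = 3 * ρ / (3 + 5 * μ) := by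
    unfold alp
    have h2 : 1 + μ ≠ 0 := by linarith
    have h3 : 1 - μ ≠ 0 := by linarith
    have h4 : 3 + 5 * μ ≠ 0 := by linarith
    field_simp
    ring
  have h3 : 3 * ρ / (3 + 5 * μ) ≤ ρ / (1 + μ) := by
    rw [div_le_div_iff₀ (by linarith) (by linarith)]
    nlinarith
  have h4 : 2 * ρ / (1 + μ) = 2 * (ρ / (1 + μ)) := by ring
  have e : alp μ * ρ ^ 2 + ((psi (ctrA μ ρ) - psi (ctrC μ ρ)) / 2 - alp μ * (2 * ρ / (1 + μ))) * ρ
      = ρ * ((psi (ctrA μ ρ) - psi (ctrC μ ρ)) / 2 - (alp μ * (2 * ρ / (1 + μ)) - alp μ * ρ)) := by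
    ring
  rw [e, hk]
  apply mul_nonneg hr0
  linarith

/-- Second sign condition. -/
lemma cond_two (h0 : 0 ≤ μ) (h1 : μ < 1) (hr0 : 0 ≤ ρ) (hr : ρ ≤ 2 / 5) :
    alp μ * ρ ^ 2 + ((psi (ctrA μ ρ) - psi (ctrC μ ρ)) / 2
      - alp μ * (ctrA μ ρ - ctrC μ ρ)) ≤ 0 := by
  have hU := Ub_lt_one h0 h1
  have hAU := abs_ctrA_le h0 h1 hr0 hr
  have hA : |ctrA μ ρ| < 1 := lt_of_le_of_lt hAU hU
  have hd := ctrA_sub_ctrC (ρ := ρ) h0 h1
  have hk0 := kap_pos h0 h1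
  have hA0 : 0 ≤ ctrA μ ρ := by unfold ctrA; positivity
  have hle : ctrC μ ρ ≤ ctrA μ ρ := by
    have : 0 ≤ 2 * ρ / (1 + μ) := by positivity
    linarith
  have hCA : |ctrC μ ρ| ≤ ctrA μ ρ := by
    rw [abs_le]
    constructor
    · -- `ρ - μ ≤ μ + ρ κ`
      unfold ctrA ctrC kap
      have h2 : 1 + μ ≠ 0 := by linarith
      have h3 : 0 < 1 + μ := by linarith
      have : ρ - μ - (μ + ρ * ((1 - μ) / (1 + μ))) = 2 * μ * (ρ - 1 - μ) / (1 + μ) := by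
        field_simp
        ring
      have h5 : 2 * μ * (ρ - 1 - μ) / (1 + μ) ≤ 0 := by
        apply div_nonpos_of_nonpos_of_nonneg _ h3.le
        apply mul_nonpos_of_nonneg_of_nonpos (by positivity) (by linarith)
      linarith
    · exact hle
  have hA1 : ctrA μ ρ < 1 := (abs_lt.mp hA).2
  have hg := psi_sub_le hCA (le_of_eq (abs_of_nonneg hA0)) hA1 hle
  rw [hd] at hg ⊢
  set E := (1 + μ) ^ 2 + ρ * (1 - μ) with hE
  have hEpos : 0 < E := by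
    have : 0 ≤ ρ * (1 - μ) := mul_nonneg hr0 (by linarith)
    rw [hE]; positivity
  have hsq : 1 - ctrA μ ρ ^ 2 = (1 - μ) * (1 + μ - ρ) * E / (1 + μ) ^ 2 := by
    unfold ctrA kap
    rw [hE]
    have h2 : 1 + μ ≠ 0 := by linarith
    field_simp
    ring
  have hm : 0 < 1 - μ := by linarith
  have hn : 0 < 1 + μ - ρ := by linarith
  have hb : 0 < 1 + μ := by linarith
  rw [hsq] at hg
  have hg2 : 2 * ρ / (1 + μ) * (1 / ((1 - μ) * (1 + μ - ρ) * E / (1 + μ) ^ 2))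
      = 2 * ρ * (1 + μ) / ((1 - μ) * (1 + μ - ρ) * E) := by
    field_simp
  rw [hg2] at hg
  have hpoly : (1 + μ) * (3 + 5 * μ) ≤ 3 * (2 - ρ * (1 + μ)) * (1 + μ - ρ) * E := by
    rw [hE]
    have a1 : 0 ≤ 2 / 5 - ρ := by linarith
    have a2 : 0 ≤ 1 - μ := by linarith
    nlinarith [mul_nonneg hr0 a1, mul_nonneg hr0 h0, mul_nonneg a1 h0, mul_nonneg h0 a2,
      mul_nonneg hr0 a2, mul_nonneg a1 a2, mul_nonneg (mul_nonneg hr0 a1) h0,
      mul_nonneg (mul_nonneg hr0 h0) a2, mul_nonneg (mul_nonneg a1 h0) a2,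
      mul_nonneg (mul_nonneg hr0 a1) a2, mul_nonneg (mul_nonneg hr0 hr0) a1,
      mul_nonneg (mul_nonneg h0 h0) a2, mul_nonneg (mul_nonneg h0 h0) hr0,
      mul_nonneg (mul_nonneg h0 h0) a1]
  have hfin : 2 * ρ * (1 + μ) / ((1 - μ) * (1 + μ - ρ) * E) / 2
      ≤ alp μ * (2 * ρ / (1 + μ)) - alp μ * ρ ^ 2 := by
    unfold alp
    have h3 : 3 * (1 + μ) / ((1 - μ) * (3 + 5 * μ)) * (2 * ρ / (1 + μ))
        - 3 * (1 + μ) / ((1 - μ) * (3 + 5 * μ)) * ρ ^ 2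
        = ρ * (3 * (2 - ρ * (1 + μ)) / ((1 - μ) * (3 + 5 * μ))) := by
      field_simp
    rw [h3]
    have h4 : 2 * ρ * (1 + μ) / ((1 - μ) * (1 + μ - ρ) * E) / 2
        = ρ * ((1 + μ) / ((1 - μ) * (1 + μ - ρ) * E)) := by
      field_simp
    rw [h4]
    apply mul_le_mul_of_nonneg_left _ hr0
    rw [div_le_div_iff₀ (by positivity) (by positivity)]
    have : (1 + μ) * ((1 - μ) * (3 + 5 * μ)) = (1 - μ) * ((1 + μ) * (3 + 5 * μ)) := by ring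
    rw [this]
    have h5 : 3 * (2 - ρ * (1 + μ)) * ((1 - μ) * (1 + μ - ρ) * E)
        = (1 - μ) * (3 * (2 - ρ * (1 + μ)) * (1 + μ - ρ) * E) := by ring
    rw [h5]
    exact mul_le_mul_of_nonneg_left hpoly hm.le
  linarith

end

end Vale.Agent.Lib.P322
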