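import Vale.Agent.Lib.P322.Bridge
import Vale.Agent.Lib.P322.NearData
import Vale.Agent.Lib.P322.FarData

/-! Assembly of the near-dictator case and the far case. -/

set_option linter.unusedVariables false
set_option linter.unusedSectionVars false

namespace Vale.Agent.Lib.P322

open Finset Vale.Agent.Lib.P311

variable {n : ℕ}

/-- The inequality for the negated function gives the inequality for the function. -/
lemma ineq_of_neg {F : (Fin n → Bool) → ℝ} {ρ : ℝ}
    (h : (∑ y, Psi (noise ρ (fun x => - F x) y)) / 2 ^ n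
      ≤ Psi ρ + Psi (hat (fun x => - F x) ∅)) :
    (∑ y, Psi (noise ρ F y)) / 2 ^ n ≤ Psi ρ + Psi (hat F ∅) := by
  simpa only [noise_neg, Psi_neg, hat_neg] using h

lemma neg_cases {F : (Fin n → Bool) → ℝ} (hF : ∀ x, F x = 1 ∨ F x = -1) :
    ∀ x, (fun x => - F x) x = 1 ∨ (fun x => - F x) x = -1 := by
  intro x
  rcases hF x with h | h <;> simp [h]

lemma lev1_neg (F : (Fin n → Bool) → ℝ) : lev1 (fun x => - F x) = lev1 F := by
  unfold lev1
  simp only [hat_neg, neg_sq]

/-- The convexity step in the link between the largest coefficient and the level-one weight. -/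
lemma link_cap {A a W : ℝ} (h1 : 2 / 3 ≤ A) (h2 : A ≤ a) (hW : 4 / 5 ≤ W)
    (ha : 3 * a ^ 2 ≤ W * (4 * a - 1)) : 3 * A ^ 2 ≤ W * (4 * A - 1) := by
  have hp : 0 ≤ (A - 2 / 3) * (a - A) := mul_nonneg (by linarith) (by linarith)
  rcases eq_or_lt_of_le (h1.trans h2) with h | h
  · have : A = 2 / 3 := by linarith
    rw [this]
    linarith
  · have hd : 0 < a - 2 / 3 := by linarith
    have key : (a - 2 / 3) * (3 * A ^ 2 - W * (4 * A - 1)) ≤ 0 := by
      have e : (a - 2 / 3) * (3 * A ^ 2 - W * (4 * A - 1))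
          = (a - A) * (3 * (2 / 3) ^ 2 - W * (4 * (2 / 3) - 1))
            + (A - 2 / 3) * (3 * a ^ 2 - W * (4 * a - 1))
            - (a - 2 / 3) * (3 * ((A - 2 / 3) * (a - A))) := by ring
      rw [e]
      have t1 : (a - A) * (3 * (2 / 3) ^ 2 - W * (4 * (2 / 3) - 1)) ≤ 0 :=
        mul_nonpos_of_nonneg_of_nonpos (by linarith) (by nlinarith)
      have t2 : (A - 2 / 3) * (3 * a ^ 2 - W * (4 * a - 1)) ≤ 0 :=
        mul_nonpos_of_nonneg_of_nonpos (by linarith) (by linarith)
      have t3 : 0 ≤ (a - 2 / 3) * (3 * ((A - 2 / 3) * (a - A))) := by positivity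
      linarith
    by_contra hc
    have hc' : 0 < 3 * A ^ 2 - W * (4 * A - 1) := by linarith [lt_of_not_ge hc]
    have := mul_pos hd hc'
    linarith

/-- A band: the near-dictator case at threshold `1 - 2 η`, the far case at level-one cap `W`. -/
theorem band_ineq {η W : ℚ} {ρ : ℝ} (hn : NearConcl η ρ) (hf : FarConcl W 0 ρ)
    (hη : (2 : ℝ) / 3 ≤ 1 - 2 * (η : ℝ)) (hW : (4 : ℝ) / 5 ≤ (W : ℝ))
    (hcap : 3 * (1 - 2 * (η : ℝ)) ^ 2 ≤ (W : ℝ) * (4 * (1 - 2 * (η : ℝ)) - 1))
    (F : (Fin n → Bool) → ℝ) (hF : ∀ x, F x = 1 ∨ F x = -1) :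
    (∑ y, Psi (noise ρ F y)) / 2 ^ n ≤ Psi ρ + Psi (hat F ∅) := by
  set a : ℝ := 1 - 2 * (η : ℝ) with ha
  -- the far step
  have hfar : lev1 F ≤ (W : ℝ) →
      (∑ y, Psi (noise ρ F y)) / 2 ^ n ≤ Psi ρ + Psi (hat F ∅) := by
    intro hl
    by_cases hμ : 0 ≤ hat F ∅
    · exact hf n F hF (by simpa using hμ) hl
    · apply ineq_of_neg
      apply hf n _ (neg_cases hF)
      · rw [hat_neg]
        push_cast
        linarith [lt_of_not_ge hμ]
      · rw [lev1_neg]; exact hl
  rcases isEmpty_or_nonempty (Fin n) with hemp | hne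
  · apply hfar
    have : lev1 F = 0 := by
      unfold lev1
      simp
    rw [this]
    linarith
  · obtain ⟨i, -, hi⟩ := Finset.exists_max_image Finset.univ (fun j : Fin n => |hat F {j}|)
      Finset.univ_nonempty
    have hmax : ∀ j, |hat F {j}| ≤ |hat F {i}| := fun j => hi j (Finset.mem_univ j)
    by_cases hA : a ≤ |hat F {i}|
    · by_cases hs : 0 ≤ hat F {i}
      · rw [abs_of_nonneg hs] at hA
        exact hn n F hF i hA
      · rw [abs_of_neg (lt_of_not_ge hs)] at hA
        apply ineq_of_neg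
        apply hn n _ (neg_cases hF) i
        rw [hat_neg]
        exact hA
    · apply hfar
      have hA' : |hat F {i}| < a := lt_of_not_ge hA
      by_cases h23 : |hat F {i}| ≤ 2 / 3
      · exact (lev1_le_four_fifths hF hmax h23).trans hW
      · have h23' : 2 / 3 < |hat F {i}| := lt_of_not_ge h23
        have hpos : 0 < |hat F {i}| := by linarith
        have h1 := lev1_pair hF hpos
        have h2 := link_cap h23'.le hA'.le hW hcap
        have h3 : 0 < 4 * |hat F {i}| - 1 := by linarith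
        exact le_of_mul_le_mul_right (h1.trans h2) h3

/-- The inequality for `ρ ≤ 89/100`. -/
theorem ineq_low {ρ : ℝ} (h0 : 0 ≤ ρ) (h1 : ρ ≤ 89 / 100)
    (F : (Fin n → Bool) → ℝ) (hF : ∀ x, F x = 1 ∨ F x = -1) :
    (∑ y, Psi (noise ρ F y)) / 2 ^ n ≤ Psi ρ + Psi (hat F ∅) := by
  by_cases hA : ρ ≤ 2 / 5
  · have := core hF h0 hA
    simpa only [Fintype.card_fin] using this
  have hA' : (2 : ℝ) / 5 < ρ := lt_of_not_ge hA
  by_cases hB : ρ ≤ 12 / 25
  · obtain ⟨c, l, hl⟩ : ∃ c l, nearA = c :: l := ⟨_, _, rfl⟩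
    obtain ⟨d, m, hm⟩ : ∃ d m, farA = d :: m := ⟨_, _, rfl⟩
    have hn : NearConcl (1 / 10) ρ := by
      refine nearChain_sound c l (2 / 5) (12 / 25) (hl ▸ nearA_ok) ?_ ?_
      · push_cast; exact hA'.le
      · push_cast; exact hB
    have hf : FarConcl (48 / 55) 0 ρ := by
      refine farChain_sound d m (2 / 5) (12 / 25) (hm ▸ farA_ok) ?_ ?_
      · push_cast; exact hA'.le
      · push_cast; exact hB
    exact band_ineq hn hf (by norm_num) (by norm_num) (by norm_num) F hF
  have hB' : (12 : ℝ) / 25 < ρ := lt_of_not_ge hB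
  by_cases hC : ρ ≤ 4 / 5
  · obtain ⟨c, l, hl⟩ : ∃ c l, nearB = c :: l := ⟨_, _, rfl⟩
    obtain ⟨d, m, hm⟩ : ∃ d m, farB = d :: m := ⟨_, _, rfl⟩
    have hn : NearConcl (1 / 8) ρ := by
      refine nearChain_sound c l (12 / 25) (4 / 5) (hl ▸ nearB_ok) ?_ ?_
      · push_cast; exact hB'.le
      · push_cast; exact hC
    have hf : FarConcl (27 / 32) 0 ρ := by
      refine farChain_sound d m (12 / 25) (4 / 5) (hm ▸ farB_ok) ?_ ?_
      · push_cast; exact hB'.le
      · push_cast; exact hC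
    exact band_ineq hn hf (by norm_num) (by norm_num) (by norm_num) F hF
  have hC' : (4 : ℝ) / 5 < ρ := lt_of_not_ge hC
  obtain ⟨c, l, hl⟩ : ∃ c l, nearC = c :: l := ⟨_, _, rfl⟩
  obtain ⟨d, m, hm⟩ : ∃ d m, farC = d :: m := ⟨_, _, rfl⟩
  have hn : NearConcl (1 / 6) ρ := by
    refine nearChain_sound c l (4 / 5) (89 / 100) (hl ▸ nearC_ok) ?_ ?_
    · push_cast; exact hC'.le
    · push_cast; exact h1
  have hf : FarConcl (4 / 5) 0 ρ := by
    refine farChain_sound d m (4 / 5) (89 / 100) (hm ▸ farC_ok) ?_ ?_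
    · push_cast; exact hC'.le
    · push_cast; exact h1
  exact band_ineq hn hf (by norm_num) (by norm_num) (by norm_num) F hF

/-- The inequality for `ρ ≥ 89/100` and a function of mean at least `1/5` in absolute value. -/
theorem ineq_high {ρ : ℝ} (h0 : 89 / 100 ≤ ρ) (h1 : ρ ≤ 1)
    (F : (Fin n → Bool) → ℝ) (hF : ∀ x, F x = 1 ∨ F x = -1) (hμ : 1 / 5 ≤ |hat F ∅|) :
    (∑ y, Psi (noise ρ F y)) / 2 ^ n ≤ Psi ρ + Psi (hat F ∅) := by
  obtain ⟨d, m, hm⟩ : ∃ d m, farD = d :: m := ⟨_, _, rfl⟩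
  have hf : FarConcl (4 / 5) (1 / 5) ρ := by
    refine farChain_sound d m (89 / 100) 1 (hm ▸ farD_ok) ?_ ?_
    · push_cast; exact h0
    · push_cast; exact h1
  by_cases hs : 0 ≤ hat F ∅
  · rw [abs_of_nonneg hs] at hμ
    apply hf n F hF
    · push_cast; exact hμ
    · have := lev1_le_one_sub hF
      push_cast
      linarith
  · rw [abs_of_neg (lt_of_not_ge hs)] at hμ
    apply ineq_of_neg
    apply hf n _ (neg_cases hF)
    · rw [hat_neg]
      push_cast
      exact hμ
    · have := lev1_le_one_sub (neg_cases hF)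
      rw [hat_neg] at this
      push_cast
      linarith

/-- The target value in terms of `Psi`, for all crossover probabilities in `[0, 1/2]`. -/
lemma one_sub_h2' {ε : ℝ} (h0 : 0 ≤ ε) (h1 : ε ≤ 1 / 2) :
    1 - h2 ε = Psi (1 - 2 * ε) / Real.log 2 := by
  rcases eq_or_lt_of_le h0 with h | h
  · subst h
    have hl : Real.log 2 ≠ 0 := (Real.log_pos (by norm_num)).ne'
    unfold h2 Psi
    norm_num
  · exact one_sub_h2 h (by linarith)

/-- The mean of the sign form in terms of the number of points where `f` is true. -/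
lemma hat_sgf_empty (f : (Fin n → Bool) → Bool) :
    hat (sgf f) ∅ = 2 * (((Finset.univ.filter fun x => f x = true).card : ℝ) / 2 ^ n - 1 / 2) := by
  have hN : (2 : ℝ) ^ n ≠ 0 := by positivity
  have h1 := sum_eq_hat_empty (sgf f)
  simp only [Fintype.card_fin] at h1
  have h2 : ∑ x, sgf f x = 2 * ((Finset.univ.filter fun x => f x = true).card : ℝ) - 2 ^ n := by
    have e : ∀ x, sgf f x = 2 * (if f x = true then (1 : ℝ) else 0) - 1 := by
      intro x
      unfold sgf
      cases f x <;> simp [sg] <;> norm_num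
    simp_rw [e]
    rw [Finset.sum_sub_distrib, ← Finset.mul_sum, Finset.sum_boole]
    simp [Finset.card_univ]
  rw [h2] at h1
  field_simp
  linarith

/-- The Courtade-Kumar inequality for every Boolean function at crossover `ε ≥ 11/200`, and for
every Boolean function with `|P(f = 1) - 1/2| ≥ 1/10` at every crossover `ε`. -/
theorem ck_main (f : (Fin n → Bool) → Bool) {ε : ℝ} (h0 : 0 ≤ ε) (h1 : ε ≤ 1 / 2)
    (h : 11 / 200 ≤ ε ∨
      1 / 10 ≤ |((Finset.univ.filter fun x => f x = true).card : ℝ) / 2 ^ n - 1 / 2|) :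
    mutualInfo f ε ≤ 1 - h2 ε := by
  rw [mutualInfo_eq f h0 (by linarith), one_sub_h2' h0 h1]
  have hl : 0 < Real.log 2 := Real.log_pos (by norm_num)
  have hρ0 : 0 ≤ 1 - 2 * ε := by linarith
  have hρ1 : 1 - 2 * ε ≤ 1 := by linarith
  have key : (∑ y, Psi (noise (1 - 2 * ε) (sgf f) y)) / 2 ^ n
      ≤ Psi (1 - 2 * ε) + Psi (hat (sgf f) ∅) := by
    by_cases hc : 1 - 2 * ε ≤ 89 / 100
    · exact ineq_low hρ0 hc _ (sgf_cases f)
    · have hc' : 89 / 100 < 1 - 2 * ε := lt_of_not_ge hc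
      refine ineq_high hc'.le hρ1 _ (sgf_cases f) ?_
      rcases h with h | h
      · linarith
      · rw [hat_sgf_empty, abs_mul, abs_of_pos (by norm_num : (0 : ℝ) < 2)]
        linarith
  apply div_le_div_of_nonneg_right _ hl.le
  linarith

end Vale.Agent.Lib.P322
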