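import Vale.Agent.Lib.P322.Main2
import Vale.Agent.Lib.P322.EData

/-! The band of noise parameters above `89/100`, by the link between the level-one weight, the even
weight and the largest coefficient. -/

set_option linter.unusedVariables false
set_option linter.unusedSectionVars false

namespace Vale.Agent.Lib.P322

open Finset Vale.Agent.Lib.P311

variable {n : ℕ}

/-- The polygon below the weight `3/5`. -/
lemma dom_low {F : (Fin n → Bool) → ℝ} (hF : ∀ x, F x = 1 ∨ F x = -1) (h : lev1 F ≤ 3 / 5) :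
    Dominated Vmain (lev1 F) (evenW F) := by
  have hs := evenW_add_lev1_le hF
  refine dom_segment (Wa := 0) (ea := 1) (Wb := 3 / 5) (eb := 2 / 5)
    (by decide +kernel) (by decide +kernel) (P := 1) (Q := 1) (R := 1) (by norm_num)
    (by push_cast; exact lev1_nonneg F) (by push_cast; linarith) (by norm_num) (by linarith)
    (by norm_num) (by norm_num)

/-- The case of small coefficients. -/
lemma dom_small {F : (Fin n → Bool) → ℝ} (hF : ∀ x, F x = 1 ∨ F x = -1)
    (hA : ∀ j, |hat F {j}| ≤ 13 / 50) (hW : lev1 F ≤ 4 / 5) :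
    Dominated Vmain (lev1 F) (evenW F) := by
  by_cases h1 : lev1 F ≤ 3 / 5
  · exact dom_low hF h1
  have h1' : 3 / 5 < lev1 F := lt_of_not_ge h1
  by_cases h2 : lev1 F ≤ 17 / 25
  · have hf := small_facet hF (A := 13 / 50) (by norm_num) hA (τ := 3 / 10) (γ₁ := 6 / 25)
      (α := 169 / 1500) (β := 5 / 12) (γ₀ := 3 / 20) (Wa := 3 / 5) (Wb := 17 / 25)
      (lo := 228 / 625) (hi := 3057 / 5000) (B := 19273527 / 195312500)
      (by norm_num) (by norm_num) (by norm_num) (by norm_num) (by norm_num) (by norm_num)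
      (by norm_num) (by norm_num) h1'.le h2 (by norm_num) (by norm_num) (by norm_num) (by norm_num)
      (by norm_num) (by norm_num) (by norm_num)
    refine dom_segment (Wa := 3 / 5) (ea := 2 / 5) (Wb := 17 / 25) (eb := 1311 / 5000)
      (by decide +kernel) (by decide +kernel) (P := 1 - 169 / 1500 - 5 / 12) (Q := 3 / 10)
      (R := 3 / 10 / 2 + 3 / 20 + 19273527 / 195312500) (by norm_num)
      (by push_cast; linarith) (by push_cast; linarith) (by norm_num) hf
      (by norm_num) (by norm_num)
  have h2' : 17 / 25 < lev1 F := lt_of_not_ge h2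
  by_cases h3 : lev1 F ≤ 37 / 50
  · have hf := small_facet hF (A := 13 / 50) (by norm_num) hA (τ := 23 / 80) (γ₁ := 27 / 100)
      (α := 23 / 250) (β := 10 / 23) (γ₀ := 23 / 160) (Wa := 17 / 25) (Wb := 37 / 50)
      (lo := 489 / 1250) (hi := 1271 / 2000) (B := 1534851477 / 14375000000)
      (by norm_num) (by norm_num) (by norm_num) (by norm_num) (by norm_num) (by norm_num)
      (by norm_num) (by norm_num) h2'.le h3 (by norm_num) (by norm_num) (by norm_num) (by norm_num)
      (by norm_num) (by norm_num) (by norm_num)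
    refine dom_segment (Wa := 17 / 25) (ea := 1311 / 5000) (Wb := 37 / 50) (eb := 387 / 2500)
      (by decide +kernel) (by decide +kernel) (P := 1 - 23 / 250 - 10 / 23) (Q := 23 / 80)
      (R := 23 / 80 / 2 + 23 / 160 + 1534851477 / 14375000000) (by norm_num)
      (by push_cast; linarith) (by push_cast; linarith) (by norm_num) hf
      (by norm_num) (by norm_num)
  have h3' : 37 / 50 < lev1 F := lt_of_not_ge h3
  have hf := small_facet hF (A := 13 / 50) (by norm_num) hA (τ := 17 / 80) (γ₁ := 33 / 100)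
    (α := 17 / 250) (β := 8 / 17) (γ₀ := 17 / 128) (Wa := 37 / 50) (Wb := 4 / 5)
    (lo := 41 / 100) (hi := 6587 / 10000) (B := 2874059 / 21250000)
    (by norm_num) (by norm_num) (by norm_num) (by norm_num) (by norm_num) (by norm_num)
    (by norm_num) (by norm_num) h3'.le hW (by norm_num) (by norm_num) (by norm_num) (by norm_num)
    (by norm_num) (by norm_num) (by norm_num)
  refine dom_segment (Wa := 37 / 50) (ea := 387 / 2500) (Wb := 4 / 5) (eb := 49 / 2000)
    (by decide +kernel) (by decide +kernel) (P := 1 - 17 / 250 - 8 / 17) (Q := 17 / 80)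
    (R := 17 / 80 / 2 + 17 / 128 + 2874059 / 21250000) (by norm_num)
    (by push_cast; linarith) (by push_cast; linarith) (by norm_num) hf
    (by norm_num) (by norm_num)

/-- The case of a coefficient of middle size. -/
lemma dom_middle {F : (Fin n → Bool) → ℝ} (hF : ∀ x, F x = 1 ∨ F x = -1) (i : Fin n)
    (h1 : 13 / 50 ≤ |hat F {i}|) (h2 : |hat F {i}| ≤ 37 / 50) :
    Dominated Vmain (lev1 F) (evenW F) := by
  have hl := lev1_even_link hF i
  have hs := evenW_add_lev1_le hF
  refine dom_mid (C := 2019 / 2500) (by decide +kernel) (by decide +kernel) (by decide +kernel)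
    (lev1_nonneg F) (evenW_nonneg F) (by linarith) ?_
  push_cast
  nlinarith [mul_nonneg (sub_nonneg.mpr h1) (sub_nonneg.mpr h2)]

/-- Either there is a large coefficient or the weights lie in the polygon. -/
lemma band_dichotomy {F : (Fin n → Bool) → ℝ} (hF : ∀ x, F x = 1 ∨ F x = -1) :
    (∃ i, 37 / 50 ≤ |hat F {i}|) ∨ Dominated Vmain (lev1 F) (evenW F) := by
  rcases isEmpty_or_nonempty (Fin n) with hemp | hne
  · right
    apply dom_low hF
    have : lev1 F = 0 := by
      unfold lev1
      simp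
    rw [this]
    norm_num
  · obtain ⟨i, -, hi⟩ := Finset.exists_max_image Finset.univ (fun j : Fin n => |hat F {j}|)
      Finset.univ_nonempty
    have hmax : ∀ j, |hat F {j}| ≤ |hat F {i}| := fun j => hi j (Finset.mem_univ j)
    by_cases hA : 37 / 50 ≤ |hat F {i}|
    · exact Or.inl ⟨i, hA⟩
    · right
      have hA' : |hat F {i}| < 37 / 50 := lt_of_not_ge hA
      by_cases hB : 13 / 50 ≤ |hat F {i}|
      · exact dom_middle hF i hB hA'.le
      · have hB' : |hat F {i}| < 13 / 50 := lt_of_not_ge hB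
        exact dom_small hF (fun j => (hmax j).trans hB'.le)
          (lev1_le_four_fifths hF hmax (by linarith))

/-- The inequality for `89/100 ≤ ρ ≤ 191/200`. -/
theorem ineq_band {ρ : ℝ} (h0 : 89 / 100 ≤ ρ) (h1 : ρ ≤ 191 / 200)
    (F : (Fin n → Bool) → ℝ) (hF : ∀ x, F x = 1 ∨ F x = -1) :
    (∑ y, Psi (noise ρ F y)) / 2 ^ n ≤ Psi ρ + Psi (hat F ∅) := by
  by_cases hμ : 1 / 5 ≤ |hat F ∅|
  · exact ineq_high h0 (by linarith) F hF hμ
  have hμ' : |hat F ∅| < 1 / 5 := lt_of_not_ge hμ
  have hμ2 := abs_lt.mp hμ'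
  obtain ⟨c, l, hl⟩ : ∃ c l, nearE = c :: l := ⟨_, _, rfl⟩
  obtain ⟨d, m, hm⟩ : ∃ d m, farE = d :: m := ⟨_, _, rfl⟩
  have hn : NearConcl (13 / 100) ρ := by
    refine nearChain_sound c l (89 / 100) (191 / 200) (hl ▸ nearE_ok) ?_ ?_
    · push_cast; exact h0
    · push_cast; exact h1
  have hf : FarEConcl Vmain (1 / 5) ρ := by
    refine farChainE_sound d m (89 / 100) (191 / 200) (hm ▸ farE_ok) ?_ ?_
    · push_cast; exact h0
    · push_cast; exact h1
  rcases band_dichotomy hF with ⟨i, hi⟩ | hdom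
  · by_cases hs : 0 ≤ hat F {i}
    · rw [abs_of_nonneg hs] at hi
      exact hn n F hF i (by push_cast; linarith)
    · rw [abs_of_neg (lt_of_not_ge hs)] at hi
      apply ineq_of_neg
      apply hn n _ (neg_cases hF) i
      rw [hat_neg]
      push_cast
      linarith
  · by_cases hs : 0 ≤ hat F ∅
    · exact hf n F hF hs (by push_cast; linarith) hdom
    · have hs' := lt_of_not_ge hs
      apply ineq_of_neg
      apply hf n _ (neg_cases hF)
      · rw [hat_neg]; linarith
      · rw [hat_neg]; push_cast; linarith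
      · rw [lev1_neg, evenW_neg]; exact hdom

/-- The Courtade-Kumar inequality for every Boolean function at crossover `ε ≥ 9/400`, and for
every Boolean function with `|P(f = 1) - 1/2| ≥ 1/10` at every crossover `ε`. -/
theorem ck_main3 (f : (Fin n → Bool) → Bool) {ε : ℝ} (h0 : 0 ≤ ε) (h1 : ε ≤ 1 / 2)
    (h : 9 / 400 ≤ ε ∨
      1 / 10 ≤ |((Finset.univ.filter fun x => f x = true).card : ℝ) / 2 ^ n - 1 / 2|) :
    mutualInfo f ε ≤ 1 - h2 ε := by
  rw [mutualInfo_eq f h0 (by linarith), one_sub_h2' h0 h1]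
  have hl : 0 < Real.log 2 := Real.log_pos (by norm_num)
  have hρ0 : 0 ≤ 1 - 2 * ε := by linarith
  have hρ1 : 1 - 2 * ε ≤ 1 := by linarith
  have key : (∑ y, Psi (noise (1 - 2 * ε) (sgf f) y)) / 2 ^ n
      ≤ Psi (1 - 2 * ε) + Psi (hat (sgf f) ∅) := by
    by_cases hc : 1 - 2 * ε ≤ 89 / 100
    · exact ineq_low hρ0 hc _ (sgf_cases f)
    · have hc' : 89 / 100 < 1 - 2 * ε := lt_of_not_ge hc
      by_cases hd : 1 - 2 * ε ≤ 191 / 200
      · exact ineq_band hc'.le hd _ (sgf_cases f)
      · have hd' : 191 / 200 < 1 - 2 * ε := lt_of_not_ge hd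
        refine ineq_high hc'.le hρ1 _ (sgf_cases f) ?_
        rcases h with h | h
        · linarith
        · rw [hat_sgf_empty, abs_mul, abs_of_pos (by norm_num : (0 : ℝ) < 2)]
          linarith
  apply div_le_div_of_nonneg_right _ hl.le
  linarith

end Vale.Agent.Lib.P322
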