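import Vale.Agent.Lib.P322.Split

/-! Properties of the excess function `Hfun`: monotonicity in the noise parameter and convexity in
the flip level, and the closing of the near-dictator estimate. -/

set_option linter.unusedVariables false
set_option linter.unusedSectionVars false

namespace Vale.Agent.Lib.P322

open Finset Vale.Agent.Lib.P311

lemma psi_nonneg {t : ℝ} (h0 : 0 ≤ t) (h1 : t < 1) : 0 ≤ psi t := by
  unfold psi
  have : Real.log (1 - t) ≤ Real.log (1 + t) :=
    Real.log_le_log (by linarith) (by linarith)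
  linarith

/-- Closed form for the sum of `psi` at the two branch values. -/
lemma psi_branch_sum {ρ a : ℝ} (hρ0 : 0 ≤ ρ) (hρ1 : ρ < 1) (ha0 : 0 ≤ a) (ha1 : a < 1) :
    psi (ρ - (1 + ρ) * a) + psi (ρ + (1 - ρ) * a) ≤ 2 * psi ρ := by
  have hA : 0 < 1 - ρ := by linarith
  have hB : 0 < 1 + ρ := by linarith
  have h1a : 0 < 1 - a := by linarith
  have e1 : 1 + (ρ - (1 + ρ) * a) = (1 + ρ) * (1 - a) := by ring
  have e2 : 1 - (ρ - (1 + ρ) * a) = (1 - ρ) + (1 + ρ) * a := by ring
  have e3 : 1 + (ρ + (1 - ρ) * a) = (1 + ρ) + (1 - ρ) * a := by ring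
  have e4 : 1 - (ρ + (1 - ρ) * a) = (1 - ρ) * (1 - a) := by ring
  have hX : 0 < (1 - ρ) + (1 + ρ) * a := by nlinarith
  have hY : 0 < (1 + ρ) + (1 - ρ) * a := by nlinarith
  unfold psi
  rw [e1, e2, e3, e4, Real.log_mul hB.ne' h1a.ne', Real.log_mul hA.ne' h1a.ne']
  have h5 : Real.log ((1 + ρ) + (1 - ρ) * a) - Real.log ((1 - ρ) + (1 + ρ) * a)
      ≤ Real.log (1 + ρ) - Real.log (1 - ρ) := by
    rw [← Real.log_div hY.ne' hX.ne', ← Real.log_div hB.ne' hA.ne']
    apply Real.log_le_log (div_pos hY hX)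
    rw [div_le_div_iff₀ hX hA]
    nlinarith [mul_nonneg (mul_nonneg hρ0 ha0) (le_refl (0:ℝ))]
  have e6 : ρ + 1 = 1 + ρ := by ring
  simp only [e6] at *
  linarith

/-- The excess function decreases with the noise parameter. -/
lemma Hfun_antitone {a r ρ : ℝ} (ha0 : 0 ≤ a) (ha1 : a ≤ 1) (hr0 : 0 ≤ r) (hrρ : r ≤ ρ)
    (hρ1 : ρ ≤ 1) : Hfun ρ a ≤ Hfun r a := by
  rcases eq_or_lt_of_le ha1 with rfl | ha1'
  · -- the endpoint `a = 1`
    unfold Hfun
    have e1 : ∀ t : ℝ, t - (1 + t) * 1 = -1 := by intro t; ring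
    have e2 : ∀ t : ℝ, t + (1 - t) * 1 = 1 := by intro t; ring
    rw [e1, e2, e1, e2]
    have : Psi r ≤ Psi ρ := by
      have h := Psi_majorize (a := r) (d := r) (b := r) (c := r) (by linarith) (by linarith)
        le_rfl le_rfl le_rfl le_rfl rfl
      -- monotonicity of `Psi` on `[0, 1]` through convexity and evenness
      rcases eq_or_lt_of_le hrρ with rfl | hlt
      · exact le_rfl
      · have hρ0 : 0 < ρ := lt_of_le_of_lt hr0 hlt
        have hm := Psi_majorize (a := r) (d := -r) (b := -ρ) (c := ρ) (by linarith) hρ1 (by linarith)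
          hrρ (by linarith) (by linarith) (by ring)
        rw [Psi_neg, Psi_neg] at hm
        linarith
    linarith
  · -- the interior: derivative in the noise parameter
    rcases eq_or_lt_of_le hrρ with rfl | hlt
    · exact le_rfl
    · -- reduce to `[r, ρ]` with possibly `ρ = 1` handled by continuity
      have hcont : ContinuousOn (fun t : ℝ => Hfun t a) (Set.Icc r ρ) := by
        apply Continuous.continuousOn
        unfold Hfun
        have h1 : Continuous fun t : ℝ => Psi (t - (1 + t) * a) :=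
          continuous_Psi.comp (by fun_prop)
        have h2 : Continuous fun t : ℝ => Psi (t + (1 - t) * a) :=
          continuous_Psi.comp (by fun_prop)
        exact ((h1.add h2).div_const 2).sub continuous_Psi
      have hder : ∀ t ∈ Set.Ioo r ρ, HasDerivAt (fun t : ℝ => Hfun t a)
          ((psi (t - (1 + t) * a) * (1 - a) + psi (t + (1 - t) * a) * (1 - a)) / 2 - psi t) t := by
        intro t ht
        have ht0 : 0 < t := lt_of_le_of_lt hr0 ht.1
        have ht1 : t < 1 := lt_of_lt_of_le ht.2 hρ1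
        have habs : |t| < 1 := by rw [abs_of_pos ht0]; exact ht1
        have hb1 : |t - (1 + t) * a| < 1 := by
          rw [abs_lt]; constructor <;> nlinarith
        have hb2 : |t + (1 - t) * a| < 1 := by
          rw [abs_lt]; constructor <;> nlinarith
        have hin1 : HasDerivAt (fun x : ℝ => x - (1 + x) * a) (1 - a) t := by
          have h1 : HasDerivAt (fun x : ℝ => (1 + x) * a) (1 * a) t :=
            ((hasDerivAt_id t).const_add 1).mul_const a
          have h2 := (hasDerivAt_id' t).fun_sub h1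
          refine HasDerivAt.congr_deriv h2 ?_
          ring
        have hin2 : HasDerivAt (fun x : ℝ => x + (1 - x) * a) (1 - a) t := by
          have h1 : HasDerivAt (fun x : ℝ => (1 - x) * a) (-1 * a) t :=
            ((hasDerivAt_id t).const_sub 1).mul_const a
          have h2 := (hasDerivAt_id' t).fun_add h1
          refine HasDerivAt.congr_deriv h2 ?_
          ring
        have d1 := (hasDerivAt_Psi hb1).comp t hin1
        have d2 := (hasDerivAt_Psi hb2).comp t hin2
        have d3 := hasDerivAt_Psi habs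
        exact ((d1.add d2).div_const 2).sub d3
      have hanti : AntitoneOn (fun t : ℝ => Hfun t a) (Set.Icc r ρ) := by
        apply antitoneOn_of_deriv_nonpos (convex_Icc r ρ) hcont
        · intro t ht
          rw [interior_Icc] at ht
          exact (hder t ht).differentiableAt.differentiableWithinAt
        · intro t ht
          rw [interior_Icc] at ht
          rw [(hder t ht).deriv]
          have ht0 : 0 < t := lt_of_le_of_lt hr0 ht.1
          have ht1 : t < 1 := lt_of_lt_of_le ht.2 hρ1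
          have h := psi_branch_sum ht0.le ht1 ha0 ha1'
          have hp := psi_nonneg ht0.le ht1
          set P := psi (t - (1 + t) * a) + psi (t + (1 - t) * a) with hP
          have e : (psi (t - (1 + t) * a) * (1 - a) + psi (t + (1 - t) * a) * (1 - a)) / 2 - psi t
              = (P * (1 - a)) / 2 - psi t := by rw [hP]; ring
          rw [e]
          by_cases hP0 : 0 ≤ P
          · have : P * (1 - a) ≤ P := by nlinarith
            linarith
          · have : P * (1 - a) ≤ 0 := by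
              apply mul_nonpos_of_nonpos_of_nonneg (by linarith) (by linarith)
            linarith
      exact hanti (Set.left_mem_Icc.mpr hrρ) (Set.right_mem_Icc.mpr hrρ) hrρ

/-- Convexity of the excess function in the flip level. -/
lemma Hfun_convex {ρ a b l m : ℝ} (hρ0 : 0 ≤ ρ) (hρ1 : ρ ≤ 1) (ha0 : 0 ≤ a) (ha1 : a ≤ 1)
    (hb0 : 0 ≤ b) (hb1 : b ≤ 1) (hl : 0 ≤ l) (hm : 0 ≤ m) (hlm : l + m = 1) :
    Hfun ρ (l * a + m * b) ≤ l * Hfun ρ a + m * Hfun ρ b := by
  have hA : 0 ≤ 1 - ρ := by linarith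
  have hB : 0 ≤ 1 + ρ := by linarith
  have ba1 : |ρ - (1 + ρ) * a| ≤ 1 := by
    rw [abs_le]; constructor <;> nlinarith [mul_nonneg hB ha0]
  have bb1 : |ρ - (1 + ρ) * b| ≤ 1 := by
    rw [abs_le]; constructor <;> nlinarith [mul_nonneg hB hb0]
  have ba2 : |ρ + (1 - ρ) * a| ≤ 1 := by
    rw [abs_le]; constructor <;> nlinarith [mul_nonneg hA ha0]
  have bb2 : |ρ + (1 - ρ) * b| ≤ 1 := by
    rw [abs_le]; constructor <;> nlinarith [mul_nonneg hA hb0]
  have h1 := Psi_convex ba1 bb1 hl hm hlm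
  have h2 := Psi_convex ba2 bb2 hl hm hlm
  have e1 : l * (ρ - (1 + ρ) * a) + m * (ρ - (1 + ρ) * b) = ρ - (1 + ρ) * (l * a + m * b) := by
    have : l * (ρ - (1 + ρ) * a) + m * (ρ - (1 + ρ) * b)
        = (l + m) * ρ - (1 + ρ) * (l * a + m * b) := by ring
    rw [this, hlm, one_mul]
  have e2 : l * (ρ + (1 - ρ) * a) + m * (ρ + (1 - ρ) * b) = ρ + (1 - ρ) * (l * a + m * b) := by
    have : l * (ρ + (1 - ρ) * a) + m * (ρ + (1 - ρ) * b)
        = (l + m) * ρ + (1 - ρ) * (l * a + m * b) := by ring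
    rw [this, hlm, one_mul]
  rw [e1] at h1
  rw [e2] at h2
  unfold Hfun
  have e3 : l * Psi ρ + m * Psi ρ = Psi ρ := by
    rw [← add_mul, hlm, one_mul]
  nlinarith

lemma Hfun_zero (ρ : ℝ) : Hfun ρ 0 = 0 := by
  unfold Hfun; simp

/-- Chord principle on the first interval. -/
lemma H_le_first {ρ c₁ c₂ b a : ℝ} (hρ0 : 0 ≤ ρ) (hρ1 : ρ ≤ 1) (hb0 : 0 < b) (hb1 : b ≤ 1)
    (hc₂ : 0 ≤ c₂) (hb : Hfun ρ b ≤ - c₁ * b) (ha0 : 0 ≤ a) (hab : a ≤ b) :
    Hfun ρ a ≤ - c₁ * a + c₂ * a ^ 2 := by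
  set l := (b - a) / b with hl
  set m := a / b with hm
  have hl0 : 0 ≤ l := div_nonneg (by linarith) hb0.le
  have hm0 : 0 ≤ m := div_nonneg ha0 hb0.le
  have hlm : l + m = 1 := by rw [hl, hm]; field_simp; ring
  have ea : l * 0 + m * b = a := by rw [hm]; field_simp; ring
  have h := Hfun_convex (a := 0) (b := b) hρ0 hρ1 le_rfl (by norm_num) hb0.le hb1 hl0 hm0 hlm
  rw [ea, Hfun_zero, mul_zero, zero_add] at h
  have h2 : m * Hfun ρ b ≤ m * (- c₁ * b) := mul_le_mul_of_nonneg_left hb hm0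
  have e2 : m * (- c₁ * b) = - c₁ * a := by
    rw [hm]; field_simp
  have h3 : 0 ≤ c₂ * a ^ 2 := by positivity
  linarith

/-- Chord principle on a later interval. -/
lemma H_le_chord {ρ c₁ c₂ u v a : ℝ} (hρ0 : 0 ≤ ρ) (hρ1 : ρ ≤ 1) (hu0 : 0 ≤ u) (huv : u < v)
    (hv1 : v ≤ 1) (hc₂ : 0 ≤ c₂)
    (hu : Hfun ρ u ≤ - c₁ * u + c₂ * u ^ 2 - c₂ * (v - u) ^ 2 / 4)
    (hv : Hfun ρ v ≤ - c₁ * v + c₂ * v ^ 2 - c₂ * (v - u) ^ 2 / 4)
    (hua : u ≤ a) (hav : a ≤ v) :
    Hfun ρ a ≤ - c₁ * a + c₂ * a ^ 2 := by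
  have hw : 0 < v - u := by linarith
  set l := (v - a) / (v - u) with hl
  set m := (a - u) / (v - u) with hm
  have hl0 : 0 ≤ l := div_nonneg (by linarith) hw.le
  have hm0 : 0 ≤ m := div_nonneg (by linarith) hw.le
  have hlm : l + m = 1 := by rw [hl, hm]; field_simp; ring
  have ea : l * u + m * v = a := by rw [hl, hm]; field_simp; ring
  have h := Hfun_convex hρ0 hρ1 hu0 (by linarith) (by linarith) hv1 hl0 hm0 hlm
  rw [ea] at h
  have h1 := mul_le_mul_of_nonneg_left hu hl0
  have h2 := mul_le_mul_of_nonneg_left hv hm0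
  -- the parabola versus its chord
  have ea' : a = l * u + m * v := ea.symm
  have hm' : m = 1 - l := by linarith
  have key : l * (- c₁ * u + c₂ * u ^ 2 - c₂ * (v - u) ^ 2 / 4)
      + m * (- c₁ * v + c₂ * v ^ 2 - c₂ * (v - u) ^ 2 / 4) ≤ - c₁ * a + c₂ * a ^ 2 := by
    rw [ea', hm']
    have hs : 0 ≤ c₂ * ((v - u) ^ 2 * (2 * l - 1) ^ 2) / 4 := by positivity
    nlinarith [hs]
  linarith

/-- Closing the near-dictator estimate: a real-number form. -/
lemma near_close {x y c₁ c₂ η τ s : ℝ} (hx : 0 ≤ x) (hy : 0 ≤ y) (hsum : x + y ≤ 2 * η)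
    (hη : 0 < η) (hc₂ : 0 ≤ c₂) (hτ : 0 ≤ τ) (hs0 : 0 ≤ s) (hs1 : s ≤ 1)
    (hτη : η ^ s ≤ τ) (h1 : c₂ * τ ≤ c₁) (h2 : c₂ * τ * (1 + s) - η ≤ c₁)
    (hPsi : (y - x) ^ 2 / 2 ≤ Psi (y - x)) :
    c₂ * (x ^ (1 + s) + y ^ (1 + s)) ≤ c₁ * (x + y) + Psi (y - x) := by
  -- Bernoulli: each power is below a quadratic
  have hB : ∀ z : ℝ, 0 ≤ z → z ^ (1 + s) ≤ τ * ((1 - s) * z + s / η * z ^ 2) := by
    intro z hz
    rcases eq_or_lt_of_le hz with rfl | hzpos
    · rw [Real.zero_rpow (by linarith)]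
      simp
    · have e : z ^ (1 + s) = z * z ^ s := by
        rw [Real.rpow_add hzpos, Real.rpow_one]
      have e2 : z ^ s = η ^ s * (1 + (z / η - 1)) ^ s := by
        have hq : 0 ≤ 1 + (z / η - 1) := by
          have : 0 < z / η := div_pos hzpos hη
          linarith
        rw [← Real.mul_rpow hη.le hq]
        congr 1
        field_simp
        ring
      have hb := rpow_one_add_le_one_add_mul_self (s := z / η - 1) (p := s)
        (by have : 0 < z / η := div_pos hzpos hη
            linarith) hs0 hs1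
      have h3 : (1 + (z / η - 1)) ^ s ≤ 1 + s * (z / η - 1) := hb
      have h4 : 0 ≤ (1 + (z / η - 1)) ^ s := by
        apply Real.rpow_nonneg
        have : 0 < z / η := div_pos hzpos hη
        linarith
      have h5 : z ^ s ≤ τ * (1 + s * (z / η - 1)) := by
        rw [e2]
        exact mul_le_mul hτη h3 h4 hτ
      rw [e]
      calc z * z ^ s ≤ z * (τ * (1 + s * (z / η - 1))) := mul_le_mul_of_nonneg_left h5 hz
        _ = τ * ((1 - s) * z + s / η * z ^ 2) := by
            field_simp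
            ring
  have h3 := hB x hx
  have h4 := hB y hy
  have hq : x ^ 2 + y ^ 2 = ((x + y) ^ 2 + (y - x) ^ 2) / 2 := by ring
  set S := x + y with hS
  have hS0 : 0 ≤ S := by positivity
  have hmS : (y - x) ^ 2 ≤ S ^ 2 := by rw [hS]; nlinarith [mul_nonneg hx hy]
  set T := c₂ * τ with hT
  have hT0 : 0 ≤ T := mul_nonneg hc₂ hτ
  have h5 : c₂ * (x ^ (1 + s) + y ^ (1 + s))
      ≤ T * ((1 - s) * S + s / η * (x ^ 2 + y ^ 2)) := by
    have := mul_le_mul_of_nonneg_left (add_le_add h3 h4) hc₂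
    calc _ ≤ _ := this
      _ = _ := by rw [hT, hS]; ring
  rw [hq] at h5
  have h6 : S ^ 2 ≤ 2 * η * S := by nlinarith
  have hsη : 0 ≤ s / η := div_nonneg hs0 hη.le
  have h7 : T * ((1 - s) * S + s / η * ((S ^ 2 + (y - x) ^ 2) / 2))
      ≤ T * S + T * (s / (2 * η)) * (y - x) ^ 2 := by
    have h8 : s / η * (S ^ 2 / 2) ≤ s * S := by
      have : s / η * (S ^ 2 / 2) ≤ s / η * ((2 * η * S) / 2) :=
        mul_le_mul_of_nonneg_left (by linarith) hsη
      have e : s / η * ((2 * η * S) / 2) = s * S := by field_simp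
      linarith
    have e1 : T * ((1 - s) * S + s / η * ((S ^ 2 + (y - x) ^ 2) / 2))
        = T * (1 - s) * S + T * (s / η * (S ^ 2 / 2)) + T * (s / (2 * η)) * (y - x) ^ 2 := by
      field_simp
      ring
    rw [e1]
    have := mul_le_mul_of_nonneg_left h8 hT0
    nlinarith
  -- split according to the size of the coefficient of the square
  set Y := T * (s / (2 * η)) with hY
  by_cases hY1 : Y ≤ 1 / 2
  · have h9 : Y * (y - x) ^ 2 ≤ (y - x) ^ 2 / 2 := by nlinarith [sq_nonneg (y - x)]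
    have h10 : T * S ≤ c₁ * S := mul_le_mul_of_nonneg_right h1 hS0
    linarith
  · have hY2 : 1 / 2 < Y := lt_of_not_ge hY1
    have h9 : (Y - 1 / 2) * (y - x) ^ 2 ≤ (Y - 1 / 2) * S ^ 2 :=
      mul_le_mul_of_nonneg_left hmS (by linarith)
    have h10 : (Y - 1 / 2) * S ^ 2 ≤ (Y - 1 / 2) * (2 * η * S) :=
      mul_le_mul_of_nonneg_left h6 (by linarith)
    have e3 : (Y - 1 / 2) * (2 * η * S) = (T * s - η) * S := by
      rw [hY]; field_simp
    have h11 : (T + (T * s - η)) * S ≤ c₁ * S := by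
      apply mul_le_mul_of_nonneg_right _ hS0
      linarith
    have e4 : (T + (T * s - η)) * S = T * S + (T * s - η) * S := by ring
    have e5 : Y * (y - x) ^ 2 = (Y - 1 / 2) * (y - x) ^ 2 + (y - x) ^ 2 / 2 := by ring
    linarith

end Vale.Agent.Lib.P322
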