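import Vale.Agent.Lib.P322.Check

/-! The near-dictator case, with a computable check of the numerical hypotheses. -/

set_option linter.unusedVariables false
set_option linter.unusedSectionVars false

namespace Vale.Agent.Lib.P322

open Finset Vale.Agent.Lib.P311

variable {n : ℕ}

lemma Psi_ge_sq {t : ℝ} (ht : |t| ≤ 1) : t ^ 2 / 2 ≤ Psi t := by
  have hs := hasSum_Psi ht
  have hn : ∀ k : ℕ, 0 ≤ ee k * t ^ (2 * k + 2) := by
    intro k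
    apply mul_nonneg (ee_nonneg k)
    have : t ^ (2 * k + 2) = (t ^ (k + 1)) ^ 2 := by ring
    rw [this]; positivity
  have := le_hasSum hs 0 (fun j _ => hn j)
  have e : ee 0 * t ^ (2 * 0 + 2) = t ^ 2 / 2 := by
    unfold ee; norm_num; ring
  rwa [e] at this

lemma sum_G_bounds {G : (Fin n → Bool) → ℝ} (hG : ∀ x, G x = 0 ∨ G x = 1) :
    0 ≤ (∑ x, G x) / 2 ^ n ∧ (∑ x, G x) / 2 ^ n ≤ 1 := by
  have hN : (0 : ℝ) < 2 ^ n := by positivity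
  constructor
  · apply div_nonneg _ hN.le
    apply Finset.sum_nonneg
    intro x _
    rcases hG x with h | h <;> simp [h]
  · rw [div_le_one hN]
    calc ∑ x, G x ≤ ∑ x : Fin n → Bool, (1 : ℝ) := by
          apply Finset.sum_le_sum
          intro x _
          rcases hG x with h | h <;> simp [h]
      _ = 2 ^ n := by simp [Finset.card_univ]

/-- The near-dictator case. -/
theorem near_final {F : (Fin n → Bool) → ℝ} (hF : ∀ x, F x = 1 ∨ F x = -1) (i : Fin n)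
    {ρ c₁ c₂ σ s η τ : ℝ} (hρ0 : 0 ≤ ρ) (hρ1 : ρ ≤ 1) (hc₂ : 0 ≤ c₂)
    (hH : ∀ a : ℝ, 0 ≤ a → a ≤ 1 → Hfun ρ a ≤ - c₁ * a + c₂ * a ^ 2)
    (hσ : ρ ^ 2 ≤ σ) (hs0 : 0 ≤ s) (hs1 : s ≤ 1) (hσs : σ * (1 + s) ≤ 1 - s)
    (hη : 0 < η) (hτ : 0 ≤ τ) (hτη : η ^ s ≤ τ) (h1 : c₂ * τ ≤ c₁)
    (h2 : c₂ * τ * (1 + s) - η ≤ c₁) (hai : 1 - 2 * η ≤ hat F {i}) :
    (∑ y, Psi (noise ρ F y)) / 2 ^ n ≤ Psi ρ + Psi (hat F ∅) := by
  have hb := near_bound hF i hρ0 hρ1 hc₂ hH hσ hs0 hs1 hσs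
  set x := (∑ x, Gp F i x) / 2 ^ n with hx
  set y := (∑ x, Gm F i x) / 2 ^ n with hy
  obtain ⟨hx0, hx1⟩ := sum_G_bounds (Gp_cases hF i)
  obtain ⟨hy0, hy1⟩ := sum_G_bounds (Gm_cases hF i)
  have hmean : hat F ∅ = y - x := hat_empty_split F i
  have hsingle : hat F {i} = 1 - x - y := hat_single_split F i
  rw [hmean]
  have hsum : x + y ≤ 2 * η := by rw [hsingle] at hai; linarith
  have habs : |y - x| ≤ 1 := by
    rw [abs_le]; constructor <;> linarith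
  have hclose := near_close hx0 hy0 hsum hη hc₂ hτ hs0 hs1 hτη h1 h2 (Psi_ge_sq habs)
  linarith

lemma rpow_le_of_pow_le {η τ : ℝ} {a b : ℕ} (hη : 0 ≤ η) (hτ : 0 ≤ τ) (hb : b ≠ 0)
    (h : η ^ a ≤ τ ^ b) : η ^ ((a : ℝ) / (b : ℝ)) ≤ τ := by
  have hb' : (b : ℝ) ≠ 0 := by exact_mod_cast hb
  apply le_of_pow_le_pow_left₀ hb hτ
  rw [← Real.rpow_natCast (η ^ ((a : ℝ) / (b : ℝ))) b, ← Real.rpow_mul hη]
  have : (a : ℝ) / (b : ℝ) * (b : ℝ) = (a : ℝ) := by field_simp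
  rw [this, Real.rpow_natCast]
  exact h

/-- The data of a near-dictator cell. -/
structure NearCell where
  r₁ : ℚ
  r₂ : ℚ
  c₁ : ℚ
  c₂ : ℚ
  b : ℚ
  nodes : List ℚ
  sn : ℕ
  sd : ℕ
  τ : ℚ

/-- The numerical check for a near-dictator cell, with threshold parameter `η`. -/
def NearCell.ok (c : NearCell) (η : ℚ) : Bool :=
  let s : ℚ := (c.sn : ℚ) / (c.sd : ℚ)
  decide (0 ≤ c.r₁) && decide (c.r₂ ≤ 1) && decide (0 ≤ c.c₂) && decide (0 < c.sd)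
    && decide (c.sn ≤ c.sd) && decide (c.r₂ ^ 2 * (1 + s) ≤ 1 - s) && decide (0 < η)
    && decide (0 ≤ c.τ) && decide (η ^ c.sn ≤ c.τ ^ c.sd) && decide (c.c₂ * c.τ ≤ c.c₁)
    && decide (c.c₂ * c.τ * (1 + s) - η ≤ c.c₁) && HcheckOK c.r₁ c.c₁ c.c₂ c.b c.nodes

/-- What a near-dictator check delivers. -/
def NearConcl (η : ℚ) (ρ : ℝ) : Prop :=
  ∀ (n : ℕ) (F : (Fin n → Bool) → ℝ), (∀ x, F x = 1 ∨ F x = -1) → ∀ i : Fin n,
    1 - 2 * (η : ℝ) ≤ hat F {i} →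
    (∑ y, Psi (noise ρ F y)) / 2 ^ n ≤ Psi ρ + Psi (hat F ∅)

theorem NearCell.sound {c : NearCell} {η : ℚ} (h : c.ok η = true) {ρ : ℝ} (h1 : (c.r₁ : ℝ) ≤ ρ)
    (h2 : ρ ≤ (c.r₂ : ℝ)) : NearConcl η ρ := by
  simp only [NearCell.ok, Bool.and_eq_true, decide_eq_true_eq] at h
  obtain ⟨⟨⟨⟨⟨⟨⟨⟨⟨⟨⟨hr0, hr1⟩, hc₂⟩, hsd⟩, hsn⟩, hsig⟩, hη⟩, hτ⟩, hτη⟩, hA⟩, hB⟩, hC⟩ := h
  intro n F hF i hai
  have hr0' : (0 : ℝ) ≤ (c.r₁ : ℝ) := by exact_mod_cast hr0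
  have hr1' : (c.r₂ : ℝ) ≤ 1 := by exact_mod_cast hr1
  have hρ0 : 0 ≤ ρ := hr0'.trans h1
  have hρ1 : ρ ≤ 1 := h2.trans hr1'
  have hc₂' : (0 : ℝ) ≤ (c.c₂ : ℝ) := by exact_mod_cast hc₂
  have hsd' : (0 : ℝ) < (c.sd : ℝ) := by exact_mod_cast hsd
  have hsn' : (c.sn : ℝ) ≤ (c.sd : ℝ) := by exact_mod_cast hsn
  have hη' : (0 : ℝ) < (η : ℝ) := by exact_mod_cast hη
  have hτ' : (0 : ℝ) ≤ (c.τ : ℝ) := by exact_mod_cast hτ
  have hsig' := (Rat.cast_le (K := ℝ)).mpr hsig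
  have hA' := (Rat.cast_le (K := ℝ)).mpr hA
  have hB' := (Rat.cast_le (K := ℝ)).mpr hB
  have hτη' := (Rat.cast_le (K := ℝ)).mpr hτη
  push_cast at hsig' hA' hB' hτη'
  refine near_final hF i (c₁ := (c.c₁ : ℝ)) (c₂ := (c.c₂ : ℝ)) (σ := (c.r₂ : ℝ) ^ 2)
    (s := (c.sn : ℝ) / (c.sd : ℝ)) (η := (η : ℝ)) (τ := (c.τ : ℝ)) hρ0 hρ1 hc₂' ?_ ?_ ?_ ?_ hsig'
    hη' hτ' ?_ hA' hB' hai
  · intro a ha0 ha1
    refine (Hfun_antitone ha0 ha1 hr0' h1 hρ1).trans ?_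
    exact HcheckOK_sound hr0 (by
      have : (c.r₁ : ℝ) ≤ 1 := h1.trans hρ1
      exact_mod_cast this) hc₂ hC a ha0 ha1
  · exact pow_le_pow_left₀ hρ0 h2 2
  · positivity
  · rw [div_le_one hsd']; exact hsn'
  · exact rpow_le_of_pow_le hη'.le hτ' (by omega) hτη'

/-- A chain of near-dictator cells covering an interval. -/
def nearChain (η : ℚ) : ℚ → List NearCell → ℚ → Bool
  | lo, [], hi => decide (hi ≤ lo)
  | lo, c :: l, hi => decide (c.r₁ ≤ lo) && c.ok η && nearChain η c.r₂ l hi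

lemma nearChain_sound_strict {η : ℚ} (l : List NearCell) (lo hi : ℚ)
    (h : nearChain η lo l hi = true) {ρ : ℝ} (h1 : (lo : ℝ) < ρ) (h2 : ρ ≤ (hi : ℝ)) :
    NearConcl η ρ := by
  induction l generalizing lo with
  | nil =>
    simp only [nearChain, decide_eq_true_eq] at h
    have : (hi : ℝ) ≤ (lo : ℝ) := by exact_mod_cast h
    linarith
  | cons c l ih =>
    simp only [nearChain, Bool.and_eq_true, decide_eq_true_eq] at h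
    obtain ⟨⟨hr, hok⟩, hl⟩ := h
    have hr' : (c.r₁ : ℝ) ≤ (lo : ℝ) := by exact_mod_cast hr
    by_cases hc : ρ ≤ (c.r₂ : ℝ)
    · exact NearCell.sound hok (by linarith) hc
    · exact ih c.r₂ hl (lt_of_not_ge hc)

theorem nearChain_sound {η : ℚ} (c : NearCell) (l : List NearCell) (lo hi : ℚ)
    (h : nearChain η lo (c :: l) hi = true) {ρ : ℝ} (h1 : (lo : ℝ) ≤ ρ) (h2 : ρ ≤ (hi : ℝ)) :
    NearConcl η ρ := by
  simp only [nearChain, Bool.and_eq_true, decide_eq_true_eq] at h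
  obtain ⟨⟨hr, hok⟩, hl⟩ := h
  have hr' : (c.r₁ : ℝ) ≤ (lo : ℝ) := by exact_mod_cast hr
  by_cases hc : ρ ≤ (c.r₂ : ℝ)
  · exact NearCell.sound hok (by linarith) hc
  · exact nearChain_sound_strict l c.r₂ hi hl (lt_of_not_ge hc) h2

end Vale.Agent.Lib.P322
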