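import Mathlib

/-! The function `Psi t = ((1+t) log (1+t) + (1-t) log (1-t)) / 2`, its power series and a
parabola majorant. -/

namespace Vale.Agent.Lib.P322

open Real Finset Filter Topology

/-- The function `((1+t) log (1+t) + (1-t) log (1-t)) / 2`. -/
noncomputable def Psi (t : ℝ) : ℝ := ((1 + t) * log (1 + t) + (1 - t) * log (1 - t)) / 2

/-- The derivative of `Psi`. -/
noncomputable def psi (t : ℝ) : ℝ := (log (1 + t) - log (1 - t)) / 2

/-- Taylor coefficients of `Psi`. -/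
noncomputable def ee (k : ℕ) : ℝ := 1 / ((2 * k + 2) * (2 * k + 1))

lemma ee_nonneg (k : ℕ) : 0 ≤ ee k := by unfold ee; positivity

lemma Psi_neg (t : ℝ) : Psi (-t) = Psi t := by
  unfold Psi
  have h1 : (1 : ℝ) + -t = 1 - t := by ring
  have h2 : (1 : ℝ) - -t = 1 + t := by ring
  rw [h1, h2]; ring

lemma Psi_zero : Psi 0 = 0 := by simp [Psi]

lemma Psi_one : Psi 1 = log 2 := by
  unfold Psi; norm_num

lemma Psi_neg_one : Psi (-1) = log 2 := by
  rw [Psi_neg, Psi_one]

lemma continuous_Psi : Continuous Psi := by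
  unfold Psi
  have h := Real.continuous_mul_log
  have h1 : Continuous fun t : ℝ => (1 + t) * log (1 + t) :=
    h.comp (continuous_const.add continuous_id)
  have h2 : Continuous fun t : ℝ => (1 - t) * log (1 - t) :=
    h.comp (continuous_const.sub continuous_id)
  exact (h1.add h2).div_const _

lemma hasSum_psi {t : ℝ} (h : |t| < 1) :
    HasSum (fun k : ℕ => (1 / (2 * (k : ℝ) + 1)) * t ^ (2 * k + 1)) (psi t) := by
  have := (Real.hasSum_log_sub_log_of_abs_lt_one h).div_const 2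
  have e : (fun k : ℕ => (1 / (2 * (k : ℝ) + 1)) * t ^ (2 * k + 1))
      = fun k : ℕ => (2 : ℝ) * (1 / (2 * (k : ℝ) + 1)) * t ^ (2 * k + 1) / 2 := by
    funext k; ring
  rw [e]; exact this

lemma hasSum_Psi_of_lt {t : ℝ} (h : |t| < 1) :
    HasSum (fun k : ℕ => ee k * t ^ (2 * k + 2)) (Psi t) := by
  have ht2 : |t ^ 2| < 1 := by
    rw [abs_pow]
    exact pow_lt_one₀ (abs_nonneg _) h (by norm_num)
  have h1 := (Real.hasSum_pow_div_log_of_abs_lt_one ht2).div_const 2
  have h2 := (hasSum_psi h).mul_left t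
  have h3 := h2.sub h1
  have hp : 0 < 1 + t := by have := (abs_lt.mp h).1; linarith
  have hm : 0 < 1 - t := by have := (abs_lt.mp h).2; linarith
  have hlog : log (1 - t ^ 2) = log (1 + t) + log (1 - t) := by
    rw [← Real.log_mul hp.ne' hm.ne']; congr 1; ring
  have e1 : (fun k : ℕ => ee k * t ^ (2 * k + 2)) = fun k : ℕ =>
      t * (1 / (2 * (k : ℝ) + 1) * t ^ (2 * k + 1)) - (t ^ 2) ^ (k + 1) / ((k : ℝ) + 1) / 2 := by
    funext k
    unfold ee
    have hk1 : (2 * (k : ℝ) + 1) ≠ 0 := by positivity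
    have hk2 : ((k : ℝ) + 1) ≠ 0 := by positivity
    have hk3 : (2 * (k : ℝ) + 2) ≠ 0 := by positivity
    have e1 : t ^ (2 * k + 2) = t * t ^ (2 * k + 1) := by ring
    have e2 : (t ^ 2) ^ (k + 1) = t * t ^ (2 * k + 1) := by ring
    rw [e2, e1]
    field_simp
    ring
  have e2 : Psi t = t * psi t - -log (1 - t ^ 2) / 2 := by
    rw [hlog]; unfold Psi psi; ring
  rw [e1, e2]; exact h3

lemma Psi_le_log_two {t : ℝ} (h0 : 0 ≤ t) (h1 : t ≤ 1) : Psi t ≤ log 2 := by
  unfold Psi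
  have h2 : log (1 + t) ≤ log 2 := Real.log_le_log (by linarith) (by linarith)
  have h3 : (1 - t) * log (1 - t) ≤ 0 := by
    rcases eq_or_lt_of_le h1 with h | h
    · subst h; simp
    · exact mul_nonpos_of_nonneg_of_nonpos (by linarith) (Real.log_nonpos (by linarith) (by linarith))
  have h4 : (1 + t) * log (1 + t) ≤ 2 * log 2 :=
    mul_le_mul (by linarith) h2 (Real.log_nonneg (by linarith)) (by norm_num)
  linarith

lemma sum_ee_le (N : ℕ) : ∑ k ∈ range N, ee k ≤ log 2 := by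
  have hcont : Continuous fun t : ℝ => ∑ k ∈ range N, ee k * t ^ (2 * k + 2) := by
    continuity
  have hlim : Tendsto (fun t : ℝ => ∑ k ∈ range N, ee k * t ^ (2 * k + 2)) (𝓝[<] 1)
      (𝓝 (∑ k ∈ range N, ee k * (1 : ℝ) ^ (2 * k + 2))) :=
    (hcont.tendsto 1).mono_left nhdsWithin_le_nhds
  have hval : ∑ k ∈ range N, ee k * (1 : ℝ) ^ (2 * k + 2) = ∑ k ∈ range N, ee k := by simp
  rw [hval] at hlim
  refine le_of_tendsto hlim ?_
  have : Set.Ioo (0 : ℝ) 1 ∈ 𝓝[<] (1 : ℝ) := Ioo_mem_nhdsLT (by norm_num)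
  filter_upwards [this] with t ht
  have habs : |t| < 1 := by rw [abs_of_pos ht.1]; exact ht.2
  have hs := hasSum_Psi_of_lt habs
  have := sum_le_hasSum (range N) (fun k _ => mul_nonneg (ee_nonneg k)
    (pow_nonneg ht.1.le _)) hs
  exact this.trans (Psi_le_log_two ht.1.le ht.2.le)

lemma summable_ee : Summable ee :=
  summable_of_sum_range_le ee_nonneg sum_ee_le

lemma hasSum_ee : HasSum ee (log 2) := by
  have hs := summable_ee.hasSum
  have hle : ∑' k, ee k ≤ log 2 := by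
    exact Real.tsum_le_of_sum_range_le ee_nonneg sum_ee_le
  have hge : log 2 ≤ ∑' k, ee k := by
    have hlim : Tendsto Psi (𝓝[<] 1) (𝓝 (Psi 1)) :=
      (continuous_Psi.tendsto 1).mono_left nhdsWithin_le_nhds
    rw [Psi_one] at hlim
    refine le_of_tendsto hlim ?_
    have : Set.Ioo (0 : ℝ) 1 ∈ 𝓝[<] (1 : ℝ) := Ioo_mem_nhdsLT (by norm_num)
    filter_upwards [this] with t ht
    have habs : |t| < 1 := by rw [abs_of_pos ht.1]; exact ht.2
    refine hasSum_le (fun k => ?_) (hasSum_Psi_of_lt habs) hs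
    have hp : t ^ (2 * k + 2) ≤ 1 := pow_le_one₀ ht.1.le ht.2.le
    exact mul_le_of_le_one_right (ee_nonneg k) hp
  have : ∑' k, ee k = log 2 := le_antisymm hle hge
  rwa [this] at hs

lemma hasSum_Psi {t : ℝ} (h : |t| ≤ 1) :
    HasSum (fun k : ℕ => ee k * t ^ (2 * k + 2)) (Psi t) := by
  rcases lt_or_eq_of_le h with h' | h'
  · exact hasSum_Psi_of_lt h'
  · have ht : t ^ 2 = 1 := by
      rw [← sq_abs, h']; norm_num
    have hpow : ∀ k : ℕ, t ^ (2 * k + 2) = 1 := by
      intro k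
      have : t ^ (2 * k + 2) = (t ^ 2) ^ (k + 1) := by ring
      rw [this, ht, one_pow]
    have hval : Psi t = log 2 := by
      rcases abs_eq (by norm_num : (0:ℝ) ≤ 1) |>.mp h' with h1 | h1
      · rw [h1, Psi_one]
      · rw [h1, Psi_neg_one]
    rw [hval]
    simp only [hpow, mul_one]
    exact hasSum_ee

/-- Polynomials with positive coefficients governing the second divided difference of powers. -/
noncomputable def Dp : ℕ → ℝ → ℝ → ℝ
  | 0, _, _ => 1
  | n + 1, t, u => t * Dp n t u + ((n : ℝ) + 2) * u ^ (n + 1)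

lemma Dp_identity (n : ℕ) (t u : ℝ) :
    t ^ (n + 2) - u ^ (n + 2) - ((n : ℝ) + 2) * u ^ (n + 1) * (t - u) = (t - u) ^ 2 * Dp n t u := by
  induction n with
  | zero => simp [Dp]; ring
  | succ n ih =>
    have : (t - u) ^ 2 * Dp (n + 1) t u
        = t * ((t - u) ^ 2 * Dp n t u) + (t - u) ^ 2 * (((n : ℝ) + 2) * u ^ (n + 1)) := by
      simp only [Dp]; ring
    rw [this, ← ih]
    push_cast
    ring

lemma Dp_abs_le (n : ℕ) {t u U : ℝ} (ht : |t| ≤ 1) (hu : |u| ≤ U) :
    |Dp n t u| ≤ Dp n 1 U := by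
  induction n with
  | zero => simp [Dp]
  | succ n ih =>
    simp only [Dp]
    have h1 : |t * Dp n t u| ≤ Dp n 1 U := by
      rw [abs_mul]
      calc |t| * |Dp n t u| ≤ 1 * |Dp n t u| :=
            mul_le_mul_of_nonneg_right ht (abs_nonneg _)
        _ ≤ Dp n 1 U := by rw [one_mul]; exact ih
    have h2 : |((n : ℝ) + 2) * u ^ (n + 1)| ≤ ((n : ℝ) + 2) * U ^ (n + 1) := by
      rw [abs_mul, abs_pow, abs_of_nonneg (by positivity : (0:ℝ) ≤ (n : ℝ) + 2)]
      exact mul_le_mul_of_nonneg_left (pow_le_pow_left₀ (abs_nonneg _) hu _) (by positivity)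
    calc |t * Dp n t u + ((n : ℝ) + 2) * u ^ (n + 1)|
        ≤ |t * Dp n t u| + |((n : ℝ) + 2) * u ^ (n + 1)| := abs_add_le _ _
      _ ≤ 1 * Dp n 1 U + ((n : ℝ) + 2) * U ^ (n + 1) := by
          rw [one_mul]; exact add_le_add h1 h2

/-- Parabola bound for the Bregman divergence of `Psi`. -/
theorem bregman_le {t u U : ℝ} (ht : |t| ≤ 1) (hu : |u| ≤ U) (hU : U < 1) :
    (1 - U) ^ 2 * (Psi t - Psi u - psi u * (t - u)) ≤ (t - u) ^ 2 * (log 2 - log (1 + U)) := by
  have hU0 : 0 ≤ U := (abs_nonneg u).trans hu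
  have hu1 : |u| < 1 := lt_of_le_of_lt hu hU
  have hUabs : |U| < 1 := by rw [abs_of_nonneg hU0]; exact hU
  -- left series
  have hL : HasSum (fun k : ℕ => (1 - U) ^ 2 *
      (ee k * t ^ (2 * k + 2) - ee k * u ^ (2 * k + 2)
        - (1 / (2 * (k : ℝ) + 1)) * u ^ (2 * k + 1) * (t - u)))
      ((1 - U) ^ 2 * (Psi t - Psi u - psi u * (t - u))) :=
    (((hasSum_Psi ht).sub (hasSum_Psi_of_lt hu1)).sub ((hasSum_psi hu1).mul_right (t - u))).mul_left _
  -- right series
  have hval : log 2 - Psi U - psi U * (1 - U) = log 2 - log (1 + U) := by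
    unfold Psi psi; ring
  have hR : HasSum (fun k : ℕ => (t - u) ^ 2 *
      (ee k * (1:ℝ) ^ (2 * k + 2) - ee k * U ^ (2 * k + 2)
        - (1 / (2 * (k : ℝ) + 1)) * U ^ (2 * k + 1) * (1 - U)))
      ((t - u) ^ 2 * (log 2 - log (1 + U))) := by
    rw [← hval, ← Psi_one]
    exact (((hasSum_Psi (by simp)).sub (hasSum_Psi_of_lt hUabs)).sub
      ((hasSum_psi hUabs).mul_right (1 - U))).mul_left _
  refine hasSum_le (fun k => ?_) hL hR
  have hk : (2 * (k : ℝ) + 2) ≠ 0 := by positivity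
  have hk1 : (2 * (k : ℝ) + 1) ≠ 0 := by positivity
  have hid : ∀ a b : ℝ, ee k * a ^ (2 * k + 2) - ee k * b ^ (2 * k + 2)
      - (1 / (2 * (k : ℝ) + 1)) * b ^ (2 * k + 1) * (a - b) = ee k * ((a - b) ^ 2 * Dp (2 * k) a b) := by
    intro a b
    rw [← Dp_identity (2 * k) a b]
    unfold ee
    push_cast
    field_simp
  rw [hid t u, hid 1 U]
  have hD : Dp (2 * k) t u ≤ Dp (2 * k) 1 U :=
    (le_abs_self _).trans (Dp_abs_le _ ht hu)
  have h1 : 0 ≤ ee k := ee_nonneg k
  have : (1 - U) ^ 2 * (ee k * ((t - u) ^ 2 * Dp (2 * k) t u))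
      = (1 - U) ^ 2 * (t - u) ^ 2 * ee k * Dp (2 * k) t u := by ring
  rw [this]
  have : (t - u) ^ 2 * (ee k * ((1 - U) ^ 2 * Dp (2 * k) 1 U))
      = (1 - U) ^ 2 * (t - u) ^ 2 * ee k * Dp (2 * k) 1 U := by ring
  rw [this]
  exact mul_le_mul_of_nonneg_left hD (by positivity)

lemma hasDerivAt_Psi {t : ℝ} (h : |t| < 1) : HasDerivAt Psi (psi t) t := by
  have hp : 0 < 1 + t := by have := (abs_lt.mp h).1; linarith
  have hm : 0 < 1 - t := by have := (abs_lt.mp h).2; linarith
  have h1 : HasDerivAt (fun x : ℝ => 1 + x) 1 t := by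
    simpa using (hasDerivAt_id t).const_add 1
  have h2 : HasDerivAt (fun x : ℝ => 1 - x) (-1) t := by
    simpa using (hasDerivAt_id t).const_sub 1
  have h3 := h1.mul (h1.log hp.ne')
  have h4 := h2.mul (h2.log hm.ne')
  have h5 := (h3.add h4).div_const 2
  have e : Psi = fun y => ((1 + y) * log (1 + y) + (1 - y) * log (1 - y)) / 2 := rfl
  rw [e]
  refine HasDerivAt.congr_deriv h5 ?_
  unfold psi
  field_simp
  ring

lemma hasDerivAt_psi {t : ℝ} (h : |t| < 1) : HasDerivAt psi (1 / (1 - t ^ 2)) t := by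
  have hp : 0 < 1 + t := by have := (abs_lt.mp h).1; linarith
  have hm : 0 < 1 - t := by have := (abs_lt.mp h).2; linarith
  have h1 : HasDerivAt (fun x : ℝ => 1 + x) 1 t := by
    simpa using (hasDerivAt_id t).const_add 1
  have h2 : HasDerivAt (fun x : ℝ => 1 - x) (-1) t := by
    simpa using (hasDerivAt_id t).const_sub 1
  have h5 := ((h1.log hp.ne').sub (h2.log hm.ne')).div_const 2
  have e : psi = fun y => (log (1 + y) - log (1 - y)) / 2 := rfl
  rw [e]
  refine HasDerivAt.congr_deriv h5 ?_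
  have : 1 - t ^ 2 = (1 + t) * (1 - t) := by ring
  rw [this]
  field_simp
  ring

/-- The increment of `psi` is at least the increment of the variable. -/
lemma psi_sub_ge {x y : ℝ} (hx : |x| < 1) (hy : |y| < 1) (hxy : x ≤ y) :
    y - x ≤ psi y - psi x := by
  have hconv : Convex ℝ (Set.Icc x y) := convex_Icc x y
  have hmem : ∀ z ∈ Set.Icc x y, |z| < 1 := by
    intro z hz
    rw [abs_lt]
    have h1 := (abs_lt.mp hx).1
    have h2 := (abs_lt.mp hy).2
    exact ⟨by linarith [hz.1], by linarith [hz.2]⟩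
  have hcont : ContinuousOn psi (Set.Icc x y) := fun z hz =>
    (hasDerivAt_psi (hmem z hz)).continuousAt.continuousWithinAt
  have hdiff : DifferentiableOn ℝ psi (interior (Set.Icc x y)) := fun z hz =>
    (hasDerivAt_psi (hmem z (interior_subset hz))).differentiableAt.differentiableWithinAt
  have hder : ∀ z ∈ interior (Set.Icc x y), (1:ℝ) ≤ deriv psi z := by
    intro z hz
    have hz' := hmem z (interior_subset hz)
    rw [(hasDerivAt_psi hz').deriv]
    have : 0 < 1 - z ^ 2 := by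
      have := sq_lt_one_iff_abs_lt_one z |>.mpr hz'
      linarith
    rw [le_div_iff₀ this]
    nlinarith [sq_nonneg z]
  have := hconv.mul_sub_le_image_sub_of_le_deriv hcont hdiff hder x (Set.left_mem_Icc.mpr hxy)
    y (Set.right_mem_Icc.mpr hxy) hxy
  linarith

/-- Upper bound on the increment of `psi`. -/
lemma psi_sub_le {x y A : ℝ} (hx : |x| ≤ A) (hy : |y| ≤ A) (hA : A < 1) (hxy : x ≤ y) :
    psi y - psi x ≤ (y - x) * (1 / (1 - A ^ 2)) := by
  have hconv : Convex ℝ (Set.Icc x y) := convex_Icc x y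
  have hmem : ∀ z ∈ Set.Icc x y, |z| ≤ A := by
    intro z hz
    rw [abs_le]
    have h1 := (abs_le.mp hx).1
    have h2 := (abs_le.mp hy).2
    exact ⟨by linarith [hz.1], by linarith [hz.2]⟩
  have hcont : ContinuousOn psi (Set.Icc x y) := fun z hz =>
    (hasDerivAt_psi (lt_of_le_of_lt (hmem z hz) hA)).continuousAt.continuousWithinAt
  have hdiff : DifferentiableOn ℝ psi (interior (Set.Icc x y)) := fun z hz =>
    (hasDerivAt_psi (lt_of_le_of_lt (hmem z (interior_subset hz)) hA)).differentiableAt.differentiableWithinAt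
  have hA0 : 0 ≤ A := (abs_nonneg x).trans hx
  have hder : ∀ z ∈ interior (Set.Icc x y), deriv psi z ≤ 1 / (1 - A ^ 2) := by
    intro z hz
    have hz' := hmem z (interior_subset hz)
    rw [(hasDerivAt_psi (lt_of_le_of_lt hz' hA)).deriv]
    have h1 : z ^ 2 ≤ A ^ 2 := by
      rw [← sq_abs z]; exact pow_le_pow_left₀ (abs_nonneg _) hz' 2
    have h2 : A ^ 2 < 1 := by nlinarith
    apply one_div_le_one_div_of_le <;> linarith
  have := hconv.image_sub_le_mul_sub_of_deriv_le hcont hdiff hder x (Set.left_mem_Icc.mpr hxy)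
    y (Set.right_mem_Icc.mpr hxy) hxy
  linarith

end Vale.Agent.Lib.P322
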