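import Vale.Agent.Lib.P322.Hyper

/-! Splitting a `± 1`-valued function along one coordinate: the near-dictator estimate. -/

set_option linter.unusedVariables false
set_option linter.unusedSectionVars false

namespace Vale.Agent.Lib.P322

open Finset Vale.Agent.Lib.P311

variable {n : ℕ}

/-- Set one coordinate of a vertex. -/
def upd (x : Fin n → Bool) (i : Fin n) (b : Bool) : Fin n → Bool := Function.update x i b

lemma upd_self (x : Fin n → Bool) (i : Fin n) (b : Bool) : upd x i b i = b := by simp [upd]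

lemma upd_of_ne (x : Fin n → Bool) {i j : Fin n} (h : j ≠ i) (b : Bool) : upd x i b j = x j := by
  simp [upd, Function.update_of_ne h]

lemma upd_cases (x : Fin n → Bool) (i : Fin n) (φ : (Fin n → Bool) → ℝ) :
    φ (upd x i true) + φ (upd x i false) = φ x + φ (flp x i) := by
  have h1 : upd x i (x i) = x := by simp [upd]
  have h2 : upd x i (!x i) = flp x i := rfl
  cases hx : x i
  · have e1 : upd x i false = x := by rw [← hx]; exact h1
    have e2 : upd x i true = flp x i := by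
      rw [← h2, hx]; rfl
    rw [e1, e2]; ring
  · have e1 : upd x i true = x := by rw [← hx]; exact h1
    have e2 : upd x i false = flp x i := by
      rw [← h2, hx]; rfl
    rw [e1, e2]

/-- Summing over the cube after averaging out one coordinate. -/
lemma sum_upd (i : Fin n) (φ : (Fin n → Bool) → ℝ) :
    ∑ x, φ x = (∑ x, (φ (upd x i true) + φ (upd x i false))) / 2 := by
  have h1 : ∑ x, (φ (upd x i true) + φ (upd x i false)) = ∑ x, (φ x + φ (flp x i)) :=
    Finset.sum_congr rfl fun x _ => upd_cases x i φ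
  rw [h1, Finset.sum_add_distrib, sum_flp]
  ring

/-- The correlation vector with a zero at coordinate `i`. -/
def rv (ρ : ℝ) (i : Fin n) : Fin n → ℝ := fun j => if j = i then 0 else ρ

lemma kern_eq_mul_kernV (ρ : ℝ) (i : Fin n) (x y : Fin n → Bool) :
    kern ρ x y = (1 + ρ * (sg (x i) * sg (y i))) * kernV (rv ρ i) x y := by
  unfold kern kernV
  rw [← Finset.mul_prod_erase Finset.univ _ (Finset.mem_univ i),
    ← Finset.mul_prod_erase Finset.univ
      (fun j => (1 + rv ρ i j * (sg (x j) * sg (y j))) / 2) (Finset.mem_univ i)]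
  have : ∏ j ∈ Finset.univ.erase i, (1 + ρ * (sg (x j) * sg (y j))) / 2
      = ∏ j ∈ Finset.univ.erase i, (1 + rv ρ i j * (sg (x j) * sg (y j))) / 2 := by
    apply Finset.prod_congr rfl
    intro j hj
    have : j ≠ i := Finset.ne_of_mem_erase hj
    simp [rv, this]
  rw [this]
  simp only [rv, if_true]
  ring

lemma kernV_upd_left (ρ : ℝ) (i : Fin n) (x y : Fin n → Bool) (b : Bool) :
    kernV (rv ρ i) (upd x i b) y = kernV (rv ρ i) x y := by
  unfold kernV
  apply Finset.prod_congr rfl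
  intro j _
  by_cases h : j = i
  · subst h; simp [rv]
  · rw [upd_of_ne _ h]

lemma kernV_upd_right (ρ : ℝ) (i : Fin n) (x y : Fin n → Bool) (b : Bool) :
    kernV (rv ρ i) x (upd y i b) = kernV (rv ρ i) x y := by
  unfold kernV
  apply Finset.prod_congr rfl
  intro j _
  by_cases h : j = i
  · subst h; simp [rv]
  · rw [upd_of_ne _ h]

lemma kernV_comm (r : Fin n → ℝ) (x y : Fin n → Bool) : kernV r x y = kernV r y x := by
  unfold kernV
  apply Finset.prod_congr rfl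
  intro j _
  rw [mul_comm (sg (x j))]

lemma sum_kernV (r : Fin n → ℝ) (y : Fin n → Bool) : ∑ x, kernV r x y = 1 := by
  unfold kernV
  have := (Finset.prod_univ_sum (fun _ : Fin n => (Finset.univ : Finset Bool))
    (fun j b => (1 + r j * (sg b * sg (y j))) / 2))
  rw [Fintype.piFinset_univ] at this
  rw [← this]
  apply Finset.prod_eq_one
  intro j _
  rw [Fintype.sum_bool]
  simp only [sg_true, sg_false]
  ring

lemma kernV_nonneg {r : Fin n → ℝ} (hr : ∀ j, |r j| ≤ 1) (x y : Fin n → Bool) :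
    0 ≤ kernV r x y := by
  unfold kernV
  apply Finset.prod_nonneg
  intro j _
  have h1 := (abs_le.mp (hr j)).1
  have h2 := (abs_le.mp (hr j)).2
  cases x j <;> cases y j <;> simp [sg] <;> linarith

lemma noiseV_nonneg {r : Fin n → ℝ} (hr : ∀ j, |r j| ≤ 1) {G : (Fin n → Bool) → ℝ}
    (hG : ∀ x, G x = 0 ∨ G x = 1) (y : Fin n → Bool) : 0 ≤ noiseV r G y := by
  unfold noiseV
  apply Finset.sum_nonneg
  intro x _
  apply mul_nonneg (kernV_nonneg hr x y)
  rcases hG x with h | h <;> simp [h]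

lemma noiseV_le_one {r : Fin n → ℝ} (hr : ∀ j, |r j| ≤ 1) {G : (Fin n → Bool) → ℝ}
    (hG : ∀ x, G x = 0 ∨ G x = 1) (y : Fin n → Bool) : noiseV r G y ≤ 1 := by
  unfold noiseV
  calc ∑ x, kernV r x y * G x ≤ ∑ x, kernV r x y := by
        apply Finset.sum_le_sum
        intro x _
        apply mul_le_of_le_one_right (kernV_nonneg hr x y)
        rcases hG x with h | h <;> simp [h]
    _ = 1 := sum_kernV r y

lemma sum_noiseV (r : Fin n → ℝ) (G : (Fin n → Bool) → ℝ) : ∑ y, noiseV r G y = ∑ x, G x := by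
  unfold noiseV
  rw [Finset.sum_comm]
  apply Finset.sum_congr rfl
  intro x _
  rw [← Finset.sum_mul]
  simp_rw [kernV_comm r x]
  rw [sum_kernV, one_mul]

lemma noiseV_upd (ρ : ℝ) (i : Fin n) (G : (Fin n → Bool) → ℝ) (y : Fin n → Bool) (b : Bool) :
    noiseV (rv ρ i) G (upd y i b) = noiseV (rv ρ i) G y := by
  unfold noiseV
  apply Finset.sum_congr rfl
  intro x _
  rw [kernV_upd_right]

/-- The flip indicator on the half cube where coordinate `i` is true. -/
noncomputable def Gp (F : (Fin n → Bool) → ℝ) (i : Fin n) (x : Fin n → Bool) : ℝ :=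
  (1 - F (upd x i true)) / 2

/-- The flip indicator on the half cube where coordinate `i` is false. -/
noncomputable def Gm (F : (Fin n → Bool) → ℝ) (i : Fin n) (x : Fin n → Bool) : ℝ :=
  (1 + F (upd x i false)) / 2

lemma Gp_cases {F : (Fin n → Bool) → ℝ} (hF : ∀ x, F x = 1 ∨ F x = -1) (i : Fin n)
    (x : Fin n → Bool) : Gp F i x = 0 ∨ Gp F i x = 1 := by
  unfold Gp
  rcases hF (upd x i true) with h | h <;> simp [h]

lemma Gm_cases {F : (Fin n → Bool) → ℝ} (hF : ∀ x, F x = 1 ∨ F x = -1) (i : Fin n)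
    (x : Fin n → Bool) : Gm F i x = 0 ∨ Gm F i x = 1 := by
  unfold Gm
  rcases hF (upd x i false) with h | h <;> simp [h]

/-- The noisy function in terms of the two noisy flip indicators. -/
lemma noise_split (ρ : ℝ) (F : (Fin n → Bool) → ℝ) (i : Fin n) (y : Fin n → Bool) :
    noise ρ F y = ρ * sg (y i) - (1 + ρ * sg (y i)) * noiseV (rv ρ i) (Gp F i) y
      + (1 - ρ * sg (y i)) * noiseV (rv ρ i) (Gm F i) y := by
  rw [noise_eq_sum_kern, sum_upd i]
  set s := sg (y i) with hs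
  have e : ∀ x : Fin n → Bool, (kern ρ (upd x i true) y * F (upd x i true)
      + kern ρ (upd x i false) y * F (upd x i false))
      = kernV (rv ρ i) x y * (2 * (ρ * s)) + (-(2 * (1 + ρ * s))) * (kernV (rv ρ i) x y * Gp F i x)
        + (2 * (1 - ρ * s)) * (kernV (rv ρ i) x y * Gm F i x) := by
    intro x
    rw [kern_eq_mul_kernV ρ i, kern_eq_mul_kernV ρ i, kernV_upd_left, kernV_upd_left, upd_self,
      upd_self]
    simp only [sg_true, sg_false, Gp, Gm, ← hs]
    ring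
  simp_rw [e]
  rw [Finset.sum_add_distrib, Finset.sum_add_distrib, ← Finset.mul_sum, ← Finset.mul_sum,
    ← Finset.sum_mul, sum_kernV]
  unfold noiseV
  ring

/-- The first branch value. -/
def tOne (ρ a b : ℝ) : ℝ := ρ - (1 + ρ) * a + (1 - ρ) * b

/-- The second branch value. -/
def tTwo (ρ a b : ℝ) : ℝ := ρ + (1 - ρ) * a - (1 + ρ) * b

lemma noise_upd_true (ρ : ℝ) (F : (Fin n → Bool) → ℝ) (i : Fin n) (y : Fin n → Bool) :
    noise ρ F (upd y i true)
      = tOne ρ (noiseV (rv ρ i) (Gp F i) y) (noiseV (rv ρ i) (Gm F i) y) := by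
  rw [noise_split ρ F i, noiseV_upd, noiseV_upd, upd_self]
  simp only [sg_true, tOne]
  ring

lemma noise_upd_false (ρ : ℝ) (F : (Fin n → Bool) → ℝ) (i : Fin n) (y : Fin n → Bool) :
    noise ρ F (upd y i false)
      = - tTwo ρ (noiseV (rv ρ i) (Gp F i) y) (noiseV (rv ρ i) (Gm F i) y) := by
  rw [noise_split ρ F i, noiseV_upd, noiseV_upd, upd_self]
  simp only [sg_false, tTwo]
  ring

/-- The quantity `E Psi(T F)` as an average over the two branches. -/
lemma sum_Psi_split (ρ : ℝ) (F : (Fin n → Bool) → ℝ) (i : Fin n) :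
    ∑ y, Psi (noise ρ F y)
      = ∑ y, (Psi (tOne ρ (noiseV (rv ρ i) (Gp F i) y) (noiseV (rv ρ i) (Gm F i) y))
          + Psi (tTwo ρ (noiseV (rv ρ i) (Gp F i) y) (noiseV (rv ρ i) (Gm F i) y))) / 2 := by
  rw [sum_upd i, Finset.sum_div]
  apply Finset.sum_congr rfl
  intro y _
  rw [noise_upd_true, noise_upd_false, Psi_neg]

/-- Mean of `F` in terms of the flip densities. -/
lemma hat_empty_split (F : (Fin n → Bool) → ℝ) (i : Fin n) :
    hat F ∅ = (∑ x, Gm F i x) / 2 ^ n - (∑ x, Gp F i x) / 2 ^ n := by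
  unfold hat
  simp only [chi_empty, mul_one, Fintype.card_fin]
  rw [sum_upd i]
  have h : ∑ x : Fin n → Bool, (F (upd x i true) + F (upd x i false))
      = 2 * ∑ x, Gm F i x - 2 * ∑ x, Gp F i x := by
    rw [Finset.mul_sum, Finset.mul_sum, ← Finset.sum_sub_distrib]
    apply Finset.sum_congr rfl
    intro x _
    simp only [Gp, Gm]
    ring
  rw [h]
  field_simp

lemma chi_singleton (i : Fin n) (x : Fin n → Bool) : chi {i} x = sg (x i) := by
  simp [chi]

/-- The coefficient of coordinate `i` in terms of the flip densities. -/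
lemma hat_single_split (F : (Fin n → Bool) → ℝ) (i : Fin n) :
    hat F {i} = 1 - (∑ x, Gp F i x) / 2 ^ n - (∑ x, Gm F i x) / 2 ^ n := by
  unfold hat
  simp only [chi_singleton, Fintype.card_fin]
  rw [sum_upd i]
  have hcard : ∑ x : Fin n → Bool, (1 : ℝ) = 2 ^ n := by
    simp [Finset.card_univ]
  have h : ∑ x : Fin n → Bool, (F (upd x i true) * sg (upd x i true i)
      + F (upd x i false) * sg (upd x i false i))
      = 2 * ∑ x : Fin n → Bool, (1 : ℝ) - 2 * ∑ x, Gp F i x - 2 * ∑ x, Gm F i x := by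
    rw [Finset.mul_sum, Finset.mul_sum, Finset.mul_sum, ← Finset.sum_sub_distrib,
      ← Finset.sum_sub_distrib]
    apply Finset.sum_congr rfl
    intro x _
    rw [upd_self, upd_self]
    simp only [Gp, Gm, sg_true, sg_false]
    ring
  rw [h, hcard]
  field_simp

/-- Convexity of `Psi` on `[-1, 1]`. -/
lemma Psi_convex {x y l m : ℝ} (hx : |x| ≤ 1) (hy : |y| ≤ 1) (hl : 0 ≤ l) (hm : 0 ≤ m)
    (hlm : l + m = 1) : Psi (l * x + m * y) ≤ l * Psi x + m * Psi y := by
  have hc := Real.convexOn_mul_log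
  have hx1 := abs_le.mp hx
  have hy1 := abs_le.mp hy
  have h1 := hc.2 (show (1 + x) ∈ Set.Ici (0 : ℝ) by simp; linarith)
    (show (1 + y) ∈ Set.Ici (0 : ℝ) by simp; linarith) hl hm hlm
  have h2 := hc.2 (show (1 - x) ∈ Set.Ici (0 : ℝ) by simp; linarith)
    (show (1 - y) ∈ Set.Ici (0 : ℝ) by simp; linarith) hl hm hlm
  simp only [smul_eq_mul] at h1 h2
  have e1 : l * (1 + x) + m * (1 + y) = 1 + (l * x + m * y) := by
    have : l * (1 + x) + m * (1 + y) = (l + m) + (l * x + m * y) := by ring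
    rw [this, hlm]
  have e2 : l * (1 - x) + m * (1 - y) = 1 - (l * x + m * y) := by
    have : l * (1 - x) + m * (1 - y) = (l + m) - (l * x + m * y) := by ring
    rw [this, hlm]
  rw [e1] at h1
  rw [e2] at h2
  unfold Psi
  nlinarith

/-- Two-point majorisation for `Psi`. -/
lemma Psi_majorize {a d b c : ℝ} (hb : -1 ≤ b) (hc : c ≤ 1) (h1 : b ≤ a) (h2 : a ≤ c) (h3 : b ≤ d)
    (h4 : d ≤ c) (hsum : a + d = b + c) : Psi a + Psi d ≤ Psi b + Psi c := by
  rcases eq_or_lt_of_le (h1.trans h2) with h | h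
  · have e1 : a = b := by linarith
    have e2 : d = b := by linarith
    have e3 : c = b := by linarith
    rw [e1, e2, e3]
  · have hpos : 0 < c - b := by linarith
    have hb' : |b| ≤ 1 := by rw [abs_le]; constructor <;> linarith
    have hc' : |c| ≤ 1 := by rw [abs_le]; constructor <;> linarith
    set l := (c - a) / (c - b) with hl
    set m := (a - b) / (c - b) with hm
    have hl0 : 0 ≤ l := div_nonneg (by linarith) hpos.le
    have hm0 : 0 ≤ m := div_nonneg (by linarith) hpos.le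
    have hlm : l + m = 1 := by
      rw [hl, hm]; field_simp; ring
    have ea : a = l * b + m * c := by
      rw [hl, hm]; field_simp; ring
    have ed : d = m * b + l * c := by
      have : d = b + c - a := by linarith
      rw [this, hl, hm]; field_simp; ring
    have h5 := Psi_convex hb' hc' hl0 hm0 hlm
    have h6 := Psi_convex hb' hc' hm0 hl0 (by linarith)
    rw [← ea] at h5
    rw [← ed] at h6
    have : l * Psi b + m * Psi c + (m * Psi b + l * Psi c) = (l + m) * (Psi b + Psi c) := by ring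
    rw [hlm] at this
    linarith

/-- The one-variable excess function. -/
noncomputable def Hfun (ρ a : ℝ) : ℝ :=
  (Psi (ρ - (1 + ρ) * a) + Psi (ρ + (1 - ρ) * a)) / 2 - Psi ρ

/-- Submodularity: the two flip densities do not interact badly. -/
lemma branch_le {ρ a b : ℝ} (hρ0 : 0 ≤ ρ) (hρ1 : ρ ≤ 1) (ha0 : 0 ≤ a) (ha1 : a ≤ 1) (hb0 : 0 ≤ b)
    (hb1 : b ≤ 1) :
    (Psi (tOne ρ a b) + Psi (tTwo ρ a b)) / 2 ≤ Psi ρ + Hfun ρ a + Hfun ρ b := by
  have hA : 0 ≤ 1 - ρ := by linarith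
  have hB : 0 ≤ 1 + ρ := by linarith
  have h1 : Psi (tOne ρ a b) + Psi ρ ≤ Psi (ρ - (1 + ρ) * a) + Psi (ρ + (1 - ρ) * b) := by
    apply Psi_majorize
    · nlinarith
    · nlinarith
    · unfold tOne; nlinarith [mul_nonneg hA hb0]
    · unfold tOne; nlinarith [mul_nonneg hB ha0]
    · nlinarith [mul_nonneg hB ha0]
    · nlinarith [mul_nonneg hA hb0]
    · unfold tOne; ring
  have h2 : Psi (tTwo ρ a b) + Psi ρ ≤ Psi (ρ - (1 + ρ) * b) + Psi (ρ + (1 - ρ) * a) := by
    apply Psi_majorize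
    · nlinarith
    · nlinarith
    · unfold tTwo; nlinarith [mul_nonneg hA ha0]
    · unfold tTwo; nlinarith [mul_nonneg hB hb0]
    · nlinarith [mul_nonneg hB hb0]
    · nlinarith [mul_nonneg hA ha0]
    · unfold tTwo; ring
  unfold Hfun
  linarith

/-- The near-dictator estimate: average of `Psi` of the noisy function along coordinate `i`. -/
theorem near_bound {F : (Fin n → Bool) → ℝ} (hF : ∀ x, F x = 1 ∨ F x = -1) (i : Fin n)
    {ρ c₁ c₂ σ s : ℝ} (hρ0 : 0 ≤ ρ) (hρ1 : ρ ≤ 1) (hc₂ : 0 ≤ c₂)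
    (hH : ∀ a : ℝ, 0 ≤ a → a ≤ 1 → Hfun ρ a ≤ - c₁ * a + c₂ * a ^ 2)
    (hσ : ρ ^ 2 ≤ σ) (hs0 : 0 ≤ s) (hs1 : s ≤ 1) (hσs : σ * (1 + s) ≤ 1 - s) :
    (∑ y, Psi (noise ρ F y)) / 2 ^ n ≤ Psi ρ
      - c₁ * ((∑ x, Gp F i x) / 2 ^ n + (∑ x, Gm F i x) / 2 ^ n)
      + c₂ * (((∑ x, Gp F i x) / 2 ^ n) ^ (1 + s) + ((∑ x, Gm F i x) / 2 ^ n) ^ (1 + s)) := by
  have hN : (0 : ℝ) < 2 ^ n := by positivity
  have hσ0 : 0 ≤ σ := (sq_nonneg ρ).trans hσ
  have hrv : ∀ j, |rv ρ i j| ≤ 1 := by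
    intro j
    unfold rv
    split_ifs
    · simp
    · rw [abs_of_nonneg hρ0]; exact hρ1
  have hrv2 : ∀ j, (rv ρ i j) ^ 2 ≤ σ := by
    intro j
    unfold rv
    split_ifs
    · simpa using hσ0
    · exact hσ
  set α := noiseV (rv ρ i) (Gp F i) with hα
  set β := noiseV (rv ρ i) (Gm F i) with hβ
  have hα0 : ∀ y, 0 ≤ α y := noiseV_nonneg hrv (Gp_cases hF i)
  have hα1 : ∀ y, α y ≤ 1 := noiseV_le_one hrv (Gp_cases hF i)
  have hβ0 : ∀ y, 0 ≤ β y := noiseV_nonneg hrv (Gm_cases hF i)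
  have hβ1 : ∀ y, β y ≤ 1 := noiseV_le_one hrv (Gm_cases hF i)
  have h1 : ∑ y, Psi (noise ρ F y) ≤ ∑ y, (Psi ρ + (- c₁ * α y + c₂ * (α y) ^ 2)
      + (- c₁ * β y + c₂ * (β y) ^ 2)) := by
    rw [sum_Psi_split ρ F i]
    apply Finset.sum_le_sum
    intro y _
    have h2 := branch_le hρ0 hρ1 (hα0 y) (hα1 y) (hβ0 y) (hβ1 y)
    have h3 := hH (α y) (hα0 y) (hα1 y)
    have h4 := hH (β y) (hβ0 y) (hβ1 y)
    linarith
  have hsum : ∑ y, (Psi ρ + (- c₁ * α y + c₂ * (α y) ^ 2) + (- c₁ * β y + c₂ * (β y) ^ 2))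
      = 2 ^ n * Psi ρ - c₁ * (∑ y, α y + ∑ y, β y) + c₂ * (∑ y, (α y) ^ 2 + ∑ y, (β y) ^ 2) := by
    simp only [Finset.sum_add_distrib, ← Finset.mul_sum, Finset.sum_const, Finset.card_univ,
      Fintype.card_fun, Fintype.card_bool, Fintype.card_fin, nsmul_eq_mul]
    push_cast
    ring
  rw [hsum, hα, hβ, sum_noiseV, sum_noiseV] at h1
  have h5 := hyper hσ0 hs0 hs1 hσs (rv ρ i) hrv2 (Gp F i) (Gp_cases hF i)
  have h6 := hyper hσ0 hs0 hs1 hσs (rv ρ i) hrv2 (Gm F i) (Gm_cases hF i)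
  rw [div_le_iff₀ hN]
  refine h1.trans ?_
  have h7 := mul_le_mul_of_nonneg_left (add_le_add h5 h6) hc₂
  have e : Psi ρ - c₁ * ((∑ x, Gp F i x) / 2 ^ n + (∑ x, Gm F i x) / 2 ^ n)
      + c₂ * (((∑ x, Gp F i x) / 2 ^ n) ^ (1 + s) + ((∑ x, Gm F i x) / 2 ^ n) ^ (1 + s))
      = Psi ρ - c₁ * ((∑ x, Gp F i x) / 2 ^ n + (∑ x, Gm F i x) / 2 ^ n)
      + c₂ * (((∑ x, Gp F i x) / 2 ^ n) ^ (1 + s) + ((∑ x, Gm F i x) / 2 ^ n) ^ (1 + s)) := rfl
  have h8 : c₂ * (∑ y, (noiseV (rv ρ i) (Gp F i) y) ^ 2 + ∑ y, (noiseV (rv ρ i) (Gm F i) y) ^ 2)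
      ≤ 2 ^ n * (c₂ * (((∑ x, Gp F i x) / 2 ^ n) ^ (1 + s) + ((∑ x, Gm F i x) / 2 ^ n) ^ (1 + s))) := by
    have : c₂ * (∑ y, (noiseV (rv ρ i) (Gp F i) y) ^ 2 + ∑ y, (noiseV (rv ρ i) (Gm F i) y) ^ 2)
        = 2 ^ n * (c₂ * ((∑ y, (noiseV (rv ρ i) (Gp F i) y) ^ 2) / 2 ^ n
          + (∑ y, (noiseV (rv ρ i) (Gm F i) y) ^ 2) / 2 ^ n)) := by
      field_simp
    rw [this]
    exact mul_le_mul_of_nonneg_left h7 hN.le
  have e2 : (Psi ρ - c₁ * ((∑ x, Gp F i x) / 2 ^ n + (∑ x, Gm F i x) / 2 ^ n)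
      + c₂ * (((∑ x, Gp F i x) / 2 ^ n) ^ (1 + s) + ((∑ x, Gm F i x) / 2 ^ n) ^ (1 + s))) * 2 ^ n
      = 2 ^ n * Psi ρ - c₁ * (∑ x, Gp F i x + ∑ x, Gm F i x)
        + 2 ^ n * (c₂ * (((∑ x, Gp F i x) / 2 ^ n) ^ (1 + s) + ((∑ x, Gm F i x) / 2 ^ n) ^ (1 + s))) := by
    field_simp
  rw [e2]
  linarith

end Vale.Agent.Lib.P322
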