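import Vale.Agent.Lib.P322.Ineq

/-! The two-parameter inequality closing the dual certificate. -/

set_option linter.unusedVariables false

namespace Vale.Agent.Lib.P322

open Real

section
variable {μ : ℝ}

/-- The auxiliary function whose nonnegativity is the closing inequality. -/
noncomputable def Hf (μ r : ℝ) : ℝ :=
  Psi r + Psi μ - (1 + μ) / 2 * Psi (μ + r * kap μ) - (1 - μ) / 2 * Psi (μ - r)
    - 3 * μ * r ^ 2 / (3 + 5 * μ)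

/-- Its derivative. -/
noncomputable def Hf1 (μ r : ℝ) : ℝ :=
  psi r - (1 + μ) / 2 * (psi (μ + r * kap μ) * kap μ) + (1 - μ) / 2 * psi (μ - r)
    - 6 * μ * r / (3 + 5 * μ)

/-- Its second derivative. -/
noncomputable def Hf2 (μ r : ℝ) : ℝ :=
  1 / (1 - r ^ 2) - (1 + μ) / 2 * (1 / (1 - (μ + r * kap μ) ^ 2) * kap μ * kap μ)
    - (1 - μ) / 2 * (1 / (1 - (μ - r) ^ 2)) - 6 * μ / (3 + 5 * μ)

lemma abs_r_lt {r : ℝ} (hr0 : 0 ≤ r) (hr : r ≤ 2 / 5) : |r| < 1 := by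
  rw [abs_of_nonneg hr0]; linarith

lemma abs_A_lt (h0 : 0 ≤ μ) (h1 : μ < 1) {r : ℝ} (hr0 : 0 ≤ r) (hr : r ≤ 2 / 5) :
    |μ + r * kap μ| < 1 :=
  lt_of_le_of_lt (abs_ctrA_le h0 h1 hr0 hr) (Ub_lt_one h0 h1)

lemma abs_C_lt (h0 : 0 ≤ μ) (h1 : μ < 1) {r : ℝ} (hr0 : 0 ≤ r) (hr : r ≤ 2 / 5) :
    |μ - r| < 1 :=
  lt_of_le_of_lt (abs_ctrC_le h0 h1 hr0 hr) (Ub_lt_one h0 h1)

lemma hasDerivAt_Hf (h0 : 0 ≤ μ) (h1 : μ < 1) {r : ℝ} (hr0 : 0 ≤ r) (hr : r ≤ 2 / 5) :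
    HasDerivAt (Hf μ) (Hf1 μ r) r := by
  have hin1 : HasDerivAt (fun x : ℝ => μ + x * kap μ) (kap μ) r := by
    simpa using ((hasDerivAt_id r).mul_const (kap μ)).const_add μ
  have hin2 : HasDerivAt (fun x : ℝ => μ - x) (-1) r := by
    simpa using (hasDerivAt_id r).const_sub μ
  have d1 := hasDerivAt_Psi (abs_r_lt hr0 hr)
  have d2 := ((hasDerivAt_Psi (abs_A_lt h0 h1 hr0 hr)).comp r hin1).const_mul ((1 + μ) / 2)
  have d3 := ((hasDerivAt_Psi (abs_C_lt h0 h1 hr0 hr)).comp r hin2).const_mul ((1 - μ) / 2)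
  have d4 : HasDerivAt (fun x : ℝ => 3 * μ * x ^ 2 / (3 + 5 * μ))
      (6 * μ * r / (3 + 5 * μ)) r := by
    have := ((hasDerivAt_pow 2 r).const_mul (3 * μ)).div_const (3 + 5 * μ)
    refine HasDerivAt.congr_deriv this ?_
    push_cast
    ring
  have e : Hf μ = fun r => Psi r + Psi μ - (1 + μ) / 2 * Psi (μ + r * kap μ)
      - (1 - μ) / 2 * Psi (μ - r) - 3 * μ * r ^ 2 / (3 + 5 * μ) := rfl
  rw [e]
  refine HasDerivAt.congr_deriv (((d1.add_const (Psi μ)).sub d2).sub d3 |>.sub d4) ?_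
  unfold Hf1
  ring

lemma hasDerivAt_Hf1 (h0 : 0 ≤ μ) (h1 : μ < 1) {r : ℝ} (hr0 : 0 ≤ r) (hr : r ≤ 2 / 5) :
    HasDerivAt (Hf1 μ) (Hf2 μ r) r := by
  have hin1 : HasDerivAt (fun x : ℝ => μ + x * kap μ) (kap μ) r := by
    simpa using ((hasDerivAt_id r).mul_const (kap μ)).const_add μ
  have hin2 : HasDerivAt (fun x : ℝ => μ - x) (-1) r := by
    simpa using (hasDerivAt_id r).const_sub μ
  have d1 := hasDerivAt_psi (abs_r_lt hr0 hr)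
  have d2 := (((hasDerivAt_psi (abs_A_lt h0 h1 hr0 hr)).comp r hin1).mul_const (kap μ)).const_mul
    ((1 + μ) / 2)
  have d3 := ((hasDerivAt_psi (abs_C_lt h0 h1 hr0 hr)).comp r hin2).const_mul ((1 - μ) / 2)
  have d4 : HasDerivAt (fun x : ℝ => 6 * μ * x / (3 + 5 * μ))
      (6 * μ / (3 + 5 * μ)) r := by
    have := ((hasDerivAt_id r).const_mul (6 * μ)).div_const (3 + 5 * μ)
    refine HasDerivAt.congr_deriv this ?_
    ring
  have e : Hf1 μ = fun r => psi r - (1 + μ) / 2 * (psi (μ + r * kap μ) * kap μ)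
      + (1 - μ) / 2 * psi (μ - r) - 6 * μ * r / (3 + 5 * μ) := rfl
  rw [e]
  refine HasDerivAt.congr_deriv ((d1.sub d2).add d3 |>.sub d4) ?_
  unfold Hf2
  ring

/-- The polynomial numerator of the second derivative. -/
noncomputable def Q1 (μ r : ℝ) : ℝ :=
  μ * (1 - μ) ^ 2 * (1 + μ) + r * μ * (13 + 6 * μ - 3 * μ ^ 2)
    + r ^ 2 * (12 - 2 * μ ^ 2 - 12 * μ ^ 3 - 6 * μ ^ 4)
    + r ^ 3 * (12 + 18 * μ ^ 2 + 18 * μ ^ 3) - r ^ 4 * (6 + 18 * μ ^ 2) - 6 * r ^ 5 * (1 - μ)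

lemma Q1_nonneg (h0 : 0 ≤ μ) (h1 : μ ≤ 1) {r : ℝ} (hr0 : 0 ≤ r) (hr : r ≤ 2 / 5) :
    0 ≤ Q1 μ r := by
  have hm : 0 ≤ 1 - μ := by linarith
  have ha : 0 ≤ μ * (1 - μ) ^ 2 * (1 + μ) := by positivity
  have hμ2 : μ ^ 2 ≤ μ := by nlinarith
  have hμ3 : μ ^ 3 ≤ μ := by nlinarith [pow_nonneg h0 2]
  have hμ4 : μ ^ 4 ≤ μ := by nlinarith [pow_nonneg h0 3, pow_nonneg h0 2]
  have hb1 : -(8 * μ) ≤ 12 - 2 * μ ^ 2 - 12 * μ ^ 3 - 6 * μ ^ 4 := by linarith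
  have hb2 : r ^ 2 * (-(8 * μ)) ≤ r ^ 2 * (12 - 2 * μ ^ 2 - 12 * μ ^ 3 - 6 * μ ^ 4) :=
    mul_le_mul_of_nonneg_left hb1 (by positivity)
  have hb3 : 0 ≤ r * μ * (13 + 6 * μ - 3 * μ ^ 2) + r ^ 2 * (-(8 * μ)) := by
    have : r * μ * (13 + 6 * μ - 3 * μ ^ 2) + r ^ 2 * (-(8 * μ))
        = r * μ * (13 + 6 * μ - 3 * μ ^ 2 - 8 * r) := by ring
    rw [this]
    apply mul_nonneg (by positivity)
    nlinarith
  have hc : 0 ≤ r ^ 3 * (12 + 18 * μ ^ 2 + 18 * μ ^ 3 - r * (6 + 18 * μ ^ 2) - 6 * r ^ 2 * (1 - μ)) := by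
    apply mul_nonneg (by positivity)
    have h2 : r * (6 + 18 * μ ^ 2) ≤ 2 / 5 * (6 + 18 * μ ^ 2) :=
      mul_le_mul_of_nonneg_right hr (by positivity)
    have h3 : r ^ 2 ≤ (2 / 5) ^ 2 := pow_le_pow_left₀ hr0 hr 2
    have h4 : 6 * r ^ 2 * (1 - μ) ≤ 6 * (2 / 5) ^ 2 * 1 := by
      apply mul_le_mul _ (by linarith) hm (by norm_num)
      linarith
    have := pow_nonneg h0 3
    have := pow_nonneg h0 2
    norm_num at h2 h4
    linarith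
  unfold Q1
  have e : r ^ 3 * (12 + 18 * μ ^ 2 + 18 * μ ^ 3 - r * (6 + 18 * μ ^ 2) - 6 * r ^ 2 * (1 - μ))
      = r ^ 3 * (12 + 18 * μ ^ 2 + 18 * μ ^ 3) - r ^ 4 * (6 + 18 * μ ^ 2) - 6 * r ^ 5 * (1 - μ) := by
    ring
  linarith

lemma Hf2_nonneg (h0 : 0 ≤ μ) (h1 : μ < 1) {r : ℝ} (hr0 : 0 ≤ r) (hr : r ≤ 2 / 5) :
    0 ≤ Hf2 μ r := by
  set E := (1 + μ) ^ 2 + r * (1 - μ) with hE
  have hm : 0 < 1 - μ := by linarith
  have hb : 0 < 1 + μ := by linarith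
  have hEpos : 0 < E := by
    have : 0 ≤ r * (1 - μ) := mul_nonneg hr0 hm.le
    rw [hE]; positivity
  have hn : 0 < 1 + μ - r := by linarith
  have hn2 : 0 < 1 - μ + r := by linarith
  have hr2 : 0 < 1 - r ^ 2 := by nlinarith
  have hf : 0 < 3 + 5 * μ := by linarith
  have hsq : 1 - (μ + r * kap μ) ^ 2 = (1 - μ) * (1 + μ - r) * E / (1 + μ) ^ 2 := by
    unfold kap
    rw [hE]
    field_simp
    ring
  have hsq2 : 1 - (μ - r) ^ 2 = (1 - μ + r) * (1 + μ - r) := by ring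
  have key : Hf2 μ r = μ * Q1 μ r / ((1 - r ^ 2) * (1 + μ - r) * E * (1 - μ + r) * (3 + 5 * μ)) := by
    unfold Hf2
    rw [hsq, hsq2]
    unfold Q1 kap
    rw [hE] at *
    field_simp
    ring
  rw [key]
  have := Q1_nonneg h0 h1.le hr0 hr
  positivity

lemma Hf1_zero (h1 : μ < 1) (h0 : 0 ≤ μ) : Hf1 μ 0 = 0 := by
  unfold Hf1 kap
  have hb : 1 + μ ≠ 0 := by linarith
  have : psi 0 = 0 := by simp [psi]
  rw [this]
  simp only [zero_mul, add_zero, sub_zero, mul_zero, zero_div]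
  field_simp
  ring

lemma Hf_zero : Hf μ 0 = 0 := by
  unfold Hf
  rw [Psi_zero]
  simp only [zero_mul, add_zero, sub_zero]
  norm_num
  ring

lemma Hf1_nonneg (h0 : 0 ≤ μ) (h1 : μ < 1) {r : ℝ} (hr0 : 0 ≤ r) (hr : r ≤ 2 / 5) :
    0 ≤ Hf1 μ r := by
  have hmono : MonotoneOn (Hf1 μ) (Set.Icc 0 (2 / 5)) := by
    refine monotoneOn_of_hasDerivWithinAt_nonneg (convex_Icc _ _) (f' := Hf2 μ) ?_ ?_ ?_
    · intro x hx
      exact (hasDerivAt_Hf1 h0 h1 hx.1 hx.2).continuousAt.continuousWithinAt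
    · intro x hx
      have hx' := interior_subset hx
      exact (hasDerivAt_Hf1 h0 h1 hx'.1 hx'.2).hasDerivWithinAt
    · intro x hx
      have hx' := interior_subset hx
      exact Hf2_nonneg h0 h1 hx'.1 hx'.2
  have := hmono (Set.left_mem_Icc.mpr (by norm_num)) ⟨hr0, hr⟩ hr0
  rwa [Hf1_zero h1 h0] at this

lemma Hf_nonneg (h0 : 0 ≤ μ) (h1 : μ < 1) {r : ℝ} (hr0 : 0 ≤ r) (hr : r ≤ 2 / 5) :
    0 ≤ Hf μ r := by
  have hmono : MonotoneOn (Hf μ) (Set.Icc 0 (2 / 5)) := by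
    refine monotoneOn_of_hasDerivWithinAt_nonneg (convex_Icc _ _) (f' := Hf1 μ) ?_ ?_ ?_
    · intro x hx
      exact (hasDerivAt_Hf h0 h1 hx.1 hx.2).continuousAt.continuousWithinAt
    · intro x hx
      have hx' := interior_subset hx
      exact (hasDerivAt_Hf h0 h1 hx'.1 hx'.2).hasDerivWithinAt
    · intro x hx
      have hx' := interior_subset hx
      exact Hf1_nonneg h0 h1 hx'.1 hx'.2
  have := hmono (Set.left_mem_Icc.mpr (by norm_num)) ⟨hr0, hr⟩ hr0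
  rwa [Hf_zero] at this

/-- The closing inequality of the certificate. -/
theorem star (h0 : 0 ≤ μ) (h1 : μ < 1) {ρ : ℝ} (hr0 : 0 ≤ ρ) (hr : ρ ≤ 2 / 5) :
    (1 + μ) / 2 * Psi (ctrA μ ρ) + (1 - μ) / 2 * Psi (ctrC μ ρ) + 3 * μ * ρ ^ 2 / (3 + 5 * μ)
      ≤ Psi ρ + Psi μ := by
  have := Hf_nonneg h0 h1 hr0 hr
  unfold Hf at this
  unfold ctrA ctrC
  linarith

end

end Vale.Agent.Lib.P322
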